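import Vale.Agent.P029.Stmt

/-!
# P029: the Deligne-Drinfeld conjecture over a commutative ring, definitions for the statement

The same definitions as in `Vale.Agent.P029.Stmt`, with `ℚ` replaced by a commutative ring `R`.
-/

noncomputable section

namespace Vale.Agent.P029.H819

/-- The iterated bracket of letters of total weight `n`, where the letter `i` has weight `w i`. -/
inductive IsMon (R : Type) [CommRing R] {X : Type} (w : X → ℕ) : ℕ → FreeLieAlgebra R X → Prop
  | of (i : X) : IsMon R w (w i) (FreeLieAlgebra.of R i)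
  | lie {m n : ℕ} {a b : FreeLieAlgebra R X} (ha : IsMon R w m a) (hb : IsMon R w n b) :
      IsMon R w (m + n) ⁅a, b⁆

/-- The weight `n` part of the free Lie algebra over `R` on the letters `X` with weights `w`. -/
def wtPart (R : Type) [CommRing R] {X : Type} (w : X → ℕ) (n : ℕ) :
    Submodule R (FreeLieAlgebra R X) :=
  Submodule.span R {a | IsMon R w n a}

/-- The free Lie algebra over `R` on the two letters `x`, `y`. -/
abbrev L (R : Type) [CommRing R] : Type := FreeLieAlgebra R (Fin 2)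

/-- The letter `x`. -/
def x (R : Type) [CommRing R] : L R := FreeLieAlgebra.of R 0

/-- The letter `y`. -/
def y (R : Type) [CommRing R] : L R := FreeLieAlgebra.of R 1

/-- The free Lie algebra over `R` on the letters `t i j`, `i, j ∈ {0, 1, 2, 3}`. -/
abbrev FT (R : Type) [CommRing R] : Type := FreeLieAlgebra R (Fin 4 × Fin 4)

/-- The letter `t i j`. -/
def tt (R : Type) [CommRing R] (i j : Fin 4) : FT R := FreeLieAlgebra.of R (i, j)

/-- The defining relators of `𝔱₄` over `R`. -/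
inductive T4Rel (R : Type) [CommRing R] : FT R → Prop
  | diag (i : Fin 4) : T4Rel R (tt R i i)
  | symm (i j : Fin 4) : T4Rel R (tt R i j - tt R j i)
  | comm (i j k l : Fin 4) (hij : i ≠ j) (hik : i ≠ k) (hil : i ≠ l) (hjk : j ≠ k) (hjl : j ≠ l)
      (hkl : k ≠ l) : T4Rel R ⁅tt R i j, tt R k l⁆
  | tri (i j k : Fin 4) (hij : i ≠ j) (hik : i ≠ k) (hjk : j ≠ k) :
      T4Rel R ⁅tt R i j, tt R i k + tt R j k⁆

/-- The ideal generated by the relators. -/
def T4Ideal (R : Type) [CommRing R] : LieIdeal R (FT R) :=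
  LieSubmodule.lieSpan R (FT R) {r | T4Rel R r}

/-- The Lie algebra `𝔱₄` over `R`. -/
abbrev T4 (R : Type) [CommRing R] : Type := FT R ⧸ T4Ideal R

/-- The generator `t i j` of `𝔱₄`. -/
def t (R : Type) [CommRing R] (i j : Fin 4) : T4 R := LieSubmodule.Quotient.mk (tt R i j)

/-- `sub a b ψ = ψ(a, b)` for elements `a, b` of a Lie algebra `g` over `R`. -/
def sub {R g : Type} [CommRing R] [LieRing g] [LieAlgebra R g] (a b : g) (ψ : L R) : g :=
  FreeLieAlgebra.lift R ![a, b] ψ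

/-- Antisymmetry. -/
def Anti (R : Type) [CommRing R] (ψ : L R) : Prop :=
  sub (x R) (y R) ψ + sub (y R) (x R) ψ = 0

/-- The hexagon equation. -/
def Hexa (R : Type) [CommRing R] (ψ : L R) : Prop :=
  sub (x R) (y R) ψ + sub (y R) (-x R - y R) ψ + sub (-x R - y R) (x R) ψ = 0

/-- The pentagon equation in `𝔱₄`. -/
def Penta (R : Type) [CommRing R] (ψ : L R) : Prop :=
  sub (t R 0 1) (t R 1 2 + t R 1 3) ψ + sub (t R 0 2 + t R 1 2) (t R 2 3) ψ =
    sub (t R 1 2) (t R 2 3) ψ + sub (t R 0 1 + t R 0 2) (t R 1 3 + t R 2 3) ψ +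
      sub (t R 0 1) (t R 1 2) ψ

/-- The defining equations of `W(R)`: antisymmetry, hexagon and pentagon. -/
def IsW (R : Type) [CommRing R] (ψ : L R) : Prop := Anti R ψ ∧ Hexa R ψ ∧ Penta R ψ

/-- The elements of `W(R)` of weight `n`. -/
def IsWn (R : Type) [CommRing R] (n : ℕ) (ψ : L R) : Prop :=
  IsW R ψ ∧ ψ ∈ wtPart R (fun _ => 1) n

/-- `D` is the derivation `D_ψ` of `L`: `D x = 0`, `D y = [y, ψ]`. -/
def IsD (R : Type) [CommRing R] (ψ : L R) (D : L R → L R) : Prop :=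
  (∀ a b, D (a + b) = D a + D b) ∧ (∀ (c : R) (a : L R), D (c • a) = c • D a) ∧
    (∀ a b, D ⁅a, b⁆ = ⁅D a, b⁆ + ⁅a, D b⁆) ∧ D (x R) = 0 ∧ D (y R) = ⁅y R, ψ⁆

/-- `χ` is the Ihara bracket `{ψ, φ} = D_ψ φ - D_φ ψ + [ψ, φ]`. -/
def IsBr (R : Type) [CommRing R] (ψ φ χ : L R) : Prop :=
  ∃ D E : L R → L R, IsD R ψ D ∧ IsD R φ E ∧ χ = D φ - E ψ + ⁅ψ, φ⁆

/-- The free Lie algebra over `R` on the letters `e k`, `k = 0, 1, 2, …`. -/
abbrev F (R : Type) [CommRing R] : Type := FreeLieAlgebra R ℕ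

/-- The weight `n` part of `F`, where `e k` has weight `2 k + 3`. -/
def Fpart (R : Type) [CommRing R] (n : ℕ) : Submodule R (F R) := wtPart R (fun k => 2 * k + 3) n

/-- `f` is an isomorphism of graded Lie algebras from `F` onto `W(R)` with the Ihara bracket. -/
def IsIso (R : Type) [CommRing R] (f : F R → L R) : Prop :=
  (∀ a b, f (a + b) = f a + f b) ∧ (∀ (c : R) (a : F R), f (c • a) = c • f a) ∧
    (∀ a b, IsBr R (f a) (f b) (f ⁅a, b⁆)) ∧ Function.Injective f ∧
    (∀ ψ, IsW R ψ ↔ ∃ a, f a = ψ) ∧ ∀ n ψ, IsWn R n ψ ↔ ∃ a ∈ Fpart R n, f a = ψ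

/-- The image in `L R` of an element of the free Lie ring `L ℤ`. -/
def toR (R : Type) [CommRing R] (z : L ℤ) : L R := FreeLieAlgebra.lift ℤ ![x R, y R] z

end Vale.Agent.P029.H819
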