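import Vale.Agent.P029.H819.Mod
import Vale.Agent.P029.H819.Defs

/-!
# P029: the equations over `R` in `𝔱₄` and in all Lie algebras with a `𝔭₅`-system
-/

noncomputable section

attribute [local instance 100] LieRing.ofAssociativeRing

namespace Vale.Agent.P029.Low.Z819

open Vale.Agent.P029 Low LieAlgebra

section
variable {R : Type} [CommRing R]

/-! ### the two descriptions of the weight parts -/

theorem isMon_iff {X : Type} (w : X → ℕ) (n : ℕ) (a : FreeLieAlgebra R X) :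
    H819.IsMon R w n a ↔ ∃ t : Tr X, t.wt w = n ∧ a = t.eval (FreeLieAlgebra.of R) := by
  constructor
  · intro h
    induction h with
    | of x => exact ⟨Tr.leaf x, rfl, rfl⟩
    | lie _ _ iha ihb =>
      obtain ⟨t, ht, rfl⟩ := iha
      obtain ⟨u, hu, rfl⟩ := ihb
      exact ⟨Tr.node t u, by rw [Tr.wt_node, ht, hu], by rw [Tr.eval_node]⟩
  · rintro ⟨t, rfl, rfl⟩
    induction t with
    | leaf x => exact H819.IsMon.of x
    | node t u ht hu =>
      rw [Tr.wt_node, Tr.eval_node]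
      exact H819.IsMon.lie ht hu

theorem wtPart_eq {X : Type} (w : X → ℕ) (n : ℕ) : H819.wtPart R w n = wtPart R w n := by
  have h : {a | H819.IsMon R w n a} =
      {a | ∃ t : Tr X, t.wt w = n ∧ a = t.eval (FreeLieAlgebra.of R)} :=
    Set.ext fun a => isMon_iff w n a
  change Submodule.span R {a | H819.IsMon R w n a} = _
  rw [h]
  rfl

/-! ### the relations of `𝔱₄` -/

theorem mk_rel {r : H819.FT R} (h : H819.T4Rel R r) :
    (LieSubmodule.Quotient.mk r : H819.T4 R) = 0 :=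
  (LieSubmodule.Quotient.mk_eq_zero').2 (LieSubmodule.subset_lieSpan h)

theorem t_symm (i j : Fin 4) : H819.t R i j = H819.t R j i := by
  have h := mk_rel (H819.T4Rel.symm (R := R) i j)
  have e : (LieSubmodule.Quotient.mk (H819.tt R i j - H819.tt R j i) : H819.T4 R) =
    H819.t R i j - H819.t R j i := rfl
  rw [e] at h
  exact sub_eq_zero.1 h

theorem t_comm (i j k l : Fin 4) (hij : i ≠ j) (hik : i ≠ k) (hil : i ≠ l) (hjk : j ≠ k)
    (hjl : j ≠ l) (hkl : k ≠ l) : ⁅H819.t R i j, H819.t R k l⁆ = 0 := by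
  have h := mk_rel (H819.T4Rel.comm (R := R) i j k l hij hik hil hjk hjl hkl)
  rw [LieSubmodule.Quotient.mk_bracket] at h
  exact h

theorem t_tri (i j k : Fin 4) (hij : i ≠ j) (hik : i ≠ k) (hjk : j ≠ k) :
    ⁅H819.t R i j, H819.t R i k + H819.t R j k⁆ = 0 := by
  have h := mk_rel (H819.T4Rel.tri (R := R) i j k hij hik hjk)
  rw [LieSubmodule.Quotient.mk_bracket] at h
  exact h

/-- A `P5`-system in `𝔱₄`. -/
theorem PS_T4 : ∃ X : Fin 5 → Fin 5 → H819.T4 R, PS X ∧ X 0 1 = H819.t R 0 1 ∧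
    X 1 2 = H819.t R 1 2 ∧ X 2 3 = H819.t R 2 3 ∧
    X 3 4 = H819.t R 0 1 + H819.t R 0 2 + H819.t R 1 2 ∧
    X 4 0 = H819.t R 1 2 + H819.t R 1 3 + H819.t R 2 3 := by
  refine ⟨T4S.M (H819.t R 0 1) (H819.t R 0 2) (H819.t R 1 2) (H819.t R 1 3) (H819.t R 2 3),
    ?_, rfl, rfl, rfl, rfl, rfl⟩
  have s10 := t_symm (R := R) 1 0
  have s20 := t_symm (R := R) 2 0
  have s30 := t_symm (R := R) 3 0
  have s21 := t_symm (R := R) 2 1
  have s31 := t_symm (R := R) 3 1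
  have s32 := t_symm (R := R) 3 2
  refine T4S.M_PS (d := H819.t R 0 3) (t_comm 0 1 2 3 ?_ ?_ ?_ ?_ ?_ ?_)
    (t_comm 0 2 1 3 ?_ ?_ ?_ ?_ ?_ ?_)
    (t_comm 0 3 1 2 ?_ ?_ ?_ ?_ ?_ ?_) ?_ ?_ ?_ ?_ ?_ ?_ ?_ ?_ ?_ ?_ ?_ ?_
  all_goals first | decide | skip
  · have h := t_tri (R := R) 1 2 0 (by decide) (by decide) (by decide); rwa [s10, s20] at h
  · have h := t_tri (R := R) 0 1 2 (by decide) (by decide) (by decide); exact h
  · have h := t_tri (R := R) 0 2 1 (by decide) (by decide) (by decide); rwa [s21] at h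
  · have h := t_tri (R := R) 1 2 3 (by decide) (by decide) (by decide); exact h
  · have h := t_tri (R := R) 1 3 2 (by decide) (by decide) (by decide); rwa [s32] at h
  · have h := t_tri (R := R) 2 3 1 (by decide) (by decide) (by decide); rwa [s21, s31] at h
  · have h := t_tri (R := R) 0 1 3 (by decide) (by decide) (by decide); exact h
  · have h := t_tri (R := R) 1 3 0 (by decide) (by decide) (by decide); rwa [s10, s30] at h
  · have h := t_tri (R := R) 0 3 1 (by decide) (by decide) (by decide); rwa [s31] at h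
  · have h := t_tri (R := R) 0 2 3 (by decide) (by decide) (by decide); exact h
  · have h := t_tri (R := R) 2 3 0 (by decide) (by decide) (by decide); rwa [s20, s30] at h
  · have h := t_tri (R := R) 0 3 2 (by decide) (by decide) (by decide); rwa [s32] at h

open T4Hom in
theorem ft_homR {g : Type} [LieRing g] [LieAlgebra R g] (x : Fin 5 → g) (hx : P5 x) :
    ∃ f : H819.FT R →ₗ⁅R⁆ g, (∀ z ∈ H819.T4Ideal R, f z = 0) ∧ f (H819.tt R 0 1) = x 0 ∧
      f (H819.tt R 1 2) = x 1 ∧ f (H819.tt R 2 3) = x 2 ∧ f (H819.tt R 0 2) = x 3 - x 0 - x 1 ∧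
      f (H819.tt R 1 3) = x 4 - x 1 - x 2 ∧ f (H819.tt R 0 3) = x 1 - x 3 - x 4 := by
  have c02 : ⁅x 0, x 2⁆ = 0 := hx.comm 0
  have c13 : ⁅x 1, x 3⁆ = 0 := hx.comm 1
  have c24 : ⁅x 2, x 4⁆ = 0 := hx.comm 2
  have c30 : ⁅x 3, x 0⁆ = 0 := hx.comm 3
  have c41 : ⁅x 4, x 1⁆ = 0 := hx.comm 4
  have hs : ⁅x 0, x 1⁆ + ⁅x 1, x 2⁆ + ⁅x 2, x 3⁆ + ⁅x 3, x 4⁆ + ⁅x 4, x 0⁆ = 0 := by
    have h := hx.sum
    rw [Fin.sum_univ_five] at h
    exact h
  set M := T (x 0) (x 1) (x 2) (x 3) (x 4) with hM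
  let F0 : Fin 4 × Fin 4 → g := fun p => M p.1 p.2
  let f : H819.FT R →ₗ⁅R⁆ g := FreeLieAlgebra.lift R F0
  have hf : ∀ i j, f (H819.tt R i j) = M i j := fun i j =>
    FreeLieAlgebra.lift_of_apply F0 (i, j)
  refine ⟨f, ?_, hf 0 1, hf 1 2, hf 2 3, hf 0 2, hf 1 3, hf 0 3⟩
  have hker : H819.T4Ideal R ≤ f.ker := by
    refine LieSubmodule.lieSpan_le.2 ?_
    rintro r hr
    show r ∈ f.ker
    rw [LieHom.mem_ker]
    cases hr with
    | diag i => rw [hf, hM, T_diag]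
    | symm i j => rw [map_sub, hf, hf, hM, T_symm i j, sub_self]
    | comm i j k l hij hik hil hjk hjl hkl =>
      rw [LieHom.map_lie, hf, hf]
      exact T_comm c13 c41 c02 hs i j k l hij hik hil hjk hjl hkl
    | tri i j k hij hik hjk =>
      rw [LieHom.map_lie, map_add, hf, hf, hf]
      exact T_tri c13 c41 c02 c24 c30 hs i j k hij hik hjk
  intro z hz
  exact LieHom.mem_ker.1 (hker hz)

/-- The quotient map as a Lie homomorphism. -/
def qR (R : Type) [CommRing R] : H819.FT R →ₗ⁅R⁆ H819.T4 R where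
  toFun := LieSubmodule.Quotient.mk
  map_add' _ _ := rfl
  map_smul' _ _ := rfl
  map_lie' {a b} := LieSubmodule.Quotient.mk_bracket (H819.T4Ideal R) a b

theorem anti_iff (ψ : LK R) : H819.Anti R ψ ↔ ψ + sb (ky R) (kx R) ψ = 0 := by
  have e : H819.Anti R ψ ↔ sb (kx R) (ky R) ψ + sb (ky R) (kx R) ψ = 0 := Iff.rfl
  rw [e, sb_id]

theorem hexa_iff (ψ : LK R) : H819.Hexa R ψ ↔
    ψ + sb (ky R) (-kx R - ky R) ψ + sb (-kx R - ky R) (kx R) ψ = 0 := by
  have e : H819.Hexa R ψ ↔ sb (kx R) (ky R) ψ + sb (ky R) (-kx R - ky R) ψ +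
    sb (-kx R - ky R) (kx R) ψ = 0 := Iff.rfl
  rw [e, sb_id]

theorem anti_apply {g : Type} [LieRing g] [LieAlgebra R g] {ψ : LK R} (h : H819.Anti R ψ)
    (a b : g) : sb a b ψ = - sb b a ψ := by
  rw [anti_iff] at h
  have h1 := congrArg (sb a b) h
  rw [map_add, map_zero, sb_sb, sb_x, sb_y] at h1
  exact eq_neg_of_add_eq_zero_left h1

/-- The five term relation from antisymmetry and the pentagon. -/
theorem five_of_penta {g : Type} [LieRing g] [LieAlgebra R g] (x : Fin 5 → g) (hx : P5 x) {n : ℕ}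
    (hn : 2 ≤ n) {ψ : LK R} (h0 : ψ ∈ wt2 R n) (hA : H819.Anti R ψ) (h3 : H819.Penta R ψ) :
    sb (x 0) (x 1) ψ + sb (x 1) (x 2) ψ + sb (x 2) (x 3) ψ + sb (x 3) (x 4) ψ
      + sb (x 4) (x 0) ψ = 0 := by
  have anti : ∀ a b : g, sb a b ψ = - sb b a ψ := anti_apply hA
  obtain ⟨f, hf, f01, f12, f23, f02, f13, -⟩ := ft_homR (R := R) x hx
  -- pull the pentagon back to the free Lie algebra
  have key : ∀ a b : H819.FT R, sb (LieSubmodule.Quotient.mk a : H819.T4 R)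
      (LieSubmodule.Quotient.mk b) ψ = LieSubmodule.Quotient.mk (sb a b ψ) := by
    intro a b
    have := map_sb (qR R) a b ψ
    exact this.symm
  have hr : (LieSubmodule.Quotient.mk (sb (H819.tt R 0 1) (H819.tt R 1 2 + H819.tt R 1 3) ψ
      + sb (H819.tt R 0 2 + H819.tt R 1 2) (H819.tt R 2 3) ψ - (sb (H819.tt R 1 2) (H819.tt R 2 3) ψ
      + sb (H819.tt R 0 1 + H819.tt R 0 2) (H819.tt R 1 3 + H819.tt R 2 3) ψ
      + sb (H819.tt R 0 1) (H819.tt R 1 2) ψ)) : H819.T4 R) = 0 := by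
    have k1 := key (H819.tt R 0 1) (H819.tt R 1 2 + H819.tt R 1 3)
    have k2 := key (H819.tt R 0 2 + H819.tt R 1 2) (H819.tt R 2 3)
    have k3 := key (H819.tt R 1 2) (H819.tt R 2 3)
    have k4 := key (H819.tt R 0 1 + H819.tt R 0 2) (H819.tt R 1 3 + H819.tt R 2 3)
    have k5 := key (H819.tt R 0 1) (H819.tt R 1 2)
    have k := sub_eq_zero.2 h3
    change sb (LieSubmodule.Quotient.mk (H819.tt R 0 1) : H819.T4 R)
        (LieSubmodule.Quotient.mk (H819.tt R 1 2 + H819.tt R 1 3)) ψ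
      + sb (LieSubmodule.Quotient.mk (H819.tt R 0 2 + H819.tt R 1 2) : H819.T4 R)
        (LieSubmodule.Quotient.mk (H819.tt R 2 3)) ψ
      - (sb (LieSubmodule.Quotient.mk (H819.tt R 1 2) : H819.T4 R)
        (LieSubmodule.Quotient.mk (H819.tt R 2 3)) ψ
      + sb (LieSubmodule.Quotient.mk (H819.tt R 0 1 + H819.tt R 0 2) : H819.T4 R)
        (LieSubmodule.Quotient.mk (H819.tt R 1 3 + H819.tt R 2 3)) ψ
      + sb (LieSubmodule.Quotient.mk (H819.tt R 0 1) : H819.T4 R)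
        (LieSubmodule.Quotient.mk (H819.tt R 1 2)) ψ)
      = 0 at k
    rw [k1, k2, k3, k4, k5] at k
    exact k
  have hm := hf _ (LieSubmodule.Quotient.mk_eq_zero'.1 hr)
  rw [map_sub, map_add, map_add, map_add, map_sb, map_sb, map_sb, map_sb, map_sb, map_add, map_add,
    map_add, map_add, f01, f12, f23, f02, f13] at hm
  have c02 : ⁅x 0, x 2⁆ = 0 := hx.comm 0
  have c13 : ⁅x 1, x 3⁆ = 0 := hx.comm 1
  have c24 : ⁅x 2, x 4⁆ = 0 := hx.comm 2
  have c30 : ⁅x 3, x 0⁆ = 0 := hx.comm 3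
  have c41 : ⁅x 4, x 1⁆ = 0 := hx.comm 4
  have b1 : sb (x 0) (x 1 + (x 4 - x 1 - x 2)) ψ = - sb (x 4) (x 0) ψ := by
    rw [← anti]
    have := sb_shift hn h0 (a := x 0) (b := x 4) (z := 0) (z' := - x 2) (zero_lie _) (zero_lie _)
      (by rw [neg_lie, T4S.skew0 c02, neg_zero]) (by rw [neg_lie, c24, neg_zero]) (zero_lie _)
    rw [add_zero] at this
    rw [← this]; congr 2; abel
  have b2 : sb (x 3 - x 0 - x 1 + x 1) (x 2) ψ = - sb (x 2) (x 3) ψ := by
    rw [← anti]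
    have := sb_shift hn h0 (a := x 3) (b := x 2) (z := - x 0) (z' := 0)
      (by rw [neg_lie, T4S.skew0 c30, neg_zero]) (by rw [neg_lie, c02, neg_zero]) (zero_lie _)
      (zero_lie _) (lie_zero _)
    rw [add_zero] at this
    rw [← this]; congr 2; abel
  have b3 : sb (x 0 + (x 3 - x 0 - x 1)) (x 4 - x 1 - x 2 + x 2) ψ = sb (x 3) (x 4) ψ := by
    have := sb_shift hn h0 (a := x 3) (b := x 4) (z := - x 1) (z' := - x 1)
      (by rw [neg_lie, c13, neg_zero]) (by rw [neg_lie, T4S.skew0 c41, neg_zero])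
      (by rw [neg_lie, c13, neg_zero]) (by rw [neg_lie, T4S.skew0 c41, neg_zero]) (lie_self _)
    rw [← this]; congr 2 <;> abel
  rw [b1, b2, b3] at hm
  rw [← neg_eq_zero, ← hm]
  abel

theorem five_eq_zero {n : ℕ} (hn : 2 ≤ n) {ψ : LK R} (h0 : ψ ∈ wt2 R n) (hA : H819.Anti R ψ)
    (h3 : H819.Penta R ψ) : five R ψ = 0 := by
  rw [five, Fin.sum_univ_five]
  exact five_of_penta (XX R) (XX_P5 R) hn h0 hA h3

/-- The pentagon from antisymmetry and the five term relation. -/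
theorem penta_of_five {n : ℕ} (hn : 2 ≤ n) {ψ : LK R} (h0 : ψ ∈ wt2 R n) (hA : H819.Anti R ψ)
    (h5 : five R ψ = 0) : H819.Penta R ψ := by
  obtain ⟨X, hX, x01, x12, x23, x34, x40⟩ := PS_T4 (R := R)
  have hp := five_univ (T4S.P5_ofPS hX) h5
  rw [Fin.sum_univ_five] at hp
  change sb (X 0 1) (X 1 2) ψ + sb (X 1 2) (X 2 3) ψ + sb (X 2 3) (X 3 4) ψ
    + sb (X 3 4) (X 4 0) ψ + sb (X 4 0) (X 0 1) ψ = 0 at hp
  rw [x01, x12, x23, x34, x40] at hp
  have anti : ∀ a b : H819.T4 R, sb a b ψ = - sb b a ψ := anti_apply hA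
  have s10 := t_symm (R := R) 1 0
  have s20 := t_symm (R := R) 2 0
  have s21 := t_symm (R := R) 2 1
  have s31 := t_symm (R := R) 3 1
  have a1 : ⁅H819.t R 0 1, H819.t R 0 2 + H819.t R 1 2⁆ = 0 :=
    t_tri 0 1 2 (by decide) (by decide) (by decide)
  have a2 : ⁅H819.t R 0 1, H819.t R 2 3⁆ = 0 :=
    t_comm 0 1 2 3 (by decide) (by decide) (by decide) (by decide) (by decide) (by decide)
  have a3 : ⁅H819.t R 2 3, H819.t R 1 2 + H819.t R 1 3⁆ = 0 := by
    have h := t_tri (R := R) 2 3 1 (by decide) (by decide) (by decide); rwa [s21, s31] at h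
  have a4 : ⁅H819.t R 1 2, H819.t R 0 1 + H819.t R 0 2⁆ = 0 := by
    have h := t_tri (R := R) 1 2 0 (by decide) (by decide) (by decide); rwa [s10, s20] at h
  have a5 : ⁅H819.t R 1 2, H819.t R 1 3 + H819.t R 2 3⁆ = 0 :=
    t_tri 1 2 3 (by decide) (by decide) (by decide)
  have b1 : sb (H819.t R 2 3) (H819.t R 0 1 + H819.t R 0 2 + H819.t R 1 2) ψ =
      - sb (H819.t R 0 2 + H819.t R 1 2) (H819.t R 2 3) ψ := by
    rw [anti]
    have := sb_shift hn h0 (a := H819.t R 0 2 + H819.t R 1 2) (b := H819.t R 2 3)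
      (z := H819.t R 0 1) (z' := 0) a1 a2 (zero_lie _) (zero_lie _) (lie_zero _)
    rw [add_zero, show H819.t R 0 2 + H819.t R 1 2 + H819.t R 0 1 =
      H819.t R 0 1 + H819.t R 0 2 + H819.t R 1 2 by abel] at this
    rw [this]
  have b2 : sb (H819.t R 1 2 + H819.t R 1 3 + H819.t R 2 3) (H819.t R 0 1) ψ =
      - sb (H819.t R 0 1) (H819.t R 1 2 + H819.t R 1 3) ψ := by
    rw [anti]
    have := sb_shift hn h0 (a := H819.t R 0 1) (b := H819.t R 1 2 + H819.t R 1 3) (z := 0)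
      (z' := H819.t R 2 3) (zero_lie _) (zero_lie _) (T4S.skew0 a2) a3 (zero_lie _)
    rw [add_zero] at this
    rw [this]
  have b3 : sb (H819.t R 0 1 + H819.t R 0 2 + H819.t R 1 2)
      (H819.t R 1 2 + H819.t R 1 3 + H819.t R 2 3) ψ
      = sb (H819.t R 0 1 + H819.t R 0 2) (H819.t R 1 3 + H819.t R 2 3) ψ := by
    have := sb_shift hn h0 (a := H819.t R 0 1 + H819.t R 0 2) (b := H819.t R 1 3 + H819.t R 2 3)
      (z := H819.t R 1 2) (z' := H819.t R 1 2) a4 a5 a4 a5 (lie_self _)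
    rw [show H819.t R 1 3 + H819.t R 2 3 + H819.t R 1 2 =
      H819.t R 1 2 + H819.t R 1 3 + H819.t R 2 3 by abel] at this
    exact this
  rw [b1, b2, b3] at hp
  change sb (H819.t R 0 1) (H819.t R 1 2 + H819.t R 1 3) ψ +
    sb (H819.t R 0 2 + H819.t R 1 2) (H819.t R 2 3) ψ =
    sb (H819.t R 1 2) (H819.t R 2 3) ψ +
      sb (H819.t R 0 1 + H819.t R 0 2) (H819.t R 1 3 + H819.t R 2 3) ψ +
      sb (H819.t R 0 1) (H819.t R 1 2) ψ
  rw [← sub_eq_zero, ← neg_eq_zero, ← hp]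
  abel

end

end Vale.Agent.P029.Low.Z819
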