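import Vale.Agent.P029.H819.Cmp

/-!
# P029 over the integers: the solutions of weight 3, 5, 7, 9
-/

namespace Vale.Agent.P029.Odd.Cmp

def d3 : List (Int × BT) :=
  [(-1, (.b .x (.b .x .y))),
   (1, (.b (.b .x .y) .y))]

def d5 : List (Int × BT) :=
  [(-2, (.b .x (.b .x (.b .x (.b .x .y))))),
   (4, (.b .x (.b .x (.b (.b .x .y) .y)))),
   (-3, (.b (.b .x (.b .x .y)) (.b .x .y))),
   (-4, (.b .x (.b (.b (.b .x .y) .y) .y))),
   (-1, (.b (.b .x .y) (.b (.b .x .y) .y))),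
   (2, (.b (.b (.b (.b .x .y) .y) .y) .y))]

def d7 : List (Int × BT) :=
  [(-16, (.b .x (.b .x (.b .x (.b .x (.b .x (.b .x .y))))))),
   (48, (.b .x (.b .x (.b .x (.b .x (.b (.b .x .y) .y)))))),
   (-80, (.b .x (.b .x (.b (.b .x (.b .x .y)) (.b .x .y))))),
   (-80, (.b .x (.b .x (.b .x (.b (.b (.b .x .y) .y) .y))))),
   (32, (.b (.b .x (.b .x (.b .x .y))) (.b .x (.b .x .y)))),
   (-19, (.b .x (.b .x (.b (.b .x .y) (.b (.b .x .y) .y))))),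
   (173, (.b .x (.b (.b .x (.b (.b .x .y) .y)) (.b .x .y)))),
   (80, (.b .x (.b .x (.b (.b (.b (.b .x .y) .y) .y) .y)))),
   (32, (.b (.b .x (.b .x .y)) (.b .x (.b (.b .x .y) .y)))),
   (-17, (.b (.b (.b .x (.b .x .y)) (.b .x .y)) (.b .x .y))),
   (99, (.b .x (.b (.b .x .y) (.b (.b (.b .x .y) .y) .y)))),
   (-61, (.b (.b .x (.b (.b .x .y) .y)) (.b (.b .x .y) .y))),
   (-109, (.b (.b .x (.b (.b (.b .x .y) .y) .y)) (.b .x .y))),
   (-48, (.b .x (.b (.b (.b (.b (.b .x .y) .y) .y) .y) .y))),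
   (65, (.b (.b .x .y) (.b (.b .x .y) (.b (.b .x .y) .y)))),
   (-64, (.b (.b .x .y) (.b (.b (.b (.b .x .y) .y) .y) .y))),
   (-48, (.b (.b (.b .x .y) .y) (.b (.b (.b .x .y) .y) .y))),
   (16, (.b (.b (.b (.b (.b (.b .x .y) .y) .y) .y) .y) .y))]

def d9 : List (Int × BT) :=
  [(-144, (.b .x (.b .x (.b .x (.b .x (.b .x (.b .x (.b .x (.b .x .y))))))))),
   (576, (.b .x (.b .x (.b .x (.b .x (.b .x (.b .x (.b (.b .x .y) .y)))))))),
   (-1512, (.b .x (.b .x (.b .x (.b .x (.b (.b .x (.b .x .y)) (.b .x .y))))))),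
   (-1344, (.b .x (.b .x (.b .x (.b .x (.b .x (.b (.b (.b .x .y) .y) .y))))))),
   (1440, (.b .x (.b .x (.b (.b .x (.b .x (.b .x .y))) (.b .x (.b .x .y)))))),
   (346, (.b .x (.b .x (.b .x (.b .x (.b (.b .x .y) (.b (.b .x .y) .y))))))),
   (6322, (.b .x (.b .x (.b .x (.b (.b .x (.b (.b .x .y) .y)) (.b .x .y)))))),
   (2016, (.b .x (.b .x (.b .x (.b .x (.b (.b (.b (.b .x .y) .y) .y) .y)))))),
   (-360, (.b (.b .x (.b .x (.b .x (.b .x .y)))) (.b .x (.b .x (.b .x .y))))),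
   (1598, (.b .x (.b .x (.b (.b .x (.b .x .y)) (.b .x (.b (.b .x .y) .y)))))),
   (-3214, (.b .x (.b .x (.b (.b (.b .x (.b .x .y)) (.b .x .y)) (.b .x .y))))),
   (2337, (.b .x (.b .x (.b .x (.b (.b .x .y) (.b (.b (.b .x .y) .y) .y)))))),
   (-2722, (.b .x (.b (.b .x (.b .x (.b (.b .x .y) .y))) (.b .x (.b .x .y))))),
   (-4724, (.b .x (.b .x (.b (.b .x (.b (.b .x .y) .y)) (.b (.b .x .y) .y))))),
   (-8823, (.b .x (.b .x (.b (.b .x (.b (.b (.b .x .y) .y) .y)) (.b .x .y))))),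
   (-2016, (.b .x (.b .x (.b .x (.b (.b (.b (.b (.b .x .y) .y) .y) .y) .y))))),
   (-600, (.b (.b .x (.b .x (.b .x .y))) (.b .x (.b .x (.b (.b .x .y) .y))))),
   (-2148, (.b .x (.b (.b .x (.b .x .y)) (.b (.b .x (.b .x .y)) (.b .x .y))))),
   (-3259, (.b .x (.b (.b .x (.b .x .y)) (.b .x (.b (.b (.b .x .y) .y) .y))))),
   (1118, (.b (.b .x (.b (.b .x (.b .x .y)) (.b .x .y))) (.b .x (.b .x .y)))),
   (5303, (.b .x (.b .x (.b (.b .x .y) (.b (.b .x .y) (.b (.b .x .y) .y)))))),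
   (2951, (.b .x (.b (.b .x (.b (.b .x .y) (.b (.b .x .y) .y))) (.b .x .y)))),
   (-4353, (.b .x (.b .x (.b (.b .x .y) (.b (.b (.b (.b .x .y) .y) .y) .y))))),
   (682, (.b (.b .x (.b .x (.b (.b .x .y) .y))) (.b .x (.b (.b .x .y) .y)))),
   (11276, (.b .x (.b (.b (.b .x (.b (.b .x .y) .y)) (.b .x .y)) (.b .x .y)))),
   (-479, (.b .x (.b .x (.b (.b (.b .x .y) .y) (.b (.b (.b .x .y) .y) .y))))),
   (1762, (.b (.b .x (.b .x (.b (.b (.b .x .y) .y) .y))) (.b .x (.b .x .y)))),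
   (8109, (.b .x (.b (.b .x (.b (.b (.b .x .y) .y) .y)) (.b (.b .x .y) .y)))),
   (6663, (.b .x (.b (.b .x (.b (.b (.b (.b .x .y) .y) .y) .y)) (.b .x .y)))),
   (1344, (.b .x (.b .x (.b (.b (.b (.b (.b (.b .x .y) .y) .y) .y) .y) .y)))),
   (89, (.b (.b .x (.b .x .y)) (.b .x (.b (.b .x .y) (.b (.b .x .y) .y))))),
   (5496, (.b (.b .x (.b .x .y)) (.b (.b .x (.b (.b .x .y) .y)) (.b .x .y)))),
   (1949, (.b (.b .x (.b .x .y)) (.b .x (.b (.b (.b (.b .x .y) .y) .y) .y)))),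
   (-291, (.b (.b (.b .x (.b .x .y)) (.b .x .y)) (.b .x (.b (.b .x .y) .y)))),
   (-1041, (.b (.b (.b (.b .x (.b .x .y)) (.b .x .y)) (.b .x .y)) (.b .x .y))),
   (-7472, (.b .x (.b (.b .x .y) (.b (.b .x .y) (.b (.b (.b .x .y) .y) .y))))),
   (4352, (.b .x (.b (.b (.b .x .y) (.b (.b .x .y) .y)) (.b (.b .x .y) .y)))),
   (2416, (.b (.b .x (.b (.b .x .y) (.b (.b (.b .x .y) .y) .y))) (.b .x .y))),
   (3686, (.b .x (.b (.b .x .y) (.b (.b (.b (.b (.b .x .y) .y) .y) .y) .y)))),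
   (1013, (.b (.b .x (.b (.b .x .y) .y)) (.b .x (.b (.b (.b .x .y) .y) .y)))),
   (-2059, (.b (.b .x (.b (.b .x .y) .y)) (.b (.b .x .y) (.b (.b .x .y) .y)))),
   (-5340, (.b (.b (.b .x (.b (.b .x .y) .y)) (.b (.b .x .y) .y)) (.b .x .y))),
   (3340, (.b .x (.b (.b (.b .x .y) .y) (.b (.b (.b (.b .x .y) .y) .y) .y)))),
   (-4388, (.b (.b (.b .x (.b (.b (.b .x .y) .y) .y)) (.b .x .y)) (.b .x .y))),
   (-1868, (.b (.b .x (.b (.b (.b .x .y) .y) .y)) (.b (.b (.b .x .y) .y) .y))),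
   (-3558, (.b (.b .x (.b (.b (.b (.b .x .y) .y) .y) .y)) (.b (.b .x .y) .y))),
   (-2434, (.b (.b .x (.b (.b (.b (.b (.b .x .y) .y) .y) .y) .y)) (.b .x .y))),
   (-576, (.b .x (.b (.b (.b (.b (.b (.b (.b .x .y) .y) .y) .y) .y) .y) .y))),
   (-3299, (.b (.b .x .y) (.b (.b .x .y) (.b (.b .x .y) (.b (.b .x .y) .y))))),
   (5446, (.b (.b .x .y) (.b (.b .x .y) (.b (.b (.b (.b .x .y) .y) .y) .y)))),
   (1768, (.b (.b .x .y) (.b (.b (.b .x .y) .y) (.b (.b (.b .x .y) .y) .y)))),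
   (-6452, (.b (.b (.b .x .y) (.b (.b (.b .x .y) .y) .y)) (.b (.b .x .y) .y))),
   (-1368, (.b (.b .x .y) (.b (.b (.b (.b (.b (.b .x .y) .y) .y) .y) .y) .y))),
   (-2088, (.b (.b (.b .x .y) .y) (.b (.b (.b (.b (.b .x .y) .y) .y) .y) .y))),
   (-936, (.b (.b (.b (.b .x .y) .y) .y) (.b (.b (.b (.b .x .y) .y) .y) .y))),
   (144, (.b (.b (.b (.b (.b (.b (.b (.b .x .y) .y) .y) .y) .y) .y) .y) .y))]

def s3 : P2 :=
  (.n (.n (.n .z (.c (Int.negSucc 0))) (.n (.c (Int.ofNat 2)) (.c (Int.ofNat 1)))) (.n (.n (.c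
  (Int.negSucc 0)) (.c (Int.negSucc 1))) (.n (.c (Int.ofNat 1)) .z)))

def s5 : P2 :=
  (.n (.n (.n (.n (.n .z (.c (Int.negSucc 1))) (.n (.c (Int.ofNat 8)) (.c (Int.ofNat 4)))) (.n (.n
  (.c (Int.negSucc 11)) (.c (Int.negSucc 10))) (.n (.c (Int.negSucc 0)) (.c (Int.negSucc 3)))))
  (.n (.n (.n (.c (Int.ofNat 8)) (.c (Int.ofNat 9))) (.n (.c (Int.ofNat 4)) (.c (Int.ofNat 11))))
  (.n (.n (.c (Int.negSucc 0)) (.c (Int.negSucc 8))) (.n (.c (Int.ofNat 6)) (.c (Int.ofNat 2))))))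
  (.n (.n (.n (.n (.c (Int.negSucc 1)) (.c (Int.negSucc 5))) (.n (.c (Int.ofNat 9)) (.c (Int.ofNat
  1)))) (.n (.n (.c (Int.negSucc 10)) (.c (Int.negSucc 3))) (.n (.c (Int.negSucc 8)) (.c
  (Int.negSucc 7))))) (.n (.n (.n (.c (Int.ofNat 4)) (.c (Int.ofNat 1))) (.n (.c (Int.ofNat 11))
  (.c (Int.ofNat 12)))) (.n (.n (.c (Int.negSucc 3)) (.c (Int.negSucc 7))) (.n (.c (Int.ofNat 2))
  .z)))))

def s7 : P2 :=
  (.n (.n (.n (.n (.n (.n (.n .z (.c (Int.negSucc 15))) (.n (.c (Int.ofNat 96)) (.c (Int.ofNat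
  48)))) (.n (.n (.c (Int.negSucc 239)) (.c (Int.negSucc 175))) (.n (.c (Int.negSucc 63)) (.c
  (Int.negSucc 79))))) (.n (.n (.n (.c (Int.ofNat 320)) (.c (Int.ofNat 272))) (.n (.c (Int.ofNat
  160)) (.c (Int.ofNat 221)))) (.n (.n (.c (Int.ofNat 48)) (.c (Int.negSucc 9))) (.n (.c
  (Int.ofNat 109)) (.c (Int.ofNat 80)))))) (.n (.n (.n (.n (.c (Int.negSucc 239)) (.c (Int.negSucc
  287))) (.n (.c (Int.ofNat 48)) (.c (Int.negSucc 121)))) (.n (.n (.c (Int.negSucc 287)) (.c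
  (Int.negSucc 156))) (.n (.c (Int.negSucc 261)) (.c (Int.negSucc 220))))) (.n (.n (.n (.c
  (Int.ofNat 48)) (.c (Int.ofNat 4))) (.n (.c (Int.ofNat 179)) (.c (Int.ofNat 122)))) (.n (.n (.c
  (Int.negSucc 121)) (.c (Int.negSucc 108))) (.n (.c (Int.negSucc 31)) (.c (Int.negSucc 47)))))))
  (.n (.n (.n (.n (.n (.c (Int.ofNat 96)) (.c (Int.ofNat 160))) (.n (.c (Int.negSucc 63)) (.c
  (Int.ofNat 109)))) (.n (.n (.c (Int.ofNat 48)) (.c (Int.negSucc 149))) (.n (.c (Int.ofNat 67))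
  (.c (Int.ofNat 10))))) (.n (.n (.n (.c (Int.ofNat 160)) (.c (Int.ofNat 291))) (.n (.c (Int.ofNat
  32)) (.c (Int.ofNat 157)))) (.n (.n (.c (Int.ofNat 179)) (.c (Int.ofNat 150))) (.n (.c
  (Int.ofNat 115)) (.c (Int.ofNat 176)))))) (.n (.n (.n (.n (.c (Int.negSucc 63)) (.c (Int.negSucc
  121))) (.n (.c (Int.ofNat 67)) (.c (Int.negSucc 3)))) (.n (.n (.c (Int.negSucc 261)) (.c
  (Int.negSucc 290))) (.n (.c (Int.negSucc 101)) (.c (Int.negSucc 271))))) (.n (.n (.n (.c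
  (Int.ofNat 109)) (.c (Int.ofNat 122))) (.n (.c (Int.ofNat 115)) (.c (Int.ofNat 288)))) (.n (.n
  (.c (Int.negSucc 31)) (.c (Int.negSucc 159))) (.n (.c (Int.ofNat 64)) (.c (Int.ofNat 16))))))))
  (.n (.n (.n (.n (.n (.n (.c (Int.negSucc 15)) (.c (Int.negSucc 63))) (.n (.c (Int.ofNat 160))
  (.c (Int.ofNat 32)))) (.n (.n (.c (Int.negSucc 287)) (.c (Int.negSucc 114))) (.n (.c
  (Int.negSucc 121)) (.c (Int.negSucc 108))))) (.n (.n (.n (.c (Int.ofNat 272)) (.c (Int.ofNat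
  102))) (.n (.c (Int.ofNat 291)) (.c (Int.ofNat 262)))) (.n (.n (.c (Int.ofNat 4)) (.c
  (Int.negSucc 66))) (.n (.c (Int.ofNat 122)) (.c (Int.ofNat 64)))))) (.n (.n (.n (.n (.c
  (Int.negSucc 175)) (.c (Int.negSucc 114))) (.n (.c (Int.negSucc 149)) (.c (Int.negSucc 178))))
  (.n (.n (.c (Int.negSucc 156)) (.c (Int.negSucc 31))) (.n (.c (Int.negSucc 290)) (.c
  (Int.negSucc 159))))) (.n (.n (.n (.c (Int.negSucc 9)) (.c (Int.negSucc 66))) (.n (.c (Int.ofNat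
  150)) (.c (Int.negSucc 47)))) (.n (.n (.c (Int.negSucc 108)) (.c (Int.ofNat 64))) (.n (.c
  (Int.negSucc 159)) (.c (Int.negSucc 95))))))) (.n (.n (.n (.n (.n (.c (Int.ofNat 48)) (.c
  (Int.ofNat 32))) (.n (.c (Int.ofNat 109)) (.c (Int.ofNat 122)))) (.n (.n (.c (Int.negSucc 121))
  (.c (Int.negSucc 178))) (.n (.c (Int.negSucc 3)) (.c (Int.negSucc 47))))) (.n (.n (.n (.c
  (Int.ofNat 221)) (.c (Int.ofNat 262))) (.n (.c (Int.ofNat 157)) (.c (Int.ofNat 288)))) (.n (.n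
  (.c (Int.ofNat 122)) (.c (Int.negSucc 47))) (.n (.c (Int.ofNat 288)) (.c (Int.ofNat 240))))))
  (.n (.n (.n (.n (.c (Int.negSucc 79)) (.c (Int.negSucc 108))) (.n (.c (Int.ofNat 10)) (.c
  (Int.negSucc 47)))) (.n (.n (.c (Int.negSucc 220)) (.c (Int.negSucc 159))) (.n (.c (Int.negSucc
  271)) (.c (Int.negSucc 319))))) (.n (.n (.n (.c (Int.ofNat 80)) (.c (Int.ofNat 64))) (.n (.c
  (Int.ofNat 176)) (.c (Int.ofNat 240)))) (.n (.n (.c (Int.negSucc 47)) (.c (Int.negSucc 95))) (.n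
  (.c (Int.ofNat 16)) .z)))))))

def s9 : P2 :=
  (.n (.n (.n (.n (.n (.n (.n (.n (.n .z (.c (Int.negSucc 143))) (.n (.c (Int.ofNat 1152)) (.c
  (Int.ofNat 576)))) (.n (.n (.c (Int.negSucc 4031)) (.c (Int.negSucc 2663))) (.n (.c (Int.negSucc
  1367)) (.c (Int.negSucc 1343))))) (.n (.n (.n (.c (Int.ofNat 8064)) (.c (Int.ofNat 5976))) (.n
  (.c (Int.ofNat 4032)) (.c (Int.ofNat 4378)))) (.n (.n (.c (Int.ofNat 2088)) (.c (Int.ofNat
  1252))) (.n (.c (Int.ofNat 2434)) (.c (Int.ofNat 2016)))))) (.n (.n (.n (.n (.c (Int.negSucc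
  10079)) (.c (Int.negSucc 9143))) (.n (.c (Int.negSucc 2447)) (.c (Int.negSucc 5069)))) (.n (.n
  (.c (Int.negSucc 7631)) (.c (Int.negSucc 5025))) (.n (.c (Int.negSucc 6723)) (.c (Int.negSucc
  5726))))) (.n (.n (.n (.c (Int.negSucc 935)) (.c (Int.negSucc 1451))) (.n (.c (Int.ofNat 1670))
  (.c (Int.ofNat 361)))) (.n (.n (.c (Int.negSucc 3557)) (.c (Int.negSucc 2764))) (.n (.c
  (Int.negSucc 1948)) (.c (Int.negSucc 2015))))))) (.n (.n (.n (.n (.n (.c (Int.ofNat 8064)) (.c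
  (Int.ofNat 9000))) (.n (.c (Int.ofNat 576)) (.c (Int.ofNat 5248)))) (.n (.n (.c (Int.ofNat
  4032)) (.c (Int.ofNat 212))) (.n (.c (Int.ofNat 4324)) (.c (Int.ofNat 3227))))) (.n (.n (.n (.c
  (Int.ofNat 7488)) (.c (Int.ofNat 8496))) (.n (.c (Int.ofNat 2688)) (.c (Int.ofNat 5070)))) (.n
  (.n (.c (Int.ofNat 7780)) (.c (Int.ofNat 6004))) (.n (.c (Int.ofNat 5380)) (.c (Int.ofNat
  5727)))))) (.n (.n (.n (.n (.c (Int.negSucc 935)) (.c (Int.negSucc 919))) (.n (.c (Int.ofNat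
  72)) (.c (Int.ofNat 103)))) (.n (.n (.c (Int.negSucc 4755)) (.c (Int.negSucc 4747))) (.n (.c
  (Int.negSucc 1971)) (.c (Int.negSucc 3226))))) (.n (.n (.n (.c (Int.ofNat 3736)) (.c (Int.ofNat
  3721))) (.n (.c (Int.ofNat 2362)) (.c (Int.ofNat 4067)))) (.n (.n (.c (Int.ofNat 1013)) (.c
  (Int.negSucc 264))) (.n (.c (Int.ofNat 1762)) (.c (Int.ofNat 1344)))))))) (.n (.n (.n (.n (.n
  (.n (.c (Int.negSucc 4031)) (.c (Int.negSucc 6119))) (.n (.c (Int.ofNat 3600)) (.c (Int.negSucc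
  2045)))) (.n (.n (.c (Int.negSucc 8063)) (.c (Int.negSucc 2371))) (.n (.c (Int.negSucc 5187))
  (.c (Int.negSucc 4066))))) (.n (.n (.n (.c (Int.ofNat 4032)) (.c (Int.negSucc 47))) (.n (.c
  (Int.ofNat 6576)) (.c (Int.ofNat 4036)))) (.n (.n (.c (Int.negSucc 1991)) (.c (Int.negSucc
  2409))) (.n (.c (Int.ofNat 894)) (.c (Int.negSucc 360)))))) (.n (.n (.n (.n (.c (Int.negSucc
  7631)) (.c (Int.negSucc 6623))) (.n (.c (Int.negSucc 5519)) (.c (Int.negSucc 6605)))) (.n (.n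
  (.c (Int.negSucc 5087)) (.c (Int.negSucc 2006))) (.n (.c (Int.negSucc 8062)) (.c (Int.negSucc
  5069))))) (.n (.n (.n (.c (Int.negSucc 4755)) (.c (Int.negSucc 5757))) (.n (.c (Int.ofNat 331))
  (.c (Int.negSucc 4035)))) (.n (.n (.c (Int.negSucc 5097)) (.c (Int.negSucc 1977))) (.n (.c
  (Int.negSucc 5374)) (.c (Int.negSucc 4377))))))) (.n (.n (.n (.n (.n (.c (Int.ofNat 2088)) (.c
  (Int.ofNat 1572))) (.n (.c (Int.ofNat 3096)) (.c (Int.ofNat 2595)))) (.n (.n (.c (Int.negSucc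
  1991)) (.c (Int.negSucc 1505))) (.n (.c (Int.ofNat 18)) (.c (Int.negSucc 102))))) (.n (.n (.n
  (.c (Int.ofNat 7780)) (.c (Int.ofNat 6778))) (.n (.c (Int.ofNat 5707)) (.c (Int.ofNat 6606))))
  (.n (.n (.c (Int.ofNat 4118)) (.c (Int.ofNat 2184))) (.n (.c (Int.ofNat 6167)) (.c (Int.ofNat
  5070)))))) (.n (.n (.n (.n (.c (Int.negSucc 3557)) (.c (Int.negSucc 3572))) (.n (.c (Int.negSucc
  1463)) (.c (Int.negSucc 2594)))) (.n (.n (.c (Int.negSucc 5097)) (.c (Int.negSucc 3211))) (.n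
  (.c (Int.negSucc 6368)) (.c (Int.negSucc 5247))))) (.n (.n (.n (.c (Int.ofNat 1013)) (.c
  (Int.ofNat 391))) (.n (.c (Int.ofNat 3019)) (.c (Int.ofNat 2046)))) (.n (.n (.c (Int.negSucc
  1363)) (.c (Int.negSucc 921))) (.n (.c (Int.negSucc 599)) (.c (Int.negSucc 575))))))))) (.n (.n
  (.n (.n (.n (.n (.n (.c (Int.ofNat 1152)) (.c (Int.ofNat 2520))) (.n (.c (Int.negSucc 2879)) (.c
  (Int.ofNat 922)))) (.n (.n (.c (Int.ofNat 3600)) (.c (Int.negSucc 1755))) (.n (.c (Int.ofNat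
  1238)) (.c (Int.ofNat 265))))) (.n (.n (.n (.c (Int.ofNat 576)) (.c (Int.ofNat 6268))) (.n (.c
  (Int.negSucc 767)) (.c (Int.ofNat 1978)))) (.n (.n (.c (Int.ofNat 3096)) (.c (Int.ofNat 4036)))
  (.n (.c (Int.ofNat 1060)) (.c (Int.ofNat 2765)))))) (.n (.n (.n (.n (.c (Int.negSucc 2447)) (.c
  (Int.negSucc 6267))) (.n (.c (Int.ofNat 96)) (.c (Int.negSucc 2183)))) (.n (.n (.c (Int.negSucc
  5519)) (.c (Int.negSucc 8000))) (.n (.c (Int.negSucc 1636)) (.c (Int.negSucc 6003))))) (.n (.n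
  (.n (.c (Int.ofNat 72)) (.c (Int.ofNat 558))) (.n (.c (Int.negSucc 402)) (.c (Int.ofNat 2410))))
  (.n (.n (.c (Int.negSucc 1463)) (.c (Int.negSucc 4035))) (.n (.c (Int.ofNat 57)) (.c
  (Int.negSucc 1251))))))) (.n (.n (.n (.n (.n (.c (Int.ofNat 4032)) (.c (Int.ofNat 6638))) (.n
  (.c (Int.negSucc 767)) (.c (Int.ofNat 3212)))) (.n (.n (.c (Int.ofNat 6576)) (.c (Int.ofNat
  4095))) (.n (.c (Int.ofNat 3849)) (.c (Int.ofNat 4748))))) (.n (.n (.n (.c (Int.ofNat 2688)) (.c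
  (Int.ofNat 5769))) (.n (.c (Int.ofNat 288)) (.c (Int.ofNat 2007)))) (.n (.n (.c (Int.ofNat
  5707)) (.c (Int.ofNat 8001))) (.n (.c (Int.ofNat 2644)) (.c (Int.ofNat 5026)))))) (.n (.n (.n
  (.n (.c (Int.ofNat 1670)) (.c (Int.ofNat 1678))) (.n (.c (Int.negSucc 402)) (.c (Int.ofNat
  1506)))) (.n (.n (.c (Int.ofNat 331)) (.c (Int.negSucc 4094))) (.n (.c (Int.ofNat 2328)) (.c
  (Int.negSucc 211))))) (.n (.n (.n (.c (Int.ofNat 2362)) (.c (Int.ofNat 4248))) (.n (.c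
  (Int.negSucc 373)) (.c (Int.ofNat 2372)))) (.n (.n (.c (Int.ofNat 3019)) (.c (Int.ofNat 1756)))
  (.n (.c (Int.ofNat 2318)) (.c (Int.ofNat 2664)))))))) (.n (.n (.n (.n (.n (.n (.c (Int.negSucc
  1367)) (.c (Int.negSucc 2203))) (.n (.c (Int.ofNat 1238)) (.c (Int.negSucc 390)))) (.n (.n (.c
  (Int.negSucc 5187)) (.c (Int.negSucc 4247))) (.n (.c (Int.negSucc 2589)) (.c (Int.negSucc
  3720))))) (.n (.n (.n (.c (Int.ofNat 4324)) (.c (Int.ofNat 3906))) (.n (.c (Int.ofNat 3849)) (.c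
  (Int.ofNat 5758)))) (.n (.n (.c (Int.ofNat 18)) (.c (Int.negSucc 557))) (.n (.c (Int.ofNat
  1421)) (.c (Int.ofNat 1452)))))) (.n (.n (.n (.n (.c (Int.negSucc 6723)) (.c (Int.negSucc
  8499))) (.n (.c (Int.negSucc 1636)) (.c (Int.negSucc 6777)))) (.n (.n (.c (Int.negSucc 8062))
  (.c (Int.negSucc 5768))) (.n (.c (Int.negSucc 7409)) (.c (Int.negSucc 8495))))) (.n (.n (.n (.c
  (Int.negSucc 1971)) (.c (Int.negSucc 3905))) (.n (.c (Int.ofNat 2328)) (.c (Int.ofNat 48)))) (.n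
  (.n (.c (Int.negSucc 6368)) (.c (Int.negSucc 6267))) (.n (.c (Int.negSucc 3353)) (.c
  (Int.negSucc 5975))))))) (.n (.n (.n (.n (.n (.c (Int.ofNat 2434)) (.c (Int.ofNat 3227))) (.n
  (.c (Int.ofNat 1060)) (.c (Int.ofNat 3573)))) (.n (.n (.c (Int.ofNat 894)) (.c (Int.negSucc
  1677))) (.n (.c (Int.ofNat 1421)) (.c (Int.ofNat 920))))) (.n (.n (.n (.c (Int.ofNat 5380)) (.c
  (Int.ofNat 8500))) (.n (.c (Int.ofNat 2644)) (.c (Int.ofNat 6624)))) (.n (.n (.c (Int.ofNat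
  6167)) (.c (Int.ofNat 6268))) (.n (.c (Int.ofNat 4472)) (.c (Int.ofNat 9144)))))) (.n (.n (.n
  (.n (.c (Int.negSucc 1948)) (.c (Int.negSucc 3226))) (.n (.c (Int.ofNat 57)) (.c (Int.negSucc
  1571)))) (.n (.n (.c (Int.negSucc 5374)) (.c (Int.negSucc 6637))) (.n (.c (Int.negSucc 3353))
  (.c (Int.negSucc 8999))))) (.n (.n (.n (.c (Int.ofNat 1762)) (.c (Int.ofNat 2204))) (.n (.c
  (Int.ofNat 2318)) (.c (Int.ofNat 6120)))) (.n (.n (.c (Int.negSucc 599)) (.c (Int.negSucc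
  2519))) (.n (.c (Int.ofNat 720)) (.c (Int.ofNat 144)))))))))) (.n (.n (.n (.n (.n (.n (.n (.n
  (.c (Int.negSucc 143)) (.c (Int.negSucc 719))) (.n (.c (Int.ofNat 2520)) (.c (Int.ofNat 600))))
  (.n (.n (.c (Int.negSucc 6119)) (.c (Int.negSucc 2317))) (.n (.c (Int.negSucc 2203)) (.c
  (Int.negSucc 1761))))) (.n (.n (.n (.c (Int.ofNat 9000)) (.c (Int.ofNat 3354))) (.n (.c
  (Int.ofNat 6638)) (.c (Int.ofNat 5375)))) (.n (.n (.c (Int.ofNat 1572)) (.c (Int.negSucc 56)))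
  (.n (.c (Int.ofNat 3227)) (.c (Int.ofNat 1949)))))) (.n (.n (.n (.n (.c (Int.negSucc 9143)) (.c
  (Int.negSucc 4471))) (.n (.c (Int.negSucc 6267)) (.c (Int.negSucc 6166)))) (.n (.n (.c
  (Int.negSucc 6623)) (.c (Int.negSucc 2643))) (.n (.c (Int.negSucc 8499)) (.c (Int.negSucc
  5379))))) (.n (.n (.n (.c (Int.negSucc 919)) (.c (Int.negSucc 1420))) (.n (.c (Int.ofNat 1678))
  (.c (Int.negSucc 893)))) (.n (.n (.c (Int.negSucc 3572)) (.c (Int.negSucc 1059))) (.n (.c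
  (Int.negSucc 3226)) (.c (Int.negSucc 2433))))))) (.n (.n (.n (.n (.n (.c (Int.ofNat 5976)) (.c
  (Int.ofNat 3354))) (.n (.c (Int.ofNat 6268)) (.c (Int.ofNat 6369)))) (.n (.n (.c (Int.negSucc
  47)) (.c (Int.negSucc 2327))) (.n (.c (Int.ofNat 3906)) (.c (Int.ofNat 1972))))) (.n (.n (.n (.c
  (Int.ofNat 8496)) (.c (Int.ofNat 7410))) (.n (.c (Int.ofNat 5769)) (.c (Int.ofNat 8063)))) (.n
  (.n (.c (Int.ofNat 6778)) (.c (Int.ofNat 1637))) (.n (.c (Int.ofNat 8500)) (.c (Int.ofNat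
  6724)))))) (.n (.n (.n (.n (.c (Int.negSucc 1451)) (.c (Int.negSucc 1420))) (.n (.c (Int.ofNat
  558)) (.c (Int.negSucc 17)))) (.n (.n (.c (Int.negSucc 5757)) (.c (Int.negSucc 3848))) (.n (.c
  (Int.negSucc 3905)) (.c (Int.negSucc 4323))))) (.n (.n (.n (.c (Int.ofNat 3721)) (.c (Int.ofNat
  2590))) (.n (.c (Int.ofNat 4248)) (.c (Int.ofNat 5188)))) (.n (.n (.c (Int.ofNat 391)) (.c
  (Int.negSucc 1237))) (.n (.c (Int.ofNat 2204)) (.c (Int.ofNat 1368)))))))) (.n (.n (.n (.n (.n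
  (.n (.c (Int.negSucc 2663)) (.c (Int.negSucc 2317))) (.n (.c (Int.negSucc 1755)) (.c
  (Int.negSucc 3018)))) (.n (.n (.c (Int.negSucc 2371)) (.c (Int.ofNat 374))) (.n (.c (Int.negSucc
  4247)) (.c (Int.negSucc 2361))))) (.n (.n (.n (.c (Int.ofNat 212)) (.c (Int.negSucc 2327))) (.n
  (.c (Int.ofNat 4095)) (.c (Int.negSucc 330)))) (.n (.n (.c (Int.negSucc 1505)) (.c (Int.ofNat
  403))) (.n (.c (Int.negSucc 1677)) (.c (Int.negSucc 1669)))))) (.n (.n (.n (.n (.c (Int.negSucc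
  5025)) (.c (Int.negSucc 2643))) (.n (.c (Int.negSucc 8000)) (.c (Int.negSucc 5706)))) (.n (.n
  (.c (Int.negSucc 2006)) (.c (Int.negSucc 287))) (.n (.c (Int.negSucc 5768)) (.c (Int.negSucc
  2687))))) (.n (.n (.n (.c (Int.negSucc 4747)) (.c (Int.negSucc 3848))) (.n (.c (Int.negSucc
  4094)) (.c (Int.negSucc 6575)))) (.n (.n (.c (Int.negSucc 3211)) (.c (Int.ofNat 768))) (.n (.c
  (Int.negSucc 6637)) (.c (Int.negSucc 4031))))))) (.n (.n (.n (.n (.n (.c (Int.ofNat 1252)) (.c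
  (Int.negSucc 56))) (.n (.c (Int.ofNat 4036)) (.c (Int.ofNat 1464)))) (.n (.n (.c (Int.negSucc
  2409)) (.c (Int.ofNat 403))) (.n (.c (Int.negSucc 557)) (.c (Int.negSucc 71))))) (.n (.n (.n (.c
  (Int.ofNat 6004)) (.c (Int.ofNat 1637))) (.n (.c (Int.ofNat 8001)) (.c (Int.ofNat 5520)))) (.n
  (.n (.c (Int.ofNat 2184)) (.c (Int.negSucc 95))) (.n (.c (Int.ofNat 6268)) (.c (Int.ofNat
  2448)))))) (.n (.n (.n (.n (.c (Int.negSucc 2764)) (.c (Int.negSucc 1059))) (.n (.c (Int.negSucc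
  4035)) (.c (Int.negSucc 3095)))) (.n (.n (.c (Int.negSucc 1977)) (.c (Int.ofNat 768))) (.n (.c
  (Int.negSucc 6267)) (.c (Int.negSucc 575))))) (.n (.n (.n (.c (Int.negSucc 264)) (.c
  (Int.negSucc 1237))) (.n (.c (Int.ofNat 1756)) (.c (Int.negSucc 3599)))) (.n (.n (.c
  (Int.negSucc 921)) (.c (Int.ofNat 2880))) (.n (.c (Int.negSucc 2519)) (.c (Int.negSucc
  1151))))))))) (.n (.n (.n (.n (.n (.n (.n (.c (Int.ofNat 576)) (.c (Int.ofNat 600))) (.n (.c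
  (Int.ofNat 922)) (.c (Int.ofNat 1364)))) (.n (.n (.c (Int.negSucc 2045)) (.c (Int.negSucc
  3018))) (.n (.c (Int.negSucc 390)) (.c (Int.negSucc 1012))))) (.n (.n (.n (.c (Int.ofNat 5248))
  (.c (Int.ofNat 6369))) (.n (.c (Int.ofNat 3212)) (.c (Int.ofNat 5098)))) (.n (.n (.c (Int.ofNat
  2595)) (.c (Int.ofNat 1464))) (.n (.c (Int.ofNat 3573)) (.c (Int.ofNat 3558)))))) (.n (.n (.n
  (.n (.c (Int.negSucc 5069)) (.c (Int.negSucc 6166))) (.n (.c (Int.negSucc 2183)) (.c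
  (Int.negSucc 4117)))) (.n (.n (.c (Int.negSucc 6605)) (.c (Int.negSucc 5706))) (.n (.c
  (Int.negSucc 6777)) (.c (Int.negSucc 7779))))) (.n (.n (.n (.c (Int.ofNat 103)) (.c (Int.negSucc
  17))) (.n (.c (Int.ofNat 1506)) (.c (Int.ofNat 1992)))) (.n (.n (.c (Int.negSucc 2594)) (.c
  (Int.negSucc 3095))) (.n (.c (Int.negSucc 1571)) (.c (Int.negSucc 2087))))))) (.n (.n (.n (.n
  (.n (.c (Int.ofNat 4378)) (.c (Int.ofNat 5375))) (.n (.c (Int.ofNat 1978)) (.c (Int.ofNat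
  5098)))) (.n (.n (.c (Int.ofNat 4036)) (.c (Int.negSucc 330))) (.n (.c (Int.ofNat 5758)) (.c
  (Int.ofNat 4756))))) (.n (.n (.n (.c (Int.ofNat 5070)) (.c (Int.ofNat 8063))) (.n (.c (Int.ofNat
  2007)) (.c (Int.ofNat 5088)))) (.n (.n (.c (Int.ofNat 6606)) (.c (Int.ofNat 5520))) (.n (.c
  (Int.ofNat 6624)) (.c (Int.ofNat 7632)))))) (.n (.n (.n (.n (.c (Int.ofNat 361)) (.c
  (Int.negSucc 893))) (.n (.c (Int.ofNat 2410)) (.c (Int.ofNat 1992)))) (.n (.n (.c (Int.negSucc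
  4035)) (.c (Int.negSucc 6575))) (.n (.c (Int.ofNat 48)) (.c (Int.negSucc 4031))))) (.n (.n (.n
  (.c (Int.ofNat 4067)) (.c (Int.ofNat 5188))) (.n (.c (Int.ofNat 2372)) (.c (Int.ofNat 8064))))
  (.n (.n (.c (Int.ofNat 2046)) (.c (Int.negSucc 3599))) (.n (.c (Int.ofNat 6120)) (.c (Int.ofNat
  4032)))))))) (.n (.n (.n (.n (.n (.n (.c (Int.negSucc 1343)) (.c (Int.negSucc 1761))) (.n (.c
  (Int.ofNat 265)) (.c (Int.negSucc 1012)))) (.n (.n (.c (Int.negSucc 4066)) (.c (Int.negSucc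
  2361))) (.n (.c (Int.negSucc 3720)) (.c (Int.negSucc 3735))))) (.n (.n (.n (.c (Int.ofNat 3227))
  (.c (Int.ofNat 1972))) (.n (.c (Int.ofNat 4748)) (.c (Int.ofNat 4756)))) (.n (.n (.c
  (Int.negSucc 102)) (.c (Int.negSucc 71))) (.n (.c (Int.ofNat 920)) (.c (Int.ofNat 936)))))) (.n
  (.n (.n (.n (.c (Int.negSucc 5726)) (.c (Int.negSucc 5379))) (.n (.c (Int.negSucc 6003)) (.c
  (Int.negSucc 7779)))) (.n (.n (.c (Int.negSucc 5069)) (.c (Int.negSucc 2687))) (.n (.c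
  (Int.negSucc 8495)) (.c (Int.negSucc 7487))))) (.n (.n (.n (.c (Int.negSucc 3226)) (.c
  (Int.negSucc 4323))) (.n (.c (Int.negSucc 211)) (.c (Int.negSucc 4031)))) (.n (.n (.c
  (Int.negSucc 5247)) (.c (Int.negSucc 575))) (.n (.c (Int.negSucc 8999)) (.c (Int.negSucc
  8063))))))) (.n (.n (.n (.n (.n (.c (Int.ofNat 2016)) (.c (Int.ofNat 1949))) (.n (.c (Int.ofNat
  2765)) (.c (Int.ofNat 3558)))) (.n (.n (.c (Int.negSucc 360)) (.c (Int.negSucc 1669))) (.n (.c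
  (Int.ofNat 1452)) (.c (Int.ofNat 936))))) (.n (.n (.n (.c (Int.ofNat 5727)) (.c (Int.ofNat
  6724))) (.n (.c (Int.ofNat 5026)) (.c (Int.ofNat 7632)))) (.n (.n (.c (Int.ofNat 5070)) (.c
  (Int.ofNat 2448))) (.n (.c (Int.ofNat 9144)) (.c (Int.ofNat 10080)))))) (.n (.n (.n (.n (.c
  (Int.negSucc 2015)) (.c (Int.negSucc 2433))) (.n (.c (Int.negSucc 1251)) (.c (Int.negSucc
  2087)))) (.n (.n (.c (Int.negSucc 4377)) (.c (Int.negSucc 4031))) (.n (.c (Int.negSucc 5975))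
  (.c (Int.negSucc 8063))))) (.n (.n (.n (.c (Int.ofNat 1344)) (.c (Int.ofNat 1368))) (.n (.c
  (Int.ofNat 2664)) (.c (Int.ofNat 4032)))) (.n (.n (.c (Int.negSucc 575)) (.c (Int.negSucc
  1151))) (.n (.c (Int.ofNat 144)) .z)))))))))

end Vale.Agent.P029.Odd.Cmp
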