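import Vale.Agent.P029.H819.Cof
import Vale.Agent.P029.H819.Dat

/-!
# P029 over the integers: the solutions of weight 3, 5, 7, 9
-/

noncomputable section

attribute [local instance 100] LieRing.ofAssociativeRing
attribute [-instance] LieRing.instLieAlgebra

namespace Vale.Agent.P029.Odd.Cmp

open Vale.Agent.P029 Low Low.Z819 Low.SolLin IsoInd

theorem chk3 : H819.IsWn ℤ 3 (lie d3) ∧ s3.to = toFree ℤ (Fin 2) (lie d3) :=
  isWn_of_cmp (by norm_num) (by decide +kernel) (by decide +kernel) (by decide +kernel)
    (by decide +kernel) (by decide +kernel)

theorem chk5 : H819.IsWn ℤ 5 (lie d5) ∧ s5.to = toFree ℤ (Fin 2) (lie d5) :=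
  isWn_of_cmp (by norm_num) (by decide +kernel) (by decide +kernel) (by decide +kernel)
    (by decide +kernel) (by decide +kernel)

theorem chk7 : H819.IsWn ℤ 7 (lie d7) ∧ s7.to = toFree ℤ (Fin 2) (lie d7) :=
  isWn_of_cmp (by norm_num) (by decide +kernel) (by decide +kernel) (by decide +kernel)
    (by decide +kernel) (by decide +kernel)

theorem chk9 : H819.IsWn ℤ 9 (lie d9) ∧ s9.to = toFree ℤ (Fin 2) (lie d9) :=
  isWn_of_cmp (by norm_num) (by decide +kernel) (by decide +kernel) (by decide +kernel)
    (by decide +kernel) (by decide +kernel)

/-- The relation of weight 12. -/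
def rel : P2 := ((iha s3 s9).sc 2).add ((iha s5 s7).sc (-27))

theorem rel_isM : rel.isM 691 = true := by decide +kernel

theorem cof3 : cof [false, false, true] s3 = -1 := by decide +kernel

theorem cof9a : cof [false, false, false, false, true, true, false, true, true] s9 = 361 := by
  decide +kernel

theorem cof9b : cof [false, false, false, true, true, false, false, true, false] s9 = 72 := by
  decide +kernel

theorem cof5 : cof [false, true, true, false, false] s5 = -1 := by decide +kernel

theorem cof7a : cof [false, false, false, true, false, false, true] s7 = 272 := by decide +kernel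

theorem cof7b : cof [false, false, false, true, true, true, false] s7 = 109 := by decide +kernel

end Vale.Agent.P029.Odd.Cmp
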