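import Vale.Agent.P029.H819.Final

/-!
# P029 over the integers: computing with noncommutative polynomials
-/

noncomputable section

attribute [local instance 100] LieRing.ofAssociativeRing
attribute [-instance] LieRing.instLieAlgebra

namespace Vale.Agent.P029.Odd.Cmp

open Vale.Agent.P029 Low Low.Z819 Low.SolLin

/-! ### polynomials as trees -/

/-- Polynomials in two letters: `n l r` is `x l + y r`. -/
inductive P2 : Type
  | z : P2
  | c : Int → P2
  | n : P2 → P2 → P2
  | s : P2 → P2 → P2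

/-- Polynomials in three letters: `n p g s` is `p0 p + p1 g + p2 s`. -/
inductive P3 : Type
  | z : P3
  | c : Int → P3
  | n : P3 → P3 → P3 → P3
  | s : P3 → P3 → P3

def P2.add : P2 → P2 → P2
  | .z, g => g
  | .c a, .z => .c a
  | .c a, .c b => .c (a + b)
  | .c a, .n p g => .s (.c a) (.n p g)
  | .c a, .s p g => .s (.c a) (.s p g)
  | .n p g, .z => .n p g
  | .n p g, .c b => .s (.n p g) (.c b)
  | .n p g, .n p' g' => .n (P2.add p p') (P2.add g g')
  | .n p g, .s p' g' => .s (.n p g) (.s p' g')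
  | .s p g, .z => .s p g
  | .s p g, .c b => .s (.s p g) (.c b)
  | .s p g, .n p' g' => .s (.s p g) (.n p' g')
  | .s p g, .s p' g' => .s (.s p g) (.s p' g')

def P3.add : P3 → P3 → P3
  | .z, g => g
  | .c a, .z => .c a
  | .c a, .c b => .c (a + b)
  | .c a, .n p g k => .s (.c a) (.n p g k)
  | .c a, .s p g => .s (.c a) (.s p g)
  | .n p g k, .z => .n p g k
  | .n p g k, .c b => .s (.n p g k) (.c b)
  | .n p g k, .n p' g' k' => .n (P3.add p p') (P3.add g g') (P3.add k k')
  | .n p g k, .s p' g' => .s (.n p g k) (.s p' g')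
  | .s p g, .z => .s p g
  | .s p g, .c b => .s (.s p g) (.c b)
  | .s p g, .n p' g' k' => .s (.s p g) (.n p' g' k')
  | .s p g, .s p' g' => .s (.s p g) (.s p' g')

def P2.sc (k : Int) : P2 → P2
  | .z => .z
  | .c a => .c (k * a)
  | .n p g => .n (P2.sc k p) (P2.sc k g)
  | .s p g => .s (P2.sc k p) (P2.sc k g)

def P2.neg : P2 → P2
  | .z => .z
  | .c a => .c (-a)
  | .n p g => .n (P2.neg p) (P2.neg g)
  | .s p g => .s (P2.neg p) (P2.neg g)

def P3.neg : P3 → P3
  | .z => .z
  | .c a => .c (-a)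
  | .n p g k => .n (P3.neg p) (P3.neg g) (P3.neg k)
  | .s p g => .s (P3.neg p) (P3.neg g)

def P2.mul : P2 → P2 → P2
  | .z, _ => .z
  | .c a, g => P2.sc a g
  | .n p q, g => .n (P2.mul p g) (P2.mul q g)
  | .s p q, g => (P2.mul p g).add (P2.mul q g)

def P2.brk (f g : P2) : P2 := (f.mul g).add (g.mul f).neg

def mv1 (f : P3) : P3 := .n (.n .z f.neg .z) (.n f .z .z) .z

def mv2 (f : P3) : P3 := .n (.n .z f f.neg) (.n f.neg .z f.neg) (.n f f .z)

def D1 : P3 → P3
  | .z => .z
  | .c _ => .z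
  | .n p g k => (P3.n (D1 p) (D1 g) (D1 k)).add (mv1 p)
  | .s p g => (D1 p).add (D1 g)

def D2 : P3 → P3
  | .z => .z
  | .c _ => .z
  | .n p g k => (P3.n (D2 p) (D2 g) (D2 k)).add (mv2 g)
  | .s p g => (D2 p).add (D2 g)

def op : Fin 5 → P3 → P3
  | 0, f => D1 f
  | 1, f => D2 f
  | 2, f => (D1 f).add (.n .z f.neg .z)
  | 3, f => .n .z .z f
  | 4, f => .n f .z .z

def eva (i j : Fin 5) : P2 → P3
  | .z => .z
  | .c a => .c a
  | .n x y => (op i (eva i j x)).add (op j (eva i j y))
  | .s x y => (eva i j x).add (eva i j y)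

def P3.isZ : P3 → Bool
  | .z => true
  | .c a => a == 0
  | .n p g k => p.isZ && g.isZ && k.isZ
  | .s p g => p.isZ && g.isZ

def P2.isZ : P2 → Bool
  | .z => true
  | .c a => a == 0
  | .n p g => p.isZ && g.isZ
  | .s p g => p.isZ && g.isZ

def P2.isM (k : Int) : P2 → Bool
  | .z => true
  | .c a => a % k == 0
  | .n p g => P2.isM k p && P2.isM k g
  | .s p g => P2.isM k p && P2.isM k g

def fiv (f : P2) : P3 :=
  (eva 0 1 f).add ((eva 1 2 f).add ((eva 2 3 f).add ((eva 3 4 f).add (eva 4 0 f))))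

/-- The letters: `0`, `1` for `x`, `y` and `2` for `-x-y`. -/
def lt : Fin 3 → P2 → P2
  | 0, f => .n f .z
  | 1, f => .n .z f
  | 2, f => .n f.neg f.neg

def evb (i j : Fin 3) : P2 → P2
  | .z => .z
  | .c a => .c a
  | .n x y => (lt i (evb i j x)).add (lt j (evb i j y))
  | .s x y => (evb i j x).add (evb i j y)

def ant (f : P2) : P2 := f.add (evb 1 0 f)

def hex (f : P2) : P2 := f.add ((evb 1 2 f).add (evb 2 0 f))

/-- The derivation with `x ↦ 0`, `y ↦ v`. -/
def drv (v : P2) : P2 → P2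
  | .z => .z
  | .c _ => .z
  | .n x y => (P2.n (drv v x) (drv v y)).add (v.mul y)
  | .s x y => (drv v x).add (drv v y)

def yy : P2 := .n .z (.c 1)

def iha (f g : P2) : P2 :=
  ((drv (yy.brk f) g).add (drv (yy.brk g) f).neg).add (f.brk g)

/-- The coefficient of a word. -/
def cof : List Bool → P2 → Int
  | _, .z => 0
  | [], .c a => a
  | _ :: _, .c _ => 0
  | [], .n _ _ => 0
  | false :: w, .n l _ => cof w l
  | true :: w, .n _ r => cof w r
  | w, .s f g => cof w f + cof w g

/-! ### Lie monomials -/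

/-- Bracketings. -/
inductive BT : Type
  | x : BT
  | y : BT
  | b : BT → BT → BT

def BT.pl : BT → P2
  | .x => .n (.c 1) .z
  | .y => .n .z (.c 1)
  | .b f g => f.pl.brk g.pl

def BT.tr : BT → Tr (Fin 2)
  | .x => .leaf 0
  | .y => .leaf 1
  | .b f g => .node f.tr g.tr

def BT.ln : BT → Nat
  | .x => 1
  | .y => 1
  | .b f g => f.ln + g.ln

def lin : List (Int × BT) → P2
  | [] => .z
  | (a, t) :: l => ((t.pl).sc a).add (lin l)

/-- The Lie element with given coordinates. -/
def lie (l : List (Int × BT)) : LK ℤ :=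
  (l.map fun u => u.1 • u.2.tr.eval (FreeLieAlgebra.of ℤ)).sum

/-! ### interpretation -/

/-- The value of a tree. -/
def P2.to : P2 → FA ℤ
  | .z => 0
  | .c a => algebraMap ℤ (FA ℤ) a
  | .n p g => fx ℤ * p.to + fy ℤ * g.to
  | .s p g => p.to + g.to

/-- The value of a tree. -/
def P3.to : P3 → F3 ℤ
  | .z => 0
  | .c a => algebraMap ℤ (F3 ℤ) a
  | .n p g k => fp ℤ * p.to + fg ℤ * g.to + fs ℤ * k.to
  | .s p g => p.to + g.to

theorem P2.to_add (f g : P2) : (f.add g).to = f.to + g.to := by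
  induction f generalizing g with
  | z => simp [P2.add, P2.to]
  | c a => cases g <;> simp [P2.add, P2.to]
  | n p q hp hq =>
    cases g with
    | z => simp [P2.add, P2.to]
    | c b => simp [P2.add, P2.to]
    | n p' q' => simp only [P2.add, P2.to, hp, hq]; noncomm_ring
    | s p' q' => simp [P2.add, P2.to]
  | s p q hp hq => cases g <;> simp [P2.add, P2.to]

theorem P3.to_add (f g : P3) : (f.add g).to = f.to + g.to := by
  induction f generalizing g with
  | z => simp [P3.add, P3.to]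
  | c a => cases g <;> simp [P3.add, P3.to]
  | n p q k hp hq hk =>
    cases g with
    | z => simp [P3.add, P3.to]
    | c b => simp [P3.add, P3.to]
    | n p' q' k' => simp only [P3.add, P3.to, hp, hq, hk]; noncomm_ring
    | s p' q' => simp [P3.add, P3.to]
  | s p q hp hq => cases g <;> simp [P3.add, P3.to]

theorem P2.to_sc (k : Int) (f : P2) : (f.sc k).to = k • f.to := by
  induction f with
  | z => simp [P2.sc, P2.to]
  | c a => simp [P2.sc, P2.to]
  | n p q hp hq => simp only [P2.sc, P2.to, hp, hq, mul_smul_comm, smul_add]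
  | s p q hp hq => simp only [P2.sc, P2.to, hp, hq, smul_add]

theorem P2.to_neg (f : P2) : f.neg.to = -f.to := by
  induction f with
  | z => simp [P2.neg, P2.to]
  | c a => simp [P2.neg, P2.to]
  | n p q hp hq => simp only [P2.neg, P2.to, hp, hq]; noncomm_ring
  | s p q hp hq => simp only [P2.neg, P2.to, hp, hq]; abel

theorem P3.to_neg (f : P3) : f.neg.to = -f.to := by
  induction f with
  | z => simp [P3.neg, P3.to]
  | c a => simp [P3.neg, P3.to]
  | n p q k hp hq hk => simp only [P3.neg, P3.to, hp, hq, hk]; noncomm_ring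
  | s p q hp hq => simp only [P3.neg, P3.to, hp, hq]; abel

theorem P2.to_mul (f g : P2) : (f.mul g).to = f.to * g.to := by
  induction f with
  | z => simp [P2.mul, P2.to]
  | c a => simp [P2.mul, P2.to, P2.to_sc]
  | n p q hp hq => simp only [P2.mul, P2.to, hp, hq, add_mul, mul_assoc]
  | s p q hp hq => simp only [P2.mul, P2.to, P2.to_add, hp, hq, add_mul]

theorem P2.to_brk (f g : P2) : (f.brk g).to = ⁅f.to, g.to⁆ := by
  rw [P2.brk, P2.to_add, P2.to_neg, P2.to_mul, P2.to_mul, Ring.lie_def, sub_eq_add_neg]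

theorem P2.to_isZ {f : P2} (h : f.isZ = true) : f.to = 0 := by
  induction f with
  | z => simp [P2.to]
  | c a => simp only [P2.isZ, beq_iff_eq] at h; simp [P2.to, h]
  | n p q hp hq =>
    simp only [P2.isZ, Bool.and_eq_true] at h
    simp [P2.to, hp h.1, hq h.2]
  | s p q hp hq =>
    simp only [P2.isZ, Bool.and_eq_true] at h
    simp [P2.to, hp h.1, hq h.2]

theorem P3.to_isZ {f : P3} (h : f.isZ = true) : f.to = 0 := by
  induction f with
  | z => simp [P3.to]
  | c a => simp only [P3.isZ, beq_iff_eq] at h; simp [P3.to, h]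
  | n p q k hp hq hk =>
    simp only [P3.isZ, Bool.and_eq_true] at h
    simp [P3.to, hp h.1.1, hq h.1.2, hk h.2]
  | s p q hp hq =>
    simp only [P3.isZ, Bool.and_eq_true] at h
    simp [P3.to, hp h.1, hq h.2]

theorem P2.to_isM {k : Int} {f : P2} (h : f.isM k = true) : ∃ q : FA ℤ, f.to = k • q := by
  induction f with
  | z => exact ⟨0, by simp [P2.to]⟩
  | c a =>
    simp only [P2.isM, beq_iff_eq] at h
    obtain ⟨b, rfl⟩ := Int.dvd_of_emod_eq_zero h
    exact ⟨algebraMap ℤ (FA ℤ) b, by simp [P2.to]⟩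
  | n p q hp hq =>
    simp only [P2.isM, Bool.and_eq_true] at h
    obtain ⟨u, hu⟩ := hp h.1
    obtain ⟨v, hv⟩ := hq h.2
    exact ⟨fx ℤ * u + fy ℤ * v, by rw [P2.to, hu, hv, smul_add, mul_smul_comm, mul_smul_comm]⟩
  | s p q hp hq =>
    simp only [P2.isM, Bool.and_eq_true] at h
    obtain ⟨u, hu⟩ := hp h.1
    obtain ⟨v, hv⟩ := hq h.2
    exact ⟨u + v, by rw [P2.to, hu, hv, smul_add]⟩

end Vale.Agent.P029.Odd.Cmp
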