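import Vale.Agent.P029.H819.Cmp

/-!
# P029 over the integers: correctness of the computations
-/

noncomputable section

attribute [local instance 100] LieRing.ofAssociativeRing
attribute [-instance] LieRing.instLieAlgebra

namespace Vale.Agent.P029.Odd.Cmp

open Vale.Agent.P029 Low Low.Z819 Low.SolLin IsoInd

/-! ### the pentagon -/

theorem to_mv1 (f : P3) : (mv1 f).to = ⁅fg ℤ, fp ℤ⁆ * f.to := by
  simp only [mv1, P3.to, P3.to_neg, Ring.lie_def]
  noncomm_ring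

theorem to_mv2 (f : P3) :
    (mv2 f).to = (⁅fp ℤ + fs ℤ, fg ℤ⁆ - ⁅fp ℤ, fs ℤ⁆) * f.to := by
  simp only [mv2, P3.to, P3.to_neg, Ring.lie_def]
  noncomm_ring

theorem to_D1 (f : P3) : (D1 f).to = dv (v1 ℤ) f.to := by
  induction f with
  | z => simp [D1, P3.to]
  | c a => rw [D1, P3.to, P3.to, dv_alg]
  | n p g k hp hg hk =>
    rw [D1, P3.to_add, to_mv1, P3.to, P3.to, hp, hg, hk, map_add, map_add, dv_mul, dv_mul, dv_mul,
      v1_p, v1_g, v1_s]
    noncomm_ring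
  | s p g hp hg => rw [D1, P3.to_add, P3.to, map_add, hp, hg]

theorem to_D2 (f : P3) : (D2 f).to = dv (v2 ℤ) f.to := by
  induction f with
  | z => simp [D2, P3.to]
  | c a => rw [D2, P3.to, P3.to, dv_alg]
  | n p g k hp hg hk =>
    rw [D2, P3.to_add, to_mv2, P3.to, P3.to, hp, hg, hk, map_add, map_add, dv_mul, dv_mul, dv_mul,
      v2_p, v2_g, v2_s]
    noncomm_ring
  | s p g hp hg => rw [D2, P3.to_add, P3.to, map_add, hp, hg]

theorem to_op (i : Fin 5) (f : P3) : (op i f).to = Op ℤ i f.to := by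
  fin_cases i
  · exact to_D1 f
  · exact to_D2 f
  · show ((D1 f).add (.n .z f.neg .z)).to = dv (v1 ℤ) f.to - fg ℤ * f.to
    rw [P3.to_add, to_D1, P3.to, P3.to, P3.to_neg]
    noncomm_ring
  · show (P3.n .z .z f).to = fs ℤ * f.to
    simp [P3.to]
  · show (P3.n f .z .z).to = fp ℤ * f.to
    simp [P3.to]

theorem ev_const {R : Type} [CommRing R] (u v : Module.End R (F3 R)) (a : R) :
    ev u v (algebraMap R (FA R) a) 1 = algebraMap R (F3 R) a := by
  rw [AlgHom.commutes, Module.algebraMap_end_apply, Algebra.algebraMap_eq_smul_one]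

theorem to_eva (i j : Fin 5) (f : P2) : (eva i j f).to = ev (Op ℤ i) (Op ℤ j) f.to 1 := by
  induction f with
  | z => simp [eva, P2.to, P3.to]
  | c a =>
    rw [eva, P2.to, P3.to, ev_const]
  | n p q hp hq =>
    rw [eva, P3.to_add, to_op, to_op, hp, hq, P2.to, map_add, map_mul, map_mul, LinearMap.add_apply,
      Module.End.mul_apply, Module.End.mul_apply, fx, fy, EF.ev_x, EF.ev_y]
  | s p q hp hq => rw [eva, P3.to_add, hp, hq, P2.to, map_add, LinearMap.add_apply]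

theorem to_fiv (f : P2) : (fiv f).to = peL ℤ f.to := by
  rw [peL_apply, Fin.sum_univ_five, fiv, P3.to_add, P3.to_add, P3.to_add, P3.to_add, to_eva, to_eva,
    to_eva, to_eva, to_eva]
  simp only [LinearMap.add_apply]
  show _ = ev (Op ℤ 0) (Op ℤ 1) f.to 1 + ev (Op ℤ 1) (Op ℤ 2) f.to 1 + ev (Op ℤ 2) (Op ℤ 3) f.to 1 +
    ev (Op ℤ 3) (Op ℤ 4) f.to 1 + ev (Op ℤ 4) (Op ℤ 0) f.to 1
  abel

/-! ### antisymmetry and hexagon -/

/-- The three letters. -/
def L3 : Fin 3 → FA ℤ := ![fx ℤ, fy ℤ, -fx ℤ - fy ℤ]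

theorem to_lt (i : Fin 3) (f : P2) : (lt i f).to = L3 i * f.to := by
  fin_cases i
  · show (P2.n f .z).to = fx ℤ * f.to
    simp [P2.to]
  · show (P2.n .z f).to = fy ℤ * f.to
    simp [P2.to]
  · show (P2.n f.neg f.neg).to = (-fx ℤ - fy ℤ) * f.to
    rw [P2.to, P2.to_neg]
    noncomm_ring

theorem to_evb (i j : Fin 3) (f : P2) : (evb i j f).to = ev (L3 i) (L3 j) f.to := by
  induction f with
  | z => simp [evb, P2.to]
  | c a => rw [evb, P2.to, AlgHom.commutes]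
  | n p q hp hq =>
    rw [evb, P2.to_add, to_lt, to_lt, hp, hq, P2.to, map_add, map_mul, map_mul, fx, fy, EF.ev_x,
      EF.ev_y]
  | s p q hp hq => rw [evb, P2.to_add, hp, hq, P2.to, map_add]

theorem ev_id (χ : FA ℤ) : ev (fx ℤ) (fy ℤ) χ = χ := by
  have h : (ev (fx ℤ) (fy ℤ) : FA ℤ →ₐ[ℤ] FA ℤ) = AlgHom.id ℤ (FA ℤ) := by
    apply FreeAlgebra.hom_ext
    funext i
    fin_cases i
    · simp [ev, fx]
    · simp [ev, fy]
  rw [h, AlgHom.id_apply]

theorem to_ant (f : P2) : (ant f).to = anL ℤ f.to := by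
  rw [ant, P2.to_add, to_evb]
  show _ = ev (fx ℤ) (fy ℤ) f.to + ev (fy ℤ) (fx ℤ) f.to
  rw [ev_id]
  rfl

theorem to_hex (f : P2) : (hex f).to = heL ℤ f.to := by
  rw [hex, P2.to_add, P2.to_add, to_evb, to_evb]
  show _ = ev (fx ℤ) (fy ℤ) f.to + ev (fy ℤ) (-fx ℤ - fy ℤ) f.to + ev (-fx ℤ - fy ℤ) (fx ℤ) f.to
  rw [ev_id, add_assoc]
  rfl

/-! ### the Ihara bracket -/

theorem toFree_Dp {R : Type} [CommRing R] (ψ a : LK R) :
    toFree R (Fin 2) (Dp ψ a) = DF ψ (toFree R (Fin 2) a) := by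
  refine der_ext (toFree R (Fin 2))
    (d := (toFree R (Fin 2) : LK R →ₗ[R] FA R).comp (Dp ψ))
    (d' := (DF ψ).comp (toFree R (Fin 2) : LK R →ₗ[R] FA R)) (fun a b => ?_) (fun a b => ?_) ?_ ?_ a
  · show toFree R (Fin 2) (Dp ψ ⁅a, b⁆) = ⁅toFree R (Fin 2) a, toFree R (Fin 2) (Dp ψ b)⁆ +
      ⁅toFree R (Fin 2) (Dp ψ a), toFree R (Fin 2) b⁆
    rw [Dp_lie, map_add, LieHom.map_lie, LieHom.map_lie]
  · show DF ψ (toFree R (Fin 2) ⁅a, b⁆) = ⁅toFree R (Fin 2) a, DF ψ (toFree R (Fin 2) b)⁆ +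
      ⁅DF ψ (toFree R (Fin 2) a), toFree R (Fin 2) b⁆
    rw [LieHom.map_lie, Ring.lie_def, Ring.lie_def, Ring.lie_def, map_sub, EF.DF_mul, EF.DF_mul]
    abel
  · show toFree R (Fin 2) (Dp ψ (Low.kx R)) = DF ψ (toFree R (Fin 2) (Low.kx R))
    rw [Dp_x, map_zero, tx, fx, EF.DF_x]
  · show toFree R (Fin 2) (Dp ψ (Low.ky R)) = DF ψ (toFree R (Fin 2) (Low.ky R))
    rw [Dp_y, ty, fy, EF.DF_y, LieHom.map_lie, ty, fy, Ring.lie_def]

theorem to_drv {v : P2} {ψ : LK ℤ} (hv : v.to = ⁅fy ℤ, toFree ℤ (Fin 2) ψ⁆) (f : P2) :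
    (drv v f).to = DF ψ f.to := by
  induction f with
  | z => simp [drv, P2.to]
  | c a =>
    rw [drv, P2.to, P2.to, Algebra.algebraMap_eq_smul_one, map_smul, EF.DF_one, smul_zero]
  | n p q hp hq =>
    rw [drv, P2.to_add, P2.to_mul, P2.to, P2.to, hp, hq, hv, map_add, EF.DF_mul, EF.DF_mul, fx, fy,
      EF.DF_x, EF.DF_y, Ring.lie_def]
    noncomm_ring
  | s p q hp hq => rw [drv, P2.to_add, P2.to, hp, hq, map_add]

theorem to_yy : yy.to = fy ℤ := by simp [yy, P2.to]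

theorem to_iha {f g : P2} {ψ φ : LK ℤ} (hf : f.to = toFree ℤ (Fin 2) ψ)
    (hg : g.to = toFree ℤ (Fin 2) φ) : (iha f g).to = toFree ℤ (Fin 2) (ihara ψ φ) := by
  rw [iha, P2.to_add, P2.to_add, P2.to_neg, to_drv (ψ := ψ) (by rw [P2.to_brk, to_yy, hf]),
    to_drv (ψ := φ) (by rw [P2.to_brk, to_yy, hg]), P2.to_brk, hf, hg, ihara, map_add, map_sub,
    toFree_Dp, toFree_Dp, LieHom.map_lie, sub_eq_add_neg]

/-! ### Lie elements -/

theorem to_pl (t : BT) : t.pl.to = t.tr.eval (FreeAlgebra.ι ℤ) := by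
  induction t with
  | x => simp [BT.pl, BT.tr, P2.to, Tr.eval, fx]
  | y => simp [BT.pl, BT.tr, P2.to, Tr.eval, fy]
  | b f g hf hg => rw [BT.pl, BT.tr, P2.to_brk, Tr.eval_node, hf, hg]

theorem to_lin (l : List (Int × BT)) : (lin l).to = toFree ℤ (Fin 2) (lie l) := by
  induction l with
  | nil => simp [lin, lie, P2.to]
  | cons u l ih =>
    obtain ⟨a, t⟩ := u
    rw [lin, P2.to_add, P2.to_sc, ih, to_pl, lie, lie, List.map_cons, List.sum_cons, map_add,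
      map_smul, toFree_eval]

theorem ln_wt (t : BT) : t.tr.wt (fun _ => 1) = t.ln := by
  induction t with
  | x => rfl
  | y => rfl
  | b f g hf hg => rw [BT.tr, Tr.wt_node, hf, hg, BT.ln]

theorem lie_wt {n : ℕ} (l : List (Int × BT)) (h : l.all (fun u => u.2.ln == n) = true) :
    lie l ∈ wt2 ℤ n := by
  induction l with
  | nil => simp [lie]
  | cons u l ih =>
    rw [List.all_cons, Bool.and_eq_true, beq_iff_eq] at h
    rw [lie, List.map_cons, List.sum_cons]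
    refine add_mem (Submodule.smul_mem _ _ ?_) (ih h.2)
    have := eval_wt (R := ℤ) (fun _ : Fin 2 => 1) u.2.tr
    rwa [ln_wt, h.1] at this

/-- Solutions by computation. -/
theorem isWn_of_cmp {n : ℕ} (hn : 2 ≤ n) {l : List (Int × BT)} {f : P2}
    (h0 : l.all (fun u => u.2.ln == n) = true) (h1 : ((lin l).add f.neg).isZ = true)
    (h2 : (ant f).isZ = true) (h3 : (hex f).isZ = true) (h4 : (fiv f).isZ = true) :
    H819.IsWn ℤ n (lie l) ∧ f.to = toFree ℤ (Fin 2) (lie l) := by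
  have e : f.to = toFree ℤ (Fin 2) (lie l) := by
    have := P2.to_isZ h1
    rw [P2.to_add, P2.to_neg, to_lin, ← sub_eq_add_neg, sub_eq_zero] at this
    exact this.symm
  refine ⟨isWn_of_EF' hn (lie_wt l h0) ?_, e⟩
  rw [EF_iff, dl_toFree, ← e, ← to_ant, ← to_hex, ← to_fiv]
  exact ⟨rfl, P2.to_isZ h2, P2.to_isZ h3, P3.to_isZ h4⟩

end Vale.Agent.P029.Odd.Cmp
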