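import Vale.Agent.P029.H819.Cmp2

/-!
# P029 over the integers: coefficients of words
-/

noncomputable section

attribute [local instance 100] LieRing.ofAssociativeRing
attribute [-instance] LieRing.instLieAlgebra

namespace Vale.Agent.P029.Odd.Cmp

open Vale.Agent.P029 Low Low.Z819 Low.SolLin IsoInd

/-- The word of a list. -/
def wd : List Bool → FreeMonoid (Fin 2)
  | [] => 1
  | b :: l => FreeMonoid.of (if b then 1 else 0) * wd l

/-- The words as a basis. -/
abbrev Eq2 : FA ℤ ≃ₐ[ℤ] MonoidAlgebra ℤ (FreeMonoid (Fin 2)) :=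
  FreeAlgebra.equivMonoidAlgebraFreeMonoid

theorem cf_eq (w : FreeMonoid (Fin 2)) (f : FA ℤ) : cf ℤ w f = (Eq2 f).coeff w := rfl

theorem Eq2_ι (i : Fin 2) : Eq2 (FreeAlgebra.ι ℤ i) = MonoidAlgebra.single (FreeMonoid.of i) 1 := by
  show FreeAlgebra.lift ℤ (fun x => MonoidAlgebra.of ℤ (FreeMonoid (Fin 2)) (FreeMonoid.of x))
        (FreeAlgebra.ι ℤ i) = _
  rw [FreeAlgebra.lift_ι_apply]
  rfl

theorem Eq2_c (a : ℤ) : Eq2 (algebraMap ℤ (FA ℤ) a) = MonoidAlgebra.single 1 a := by
  rw [AlgEquiv.commutes]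
  rfl

theorem cf_nil (i : Fin 2) (f : FA ℤ) : cf ℤ 1 (FreeAlgebra.ι ℤ i * f) = 0 := by
  rw [cf_eq, map_mul Eq2, Eq2_ι, MonoidAlgebra.coeff_single_mul_of_forall_mul_ne]
  intro d h
  have := congrArg FreeMonoid.length h
  simp [FreeMonoid.length_mul] at this

theorem cf_same (i : Fin 2) (w : FreeMonoid (Fin 2)) (f : FA ℤ) :
    cf ℤ (FreeMonoid.of i * w) (FreeAlgebra.ι ℤ i * f) = cf ℤ w f := by
  rw [cf_eq, map_mul Eq2, Eq2_ι, MonoidAlgebra.coeff_single_mul_eq_mul_coeff w, one_mul, cf_eq]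
  intro m _
  exact ⟨fun h => mul_left_cancel h, fun h => by rw [h]⟩

theorem cf_ne {i j : Fin 2} (hij : i ≠ j) (w : FreeMonoid (Fin 2)) (f : FA ℤ) :
    cf ℤ (FreeMonoid.of j * w) (FreeAlgebra.ι ℤ i * f) = 0 := by
  rw [cf_eq, map_mul Eq2, Eq2_ι, MonoidAlgebra.coeff_single_mul_of_forall_mul_ne]
  intro d h
  have := congrArg (fun l => (FreeMonoid.toList l).head?) h
  simp only [FreeMonoid.toList_of_mul, List.head?_cons, Option.some.injEq] at this
  exact hij this

theorem to_cof (w : List Bool) (f : P2) : cf ℤ (wd w) f.to = cof w f := by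
  induction f generalizing w with
  | z => rw [P2.to, map_zero, cof]
  | c a =>
    cases w with
    | nil =>
      rw [P2.to, wd, cf_eq, Eq2_c, cof]
      simp
    | cons b w =>
      rw [P2.to, wd, cf_eq, Eq2_c, cof]
      simp only [MonoidAlgebra.coeff_single]
      refine Finsupp.single_eq_of_ne ?_
      intro h
      have := congrArg FreeMonoid.length h
      simp [FreeMonoid.length_mul] at this
  | n p q hp hq =>
    cases w with
    | nil => rw [P2.to, wd, map_add, fx, fy, cf_nil, cf_nil, cof, add_zero]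
    | cons b w =>
      cases b with
      | false =>
        rw [P2.to, wd, map_add, fx, fy, if_neg (by decide), cf_same, cf_ne (by decide), add_zero, hp,
          cof]
      | true =>
        rw [P2.to, wd, map_add, fx, fy, if_pos rfl, cf_same, cf_ne (by decide), zero_add, hq, cof]
  | s p q hp hq => rw [P2.to, map_add, hp, hq]; cases w <;> simp [cof]

end Vale.Agent.P029.Odd.Cmp
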