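import Vale.Agent.P029.H819.Main

/-!
# P029: consequences of the isomorphism over `R`
-/

noncomputable section

attribute [local instance 100] LieRing.ofAssociativeRing
attribute [-instance] LieRing.instLieAlgebra

namespace Vale.Agent.P029.Low.Z819

open Vale.Agent.P029 Low LieAlgebra IsoInd BarFin

section
variable {R : Type} [CommRing R]

theorem toR_eq (z : LK ℤ) : H819.toR R z = bc R z := rfl

/-- the isomorphism is determined by its values on the letters -/
theorem iso_unique {σ : ℕ → LK ℤ} {f : H819.F R → H819.L R} (h : H819.IsIso R f)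
    (h0 : ∀ k, f (FreeLieAlgebra.of R k) = H819.toR R (σ k)) : f = fR R σ := by
  obtain ⟨hadd, hsm, hlie, -, -, -⟩ := h
  have hz : f 0 = 0 := by
    have := hsm 0 0
    rwa [zero_smul, zero_smul] at this
  funext a
  induction a using Low.free_induction with
  | hof k => rw [h0, fR_of, toR_eq]
  | h0 => rw [hz, map_zero]
  | hadd a b ha hb => rw [hadd, map_add, ha, hb]
  | hsmul c a ha => rw [hsm, map_smul, ha]
  | hlie a b ha hb => rw [(isBr_iff _ _ _).1 (hlie a b), fR_lie, ha, hb]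

section
variable {Y : Fin 5 → Module.End K2 KK} (hY : IsRep2 Y) {σ : ℕ → LK ℤ}
    (h1 : ∀ k, σ k ∈ wt2 ℤ (2 * k + 3)) (h2 : ∀ k, bc ℚ (σ k) ∈ W (2 * k + 3))
    (h3 : ∀ k, Rel Y (bc K2 (σ k)) (FreeLieAlgebra.of K2 k))
    (hR : ∀ m : ℤ, Odd m → IsUnit (m : R))
include hY h1 h2 h3 hR

/-- the hexagon follows from antisymmetry and the pentagon -/
theorem hexa_of {n : ℕ} (hn : 3 ≤ n) {ψ : LK R} (hw : ψ ∈ H819.wtPart R (fun _ => 1) n)
    (hA : H819.Anti R ψ) (hP : H819.Penta R ψ) : H819.Hexa R ψ := by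
  rw [wtPart_eq] at hw
  obtain ⟨a, ha, rfl⟩ := (exact_R hY h1 h2 h3 hR hn).2 ψ hw hA hP
  exact ((mem_WR _).1 (fR_mem_all h1 h2 a)).2.1

omit hY h3 hR in
/-- the image of `F` is spanned by integral solutions -/
theorem mem_span {n : ℕ} {a : FreeLieAlgebra R ℕ} (ha : a ∈ wtPart R w3 n) :
    fR R σ a ∈ Submodule.span R (H819.toR R '' {z | H819.IsWn ℤ n z}) := by
  have : wtPart R w3 n ≤
      (Submodule.span R (H819.toR R '' {z | H819.IsWn ℤ n z})).comap (fR R σ) := by
    unfold wtPart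
    rw [Submodule.span_le]
    rintro _ ⟨t, rfl, rfl⟩
    show fR R σ (t.eval (FreeLieAlgebra.of R)) ∈
      Submodule.span R (H819.toR R '' {z | H819.IsWn ℤ (t.wt w3) z})
    rw [← bc_fR]
    refine Submodule.subset_span ⟨_, ?_, rfl⟩
    exact fR_tree_isWn h1 h2 t
  exact this ha

end

/-- no isomorphism if there is a nonzero solution of weight two -/
theorem not_iso {ψ : H819.L R} (h : H819.IsWn R 2 ψ) (h0 : ψ ≠ 0) :
    ¬ ∃ f : H819.F R → H819.L R, H819.IsIso R f := by
  rintro ⟨f, hadd, hsm, hlie, -, -, hf⟩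
  obtain ⟨a, ha, rfl⟩ := (hf 2 ψ).1 h
  rw [H819.Fpart, wtPart_eq, wtPart_small le_rfl, Submodule.mem_bot] at ha
  apply h0
  have := hsm 0 0
  rwa [zero_smul, zero_smul, ← ha] at this

/-- The dimension over a field. -/
theorem finrank_of_iso {K : Type} [Field K] {f : H819.F K → H819.L K} (hf : H819.IsIso K f)
    (n : ℕ) : Module.finrank K (Submodule.span K {ψ | H819.IsWn K n ψ}) =
      Module.finrank ℚ (Fpart n) := by
  obtain ⟨hadd, hsm, hlie, hinj, -, hn⟩ := hf
  let g : H819.F K →ₗ[K] H819.L K := { toFun := f, map_add' := hadd, map_smul' := hsm }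
  have e : Submodule.span K {ψ | H819.IsWn K n ψ} = (wtPart K w3 n).map g := by
    have : {ψ | H819.IsWn K n ψ} = ((wtPart K w3 n).map g : Submodule K (H819.L K)) := by
      ext ψ
      show H819.IsWn K n ψ ↔ ∃ a ∈ wtPart K w3 n, f a = ψ
      rw [hn n ψ, H819.Fpart, wtPart_eq]
    rw [this, Submodule.span_eq]
  obtain ⟨d, s, hs, H⟩ := lie_basis w3 pos3 fin3 n
  rw [e, LinearEquiv.finrank_eq (Submodule.equivMapOfInjective g hinj (wtPart K w3 n)).symm,
    wtPart_finrank hs (H K).1 (H K).2]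
  exact (wtPart_finrank hs (H ℚ).1 (H ℚ).2).symm

end

end Vale.Agent.P029.Low.Z819
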