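import Vale.Agent.P029.H819.Final

/-!
# P029 over the integers: divisible relations exclude isomorphisms
-/

noncomputable section

attribute [local instance 100] LieRing.ofAssociativeRing
attribute [-instance] LieRing.instLieAlgebra

namespace Vale.Agent.P029.Odd

open Vale.Agent.P029 Low Low.Z819 Low.SolLin IsoInd

theorem toFree_lw {R : Type} [CommRing R] {k : ℕ} (t : Fin k → Tr (Fin 2)) (c : Fin k → ℤ) :
    toFree R (Fin 2) (lw R t fun i => (c i : R)) = jF R (toFree ℤ (Fin 2) (lw ℤ t c)) := by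
  rw [lw_apply, lw_apply, map_sum, map_sum, map_sum]
  refine Finset.sum_congr rfl fun i _ => ?_
  rw [map_smul, map_smul (toFree ℤ (Fin 2)), Int.cast_smul_eq_zsmul, zsmul_eq_mul,
    Algebra.smul_def, map_mul, eq_intCast, map_intCast, toFree_eval, toFree_eval, jj_eval]

/-- A solution over the integers that is divisible by a prime as a polynomial is divisible as a
solution. -/
theorem exists_div {p : ℕ} [Fact p.Prime] {n : ℕ} (hn : 2 ≤ n) {u : LK ℤ}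
    (hu : H819.IsWn ℤ n u) (hd : ∃ q : FA ℤ, toFree ℤ (Fin 2) u = (p : ℤ) • q) :
    ∃ w, H819.IsWn ℤ n w ∧ (p : ℤ) • w = u := by
  obtain ⟨k, t, ht, H⟩ := lie_basis2 n
  obtain ⟨c, hc⟩ := exists_lw ht (H ℤ).1 hu
  obtain ⟨q, hq⟩ := hd
  have h1 : lw (ZMod p) t (fun i => (c i : ZMod p)) = 0 := by
    apply toFree_inj2
    rw [toFree_lw, hc, hq, map_zsmul, natCast_zsmul, ← Nat.cast_smul_eq_nsmul (ZMod p),
      CharP.cast_eq_zero, zero_smul]
  have h2 := lw_inj (H (ZMod p)).2 (h1.trans (map_zero _).symm)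
  have h3 : ∀ i, ∃ d, c i = (p : ℤ) * d := by
    intro i
    have := congrFun h2 i
    exact (ZMod.intCast_zmod_eq_zero_iff_dvd (c i) p).1 this
  choose d hd using h3
  have h4 : (p : ℤ) • lw ℤ t d = u := by
    rw [← hc, ← map_zsmul]
    congr 1
    funext i
    rw [hd i]
    rfl
  refine ⟨lw ℤ t d, isWn_of_EF' hn ?_ fun w => ?_, h4⟩
  · have : lw ℤ t d ∈ LinearMap.range (lw ℤ t) := ⟨d, rfl⟩
    rwa [range_lw ht (H ℤ).1] at this
  · have h5 := EF_of_isWn hn hu w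
    rw [← h4, map_zsmul, map_zsmul, smul_eq_mul] at h5
    have hp : (p : ℤ) ≠ 0 := by exact_mod_cast (Fact.out : p.Prime).ne_zero
    exact (mul_eq_zero.1 h5).resolve_left hp

/-- Base change of solutions. -/
theorem isWn_bcR (R : Type) [CommRing R] {n : ℕ} (hn : 2 ≤ n) {z : LK ℤ} (h : H819.IsWn ℤ n z) :
    H819.IsWn R n (bc R z) := by
  have hz := h.2
  rw [wtPart_eq] at hz
  refine isWn_of_EF' hn (bc_wt hz) fun w => ?_
  rw [bc_eq, ← jj_toFree, EF_jF, EF_of_isWn hn h, Int.cast_zero]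

theorem gen_one {R : Type} [CommRing R] {n k : ℕ} (h : ∀ t : Tr ℕ, t.wt w3 = n → t = .leaf k)
    {a : H819.F R} (ha : a ∈ H819.Fpart R n) : ∃ r : R, a = r • FreeLieAlgebra.of R k := by
  rw [H819.Fpart, wtPart_eq] at ha
  have : wtPart R (fun k => 2 * k + 3) n ≤ Submodule.span R {FreeLieAlgebra.of R k} := by
    rw [wtPart, Submodule.span_le]
    rintro _ ⟨t, ht, rfl⟩
    rw [h t ht]
    exact Submodule.subset_span rfl
  obtain ⟨r, hr⟩ := Submodule.mem_span_singleton.1 (this ha)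
  exact ⟨r, hr.symm⟩

theorem wt_ne4 (t : Tr ℕ) : t.wt w3 ≠ 4 := by
  cases t with
  | leaf k => rw [Tr.wt_leaf]; show 2 * k + 3 ≠ 4; omega
  | node a b => rw [Tr.wt_node]; have := wt_ge a; have := wt_ge b; omega

theorem tree_one {n k : ℕ} (hk : 2 * k + 3 = n) (hn : n ≤ 5 ∨ n = 7) (t : Tr ℕ)
    (ht : t.wt w3 = n) : t = .leaf k := by
  cases t with
  | leaf j =>
    rw [Tr.wt_leaf] at ht
    have : 2 * j + 3 = n := ht
    rw [show j = k by omega]
  | node a b =>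
    rw [Tr.wt_node] at ht
    have := wt_ge a; have := wt_ge b; have := wt_ne4 a; have := wt_ne4 b
    omega

/-- The representation with `e 1 ↦ E₀₁`, `e 2 ↦ E₁₂`. -/
def rp (R : Type) [CommRing R] : FreeLieAlgebra R ℕ →ₗ⁅R⁆ Matrix (Fin 3) (Fin 3) R :=
  FreeLieAlgebra.lift R fun k =>
    if k = 1 then Matrix.single 0 1 1 else if k = 2 then Matrix.single 1 2 1 else 0

theorem unit_of_cf {R : Type} [CommRing R] {f : H819.F R → H819.L R}
    (hsm : ∀ (c : R) (a : H819.F R), f (c • a) = c • f a) {s : LK ℤ} {r : R} {e : H819.F R}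
    (h : bc R s = f (r • e))
    (g : ∃ (v₁ v₂ : FreeMonoid (Fin 2)) (c₁ c₂ : ℤ), c₁ * cf ℤ v₁ (toFree ℤ (Fin 2) s) +
      c₂ * cf ℤ v₂ (toFree ℤ (Fin 2) s) = 1) : ∃ u : R, r * u = 1 := by
  obtain ⟨v₁, v₂, c₁, c₂, h1⟩ := g
  have h2 := congrArg (Int.cast : ℤ → R) h1
  push_cast at h2
  rw [← cf_jj, ← cf_jj, jj_toFree, ← bc_eq, h, hsm, map_smul, map_smul, map_smul, smul_eq_mul,
    smul_eq_mul] at h2
  refine ⟨c₁ * cf R v₁ (toFree R (Fin 2) (f e)) + c₂ * cf R v₂ (toFree R (Fin 2) (f e)), ?_⟩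
  rw [← h2]
  ring

/-- A divisible relation forces a prime to be invertible. -/
theorem unit_of_iso {p : ℕ} [Fact p.Prime] {R : Type} [CommRing R]
    (h : ∃ f : H819.F R → H819.L R, H819.IsIso R f) {s3 s5 s7 s9 w : LK ℤ}
    (h3 : H819.IsWn ℤ 3 s3) (h5 : H819.IsWn ℤ 5 s5) (h7 : H819.IsWn ℤ 7 s7)
    (h9 : H819.IsWn ℤ 9 s9) (hw : H819.IsWn ℤ 12 w) {al be : ℤ} (hbe : IsCoprime be (p : ℤ))
    (hrel : (p : ℤ) • w = al • ihara s3 s9 + be • ihara s5 s7)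
    (g5 : ∃ (v₁ v₂ : FreeMonoid (Fin 2)) (c₁ c₂ : ℤ), c₁ * cf ℤ v₁ (toFree ℤ (Fin 2) s5) +
      c₂ * cf ℤ v₂ (toFree ℤ (Fin 2) s5) = 1)
    (g7 : ∃ (v₁ v₂ : FreeMonoid (Fin 2)) (c₁ c₂ : ℤ), c₁ * cf ℤ v₁ (toFree ℤ (Fin 2) s7) +
      c₂ * cf ℤ v₂ (toFree ℤ (Fin 2) s7) = 1) : IsUnit (p : R) := by
  obtain ⟨f, hadd, hsm, hlie, hinj, -, hW⟩ := h
  obtain ⟨x3, m3, e3⟩ := (hW 3 _).1 (isWn_bcR R (by norm_num) h3)
  obtain ⟨x5, m5, e5⟩ := (hW 5 _).1 (isWn_bcR R (by norm_num) h5)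
  obtain ⟨x7, m7, e7⟩ := (hW 7 _).1 (isWn_bcR R (by norm_num) h7)
  obtain ⟨x9, -, e9⟩ := (hW 9 _).1 (isWn_bcR R (by norm_num) h9)
  obtain ⟨X, -, eX⟩ := (hW 12 _).1 (isWn_bcR R (by norm_num) hw)
  obtain ⟨r3, rfl⟩ := gen_one (tree_one (k := 0) rfl (by norm_num)) m3
  obtain ⟨r5, rfl⟩ := gen_one (tree_one (k := 1) rfl (by norm_num)) m5
  obtain ⟨r7, rfl⟩ := gen_one (tree_one (k := 2) rfl (by norm_num)) m7
  obtain ⟨u5, hu5⟩ := unit_of_cf hsm e5.symm g5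
  obtain ⟨u7, hu7⟩ := unit_of_cf hsm e7.symm g7
  let Fa : H819.F R →+ H819.L R := AddMonoidHom.mk' f hadd
  have hl : ∀ a b, f ⁅a, b⁆ = ihara (f a) (f b) := fun a b => (isBr_iff _ _ _).1 (hlie a b)
  have key : (p : ℤ) • X = al • ⁅r3 • FreeLieAlgebra.of R 0, x9⁆ +
      be • ⁅r5 • FreeLieAlgebra.of R 1, r7 • FreeLieAlgebra.of R 2⁆ := by
    apply hinj
    show Fa _ = Fa _
    rw [map_add, map_zsmul, map_zsmul, map_zsmul]
    show (p : ℤ) • f X = al • f _ + be • f _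
    rw [hl, hl, eX, e3, e5, e7, e9, ← bc_ihara, ← bc_ihara, ← map_zsmul, ← map_zsmul, ← map_zsmul,
      ← map_add, hrel]
  have k2 := congrArg (rp R) key
  rw [map_add, map_zsmul, map_zsmul, map_zsmul, LieHom.map_lie, LieHom.map_lie, map_smul, map_smul,
    map_smul] at k2
  have c0 : rp R (FreeLieAlgebra.of R 0) = 0 := by simp [rp]
  have c1 : rp R (FreeLieAlgebra.of R 1) = Matrix.single 0 1 1 := by simp [rp]
  have c2 : rp R (FreeLieAlgebra.of R 2) = Matrix.single 1 2 1 := by simp [rp]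
  rw [c0, c1, c2, smul_zero, zero_lie, smul_zero, zero_add] at k2
  have k3 := congrFun (congrFun k2 0) 2
  rw [Ring.lie_def] at k3
  have q1 : (Matrix.single 0 1 1 : Matrix (Fin 3) (Fin 3) R) * Matrix.single 1 2 1 =
      Matrix.single 0 2 1 := by rw [Matrix.single_mul_single_same, mul_one]
  have q2 : (Matrix.single 1 2 1 : Matrix (Fin 3) (Fin 3) R) * Matrix.single 0 1 1 = 0 :=
    Matrix.single_mul_single_of_ne _ _ _ _ (by decide) _
  simp only [Matrix.smul_apply, Matrix.sub_apply, Matrix.smul_mul, Matrix.mul_smul, q1, q2,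
    Matrix.zero_apply, Matrix.single_apply_same, smul_eq_mul, mul_one, mul_zero, sub_zero,
    zsmul_eq_mul] at k3
  obtain ⟨a, b, hab⟩ := hbe
  have h8 := congrArg (Int.cast : ℤ → R) hab
  push_cast at h8 k3
  refine IsUnit.of_mul_eq_one (a * (rp R X 0 2) * (u5 * u7) + b) ?_
  linear_combination (a * (u5 * u7)) * k3 + h8 + 
    (a * be * (r7 * u7)) * hu5 + (a * be) * hu7

end Vale.Agent.P029.Odd
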