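import Vale.Agent.P029.MathlibUsed

/-!
# P029: integral matrices, exactness modulo two implies exactness over every ring in which the odd
integers are invertible
-/

noncomputable section

namespace Vale.Agent.P029.H819.Lin

/-- The rows of a matrix which is injective over a field span the dual space. -/
theorem exists_row {W K : Type} [Field K] {k : ℕ} (P : W → Fin k → K)
    (h2 : ∀ c : Fin k → K, (∀ w, ∑ j, P w j * c j = 0) → c = 0) (i : Fin k) :
    ∃ T : W →₀ K, ∀ j, (T.sum fun w a => a * P w j) = if i = j then 1 else 0 := by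
  have htop : Submodule.span K (Set.range P) = ⊤ := by
    by_contra hne
    obtain ⟨f, hf, hle⟩ := Submodule.exists_le_ker_of_lt_top _ (lt_top_iff_ne_top.2 hne)
    apply hf
    have hc : (fun j => f (Pi.single j 1)) = 0 := by
      apply h2
      intro w
      have h1 : P w ∈ LinearMap.ker f := hle (Submodule.subset_span ⟨w, rfl⟩)
      rw [LinearMap.mem_ker] at h1
      have h3 : P w = ∑ j, P w j • (Pi.single j 1 : Fin k → K) := by
        funext j
        simp [Finset.sum_apply, Pi.single_apply]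
      rw [h3, map_sum] at h1
      rw [← h1]
      refine Finset.sum_congr rfl fun j _ => ?_
      rw [map_smul, smul_eq_mul]
    apply LinearMap.pi_ext'
    intro j
    apply LinearMap.ext_ring
    exact congrFun hc j
  have h : (Pi.single i 1 : Fin k → K) ∈ Submodule.span K (Set.range P) := by rw [htop]; trivial
  rw [Finsupp.mem_span_range_iff_exists_finsupp] at h
  obtain ⟨T, hT⟩ := h
  refine ⟨T, fun j => ?_⟩
  have := congrFun hT j
  rw [Pi.single_apply] at this
  rw [Finsupp.sum, Finset.sum_apply] at this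
  simp only [Pi.smul_apply, smul_eq_mul] at this
  rw [Finsupp.sum, this]
  simp only [eq_comm]

/-- The same with integers. -/
theorem exists_row_int {W : Type} {k : ℕ} (P : W → Fin k → ℤ)
    (h2 : ∀ c : Fin k → ZMod 2, (∀ w, ∑ j, (P w j : ZMod 2) * c j = 0) → c = 0) (i : Fin k) :
    ∃ (s : Finset W) (T : W → ℤ), ∀ j, ((∑ w ∈ s, T w * P w j : ℤ) : ZMod 2) =
      if i = j then 1 else 0 := by
  obtain ⟨T, hT⟩ := exists_row (fun w j => (P w j : ZMod 2)) h2 i
  refine ⟨T.support, fun w => ((T w).val : ℤ), fun j => ?_⟩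
  rw [← hT j, Finsupp.sum, Int.cast_sum]
  refine Finset.sum_congr rfl fun w _ => ?_
  rw [Int.cast_mul]
  congr 1
  simp

theorem odd_det {k : ℕ} (Q : Matrix (Fin k) (Fin k) ℤ)
    (h : ∀ i j, ((Q i j : ℤ) : ZMod 2) = if i = j then 1 else 0) : Odd Q.det := by
  have h1 : ((Q.det : ℤ) : ZMod 2) = 1 := by
    have h2 : Q.map (Int.castRingHom (ZMod 2)) = 1 := by
      ext i j
      rw [Matrix.map_apply, eq_intCast, h, Matrix.one_apply]
    have h3 := (Int.castRingHom (ZMod 2)).map_det Q
    rw [eq_intCast] at h3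
    rw [h3]
    show (Q.map (Int.castRingHom (ZMod 2))).det = 1
    rw [h2, Matrix.det_one]
  rw [← Int.not_even_iff_odd, even_iff_two_dvd]
  intro hd
  have h4 : ((Q.det : ℤ) : ZMod 2) = 0 := (ZMod.intCast_zmod_eq_zero_iff_dvd _ 2).2 hd
  rw [h4] at h1
  exact absurd h1 (by decide)

theorem isUnit_map {R : Type} [CommRing R] (hR : ∀ m : ℤ, Odd m → IsUnit (m : R)) {k : ℕ}
    (Q : Matrix (Fin k) (Fin k) ℤ) (h : ∀ i j, ((Q i j : ℤ) : ZMod 2) = if i = j then 1 else 0) :
    IsUnit (Q.map (fun m : ℤ => (m : R))) := by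
  rw [Matrix.isUnit_iff_isUnit_det]
  have h3 := (Int.castRingHom R).map_det Q
  rw [eq_intCast] at h3
  have h4 : (Q.map (fun m : ℤ => (m : R))).det = ((Q.det : ℤ) : R) := by
    rw [h3]; rfl
  rw [h4]
  exact hR _ (odd_det Q h)

/-- A matrix of integers, injective modulo two, is injective over `R`. -/
theorem inj_of_mod2 {W : Type} {k : ℕ} (P : W → Fin k → ℤ)
    (h2 : ∀ c : Fin k → ZMod 2, (∀ w, ∑ j, (P w j : ZMod 2) * c j = 0) → c = 0)
    {R : Type} [CommRing R] (hR : ∀ m : ℤ, Odd m → IsUnit (m : R)) (c : Fin k → R)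
    (h : ∀ w, ∑ j, (P w j : R) * c j = 0) : c = 0 := by
  choose s T hT using exists_row_int P h2
  let Q : Matrix (Fin k) (Fin k) ℤ := fun i j => ∑ w ∈ s i, T i w * P w j
  have hu := isUnit_map hR Q hT
  have h0 : (Q.map (fun m : ℤ => (m : R))).mulVec c = 0 := by
    funext i
    show ∑ j, ((∑ w ∈ s i, T i w * P w j : ℤ) : R) * c j = 0
    have e : ∀ j, ((∑ w ∈ s i, T i w * P w j : ℤ) : R) * c j =
        ∑ w ∈ s i, (T i w : R) * ((P w j : R) * c j) := by
      intro j
      rw [Int.cast_sum, Finset.sum_mul]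
      refine Finset.sum_congr rfl fun w _ => ?_
      rw [Int.cast_mul, mul_assoc]
    simp only [e]
    rw [Finset.sum_comm]
    refine Finset.sum_eq_zero fun w _ => ?_
    rw [← Finset.mul_sum, h w, mul_zero]
  have hinj := Matrix.mulVec_injective_of_isUnit hu
  exact hinj (h0.trans (Matrix.mulVec_zero _).symm)

/-- Exactness modulo two implies exactness over `R`. -/
theorem exact_of_mod2 {W : Type} {k d : ℕ} (P : W → Fin k → ℤ) (A : Fin d → Fin k → ℤ)
    (hPA : ∀ w l, ∑ j, P w j * A l j = 0)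
    (hA : ∀ a : Fin d → ZMod 2, (∀ j, ∑ l, (A l j : ZMod 2) * a l = 0) → a = 0)
    (hE : ∀ c : Fin k → ZMod 2, (∀ w, ∑ j, (P w j : ZMod 2) * c j = 0) →
      ∃ a : Fin d → ZMod 2, ∀ j, c j = ∑ l, (A l j : ZMod 2) * a l)
    {R : Type} [CommRing R] (hR : ∀ m : ℤ, Odd m → IsUnit (m : R)) :
    (∀ a : Fin d → R, (∀ j, ∑ l, (A l j : R) * a l = 0) → a = 0) ∧
    ∀ c : Fin k → R, (∀ w, ∑ j, (P w j : R) * c j = 0) →
      ∃ a : Fin d → R, ∀ j, c j = ∑ l, (A l j : R) * a l := by
  refine ⟨fun a ha => inj_of_mod2 (fun j l => A l j) hA hR a ha, ?_⟩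
  choose s T' hT' using exists_row_int (fun (j : Fin k) (l : Fin d) => A l j) hA
  classical
  -- extend by zero outside `s`
  let T : Fin d → Fin k → ℤ := fun l j => if j ∈ s l then T' l j else 0
  have hT : ∀ l l', ((∑ j, T l j * A l' j : ℤ) : ZMod 2) = if l = l' then 1 else 0 := by
    intro l l'
    rw [← hT' l l']
    congr 1
    simp only [T, ite_mul, zero_mul]
    rw [Finset.sum_ite_mem, Finset.univ_inter]
  let N : Matrix (Fin d) (Fin d) ℤ := fun l l' => ∑ j, T l j * A l' j
  have hN := isUnit_map hR N hT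
  -- the combined matrix
  let P' : Fin d ⊕ W → Fin k → ℤ := Sum.elim T P
  have hP' : ∀ c : Fin k → ZMod 2, (∀ w, ∑ j, (P' w j : ZMod 2) * c j = 0) → c = 0 := by
    intro c hc
    obtain ⟨a, ha⟩ := hE c fun w => hc (Sum.inr w)
    have h0 : a = 0 := by
      funext l
      have h1 := hc (Sum.inl l)
      have h3 : ∑ j, (T l j : ZMod 2) * c j = 0 := h1
      simp only [ha, Finset.mul_sum] at h3
      rw [Finset.sum_comm] at h3
      have h4 : ∀ l', ∑ j, (T l j : ZMod 2) * ((A l' j : ZMod 2) * a l') =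
          (if l = l' then 1 else 0) * a l' := by
        intro l'
        rw [← hT l l', Int.cast_sum, Finset.sum_mul]
        refine Finset.sum_congr rfl fun j _ => ?_
        rw [Int.cast_mul, mul_assoc]
      simp only [h4, ite_mul, one_mul, zero_mul, Finset.sum_ite_eq, Finset.mem_univ,
        if_true] at h3
      exact h3
    funext j
    rw [ha j, h0]
    simp
  intro c hc
  obtain ⟨Ni, hNi⟩ := hN
  let b : Fin d → R := fun l => ∑ j, (T l j : R) * c j
  let a : Fin d → R := (↑Ni⁻¹ : Matrix (Fin d) (Fin d) R).mulVec b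
  have hab : (N.map (fun m : ℤ => (m : R))).mulVec a = b := by
    rw [← hNi]
    show (Ni : Matrix _ _ R).mulVec ((↑Ni⁻¹ : Matrix (Fin d) (Fin d) R).mulVec b) = b
    rw [Matrix.mulVec_mulVec, Units.mul_inv, Matrix.one_mulVec]
  refine ⟨a, ?_⟩
  have hz : (fun j => c j - ∑ l, (A l j : R) * a l) = 0 := by
    apply inj_of_mod2 P' hP' hR
    rintro (l | w)
    · show ∑ j, (T l j : R) * (c j - ∑ l', (A l' j : R) * a l') = 0
      simp only [mul_sub, Finset.sum_sub_distrib]
      rw [sub_eq_zero]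
      show b l = _
      rw [← hab]
      show ∑ l', ((∑ j, T l j * A l' j : ℤ) : R) * a l' = _
      simp only [Finset.mul_sum]
      rw [Finset.sum_comm]
      refine Finset.sum_congr rfl fun j _ => ?_
      rw [Int.cast_sum, Finset.sum_mul]
      refine Finset.sum_congr rfl fun l' _ => ?_
      rw [Int.cast_mul, mul_assoc]
    · show ∑ j, (P w j : R) * (c j - ∑ l', (A l' j : R) * a l') = 0
      simp only [mul_sub, Finset.sum_sub_distrib]
      rw [hc w, zero_sub, neg_eq_zero]
      simp only [Finset.mul_sum]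
      rw [Finset.sum_comm]
      refine Finset.sum_eq_zero fun l _ => ?_
      have h5 := congrArg (fun m : ℤ => (m : R) * a l) (hPA w l)
      simp only [Int.cast_sum, Int.cast_mul, Finset.sum_mul, Int.cast_zero, zero_mul] at h5
      rw [← h5]
      refine Finset.sum_congr rfl fun j _ => ?_
      rw [mul_assoc]
  intro j
  exact sub_eq_zero.1 (congrFun hz j)

end Vale.Agent.P029.H819.Lin
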