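import Vale.Agent.P029.Bdl.B2
import Vale.Agent.P029.H819.T4R
import Vale.Agent.P029.H819.Lin

/-!
# P029: the solutions of weight `n ≥ 3` over a ring in which the odd integers are invertible
-/

noncomputable section

attribute [local instance 100] LieRing.ofAssociativeRing
attribute [-instance] LieRing.instLieAlgebra

namespace Vale.Agent.P029.Low.Z819

open Vale.Agent.P029 Low LieAlgebra IsoInd BarFin

/-! ### the integral family -/

/-- The integral elements, adapted to the representation `Y`. -/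
theorem exists_sigma {Y : Fin 5 → Module.End K2 KK} (hY : IsRep2 Y) :
    ∃ σ : ℕ → LK ℤ, ∀ k, σ k ∈ wt2 ℤ (2 * k + 3) ∧ bc ℚ (σ k) ∈ W (2 * k + 3) ∧
      Rel Y (bc K2 (σ k)) (FreeLieAlgebra.of K2 k) := by
  choose σ₀ hσ₀ hc₀ using Low.sigma_exists
  obtain ⟨f, hf, hiso⟩ := iso_of_closed wClosed σ₀ hσ₀ hc₀
  have key : ∀ k : ℕ, ∃ z : LK ℤ, z ∈ wt2 ℤ (2 * k + 3) ∧ bc ℚ z ∈ W (2 * k + 3) ∧
      Rel Y (bc K2 z) (FreeLieAlgebra.of K2 k) := by
    intro k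
    obtain ⟨_, ⟨z, hz, hzW, rfl⟩, hr⟩ := stepA hY f (j := 2 * k + 3) (by omega) (hiso.2.2 _)
      (fun a _ h => hiso.2.1 (by rw [h, map_zero])) (β := FreeLieAlgebra.of K2 k)
      (Submodule.subset_span ⟨Tr.leaf k, rfl, rfl⟩)
    refine ⟨z, hz, ?_, ?_⟩
    · rw [bc_eq]; exact hzW
    · rw [bc_eq]; exact hr
  choose σ hσ using key
  exact ⟨σ, hσ⟩

/-! ### base change of solutions -/

section
variable {R : Type} [CommRing R]

theorem bc_sb (u v z : LK ℤ) : bc R (sb u v z) = sb (bc R u) (bc R v) (bc R z) := by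
  induction z using int_induction with
  | hof i =>
    fin_cases i
    · show bc R (sb u v (kx ℤ)) = sb (bc R u) (bc R v) (bc R (kx ℤ))
      rw [sb_x, bc_x, sb_x]
    · show bc R (sb u v (ky ℤ)) = sb (bc R u) (bc R v) (bc R (ky ℤ))
      rw [sb_y, bc_y, sb_y]
  | h0 => simp only [map_zero]
  | hadd a b ha hb => simp only [map_add, ha, hb]
  | hneg a ha => simp only [map_neg, ha]
  | hlie a b ha hb => rw [LieHom.map_lie, bc_lie, bc_lie, LieHom.map_lie, ha, hb]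

theorem bc_inj {z : LK ℤ} (h : bc ℚ z = 0) : z = 0 := by
  rw [bc_eq] at h
  exact base_inj_fin h

theorem range_crd {X : Type} {w : X → ℕ} {n k : ℕ} {t : Fin k → Tr X}
    (ht : ∀ i, (t i).wt w = n) (h1 : ∀ u : Tr X, u.wt w = n → u.eval (FreeLieAlgebra.of R) ∈
      Submodule.span R (Set.range fun i => (t i).eval (FreeLieAlgebra.of R))) :
    LinearMap.range (crd R t) = wtPart R w n := by
  have h := lie_basis_span ht h1
  rw [← h]
  exact Fintype.range_linearCombination R (fun i => (t i).eval (FreeLieAlgebra.of R))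

theorem crd_inj {X : Type} {k : ℕ} {t : Fin k → Tr X}
    (h2 : LinearIndependent R (fun i => (t i).eval (FreeAlgebra.ι R))) :
    Function.Injective (crd R t) :=
  linearIndependent_iff_injective_fintypeLinearCombination.1 (lie_basis_indep h2)

theorem bc_wt {n : ℕ} {z : LK ℤ} (hz : z ∈ wt2 ℤ n) : bc R z ∈ wt2 R n := by
  obtain ⟨k, t, ht, H⟩ := lie_basis (fun _ : Fin 2 => 1) (fun _ => one_pos)
    (fun m => Set.toFinite _) n
  have e1 := range_crd ht (H ℤ).1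
  have e2 := range_crd ht (H R).1
  change z ∈ wtPart ℤ (fun _ : Fin 2 => 1) n at hz
  rw [← e1] at hz
  obtain ⟨c, rfl⟩ := hz
  rw [bc_eq, base_crd]
  show _ ∈ wtPart R (fun _ : Fin 2 => 1) n
  rw [← e2]
  exact ⟨_, rfl⟩

/-- antisymmetry over the integers -/
theorem anti_int {n : ℕ} {z : LK ℤ} (h : bc ℚ z ∈ W n) : z + sb (ky ℤ) (kx ℤ) z = 0 := by
  apply bc_inj
  rw [map_add, bc_sb, bc_x, bc_y]
  have h1 : sb (kx ℚ) (ky ℚ) (bc ℚ z) + sb (ky ℚ) (kx ℚ) (bc ℚ z) = 0 := h.2.1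
  rw [sb_id] at h1
  exact h1

/-- the hexagon over the integers -/
theorem hexa_int {n : ℕ} {z : LK ℤ} (h : bc ℚ z ∈ W n) :
    z + sb (ky ℤ) (-kx ℤ - ky ℤ) z + sb (-kx ℤ - ky ℤ) (kx ℤ) z = 0 := by
  apply bc_inj
  rw [map_add, map_add, bc_sb, bc_sb, map_sub, map_neg, bc_x, bc_y]
  have h1 : sb (kx ℚ) (ky ℚ) (bc ℚ z) + sb (ky ℚ) (-kx ℚ - ky ℚ) (bc ℚ z)
    + sb (-kx ℚ - ky ℚ) (kx ℚ) (bc ℚ z) = 0 := h.2.2.1
  rw [sb_id] at h1
  exact h1

theorem isAnti_bc {n : ℕ} {z : LK ℤ} (h : bc ℚ z ∈ W n) : H819.Anti R (bc R z) := by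
  rw [anti_iff]
  have h1 := congrArg (bc R) (anti_int h)
  rw [map_add, bc_sb, bc_x, bc_y, map_zero] at h1
  exact h1

theorem isHexa_bc {n : ℕ} {z : LK ℤ} (h : bc ℚ z ∈ W n) : H819.Hexa R (bc R z) := by
  rw [hexa_iff]
  have h1 := congrArg (bc R) (hexa_int h)
  rw [map_add, map_add, bc_sb, bc_sb, map_sub, map_neg, bc_x, bc_y, map_zero] at h1
  exact h1

theorem five_bc {n : ℕ} (hn : 2 ≤ n) {z : LK ℤ} (h : bc ℚ z ∈ W n) : five R (bc R z) = 0 := by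
  rw [← bG_five, five_int hn h, map_zero]

theorem isWn_bc {n : ℕ} (hn : 2 ≤ n) {z : LK ℤ} (hz : z ∈ wt2 ℤ n) (h : bc ℚ z ∈ W n) :
    H819.IsWn R n (bc R z) := by
  refine ⟨⟨isAnti_bc h, isHexa_bc h, ?_⟩, ?_⟩
  · exact penta_of_five hn (bc_wt hz) (isAnti_bc h) (five_bc hn h)
  · rw [wtPart_eq]
    exact bc_wt hz

/-! ### the map -/

/-- The map `e k ↦ σ k` over `R`. -/
def fR (R : Type) [CommRing R] (σ : ℕ → LK ℤ) : FreeLieAlgebra R ℕ →ₗ[R] LK R :=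
  thL (fun k => bc R (σ k))

theorem fR_of (σ : ℕ → LK ℤ) (k : ℕ) : fR R σ (FreeLieAlgebra.of R k) = bc R (σ k) := thL_of _ k

theorem fR_lie (σ : ℕ → LK ℤ) (a b : FreeLieAlgebra R ℕ) :
    fR R σ ⁅a, b⁆ = ihara (fR R σ a) (fR R σ b) := thL_lie _ a b

theorem bc_self (z : LK ℤ) : bc ℤ z = z := by
  rw [bc_eq]
  induction z using int_induction with
  | hof i => rw [base_of]
  | h0 => rw [map_zero]
  | hadd a b ha hb => rw [map_add, ha, hb]
  | hneg a ha => rw [map_neg, ha]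
  | hlie a b ha hb => rw [base_lie, ha, hb]

theorem bc_fR (σ : ℕ → LK ℤ) (t : Tr ℕ) :
    bc R (fR ℤ σ (t.eval (FreeLieAlgebra.of ℤ))) = fR R σ (t.eval (FreeLieAlgebra.of R)) := by
  induction t with
  | leaf k =>
    show bc R (fR ℤ σ (FreeLieAlgebra.of ℤ k)) = fR R σ (FreeLieAlgebra.of R k)
    rw [fR_of, fR_of, bc_self]
  | node a b ha hb =>
    show bc R (fR ℤ σ ⁅a.eval (FreeLieAlgebra.of ℤ), b.eval (FreeLieAlgebra.of ℤ)⁆) =
      fR R σ ⁅a.eval (FreeLieAlgebra.of R), b.eval (FreeLieAlgebra.of R)⁆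
    rw [fR_lie, fR_lie, bc_ihara, ha, hb]

theorem fR_tree_wt {σ : ℕ → LK ℤ} (h : ∀ k, σ k ∈ wt2 ℤ (2 * k + 3)) (t : Tr ℕ) :
    fR ℤ σ (t.eval (FreeLieAlgebra.of ℤ)) ∈ wt2 ℤ (t.wt w3) := by
  induction t with
  | leaf k =>
    show fR ℤ σ (FreeLieAlgebra.of ℤ k) ∈ _
    rw [fR_of, bc_self]
    exact h k
  | node a b ha hb =>
    show fR ℤ σ ⁅a.eval (FreeLieAlgebra.of ℤ), b.eval (FreeLieAlgebra.of ℤ)⁆ ∈
      wt2 ℤ (a.wt w3 + b.wt w3)
    rw [fR_lie]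
    exact ihara_wt ha hb

theorem fR_tree_W {σ : ℕ → LK ℤ} (h : ∀ k, bc ℚ (σ k) ∈ W (2 * k + 3)) (t : Tr ℕ) :
    bc ℚ (fR ℤ σ (t.eval (FreeLieAlgebra.of ℤ))) ∈ W (t.wt w3) := by
  rw [bc_fR]
  refine f_tree wClosed (fR ℚ σ) (fun k => ?_) (fun a b => ?_) t
  · rw [fR_of]; exact h k
  · rw [fR_lie]; exact isIharaBracket_ihara _ _

/-- the image of a monomial -/
theorem fR_tree_isWn {σ : ℕ → LK ℤ} (h : ∀ k, σ k ∈ wt2 ℤ (2 * k + 3))
    (h' : ∀ k, bc ℚ (σ k) ∈ W (2 * k + 3)) (t : Tr ℕ) :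
    H819.IsWn R (t.wt w3) (fR R σ (t.eval (FreeLieAlgebra.of R))) := by
  rw [← bc_fR]
  exact isWn_bc ((by omega : (2 : ℕ) ≤ 3).trans (wt_ge t)) (fR_tree_wt h t) (fR_tree_W h' t)

/-- The Ihara derivation over `R`. -/
def DpD (ψ : LK R) : LieDerivation R (LK R) (LK R) where
  toLinearMap := Dp ψ
  leibniz' a b := by
    rw [Dp_lie, ← lie_skew b (Dp ψ a), sub_neg_eq_add]

theorem isIDer_DpD (ψ : LK R) : IsIDer ψ (DpD ψ) := ⟨Dp_x ψ, Dp_y ψ⟩

theorem rel_fR {Y : Fin 5 → Module.End K2 KK} (hY : IsRep2 Y) {σ : ℕ → LK ℤ}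
    (h : ∀ k, Rel Y (bc K2 (σ k)) (FreeLieAlgebra.of K2 k)) (a : FreeLieAlgebra K2 ℕ) :
    Rel Y (fR K2 σ a) a := by
  induction a using Low.free_induction with
  | hof k => rw [fR_of]; exact h k
  | h0 => rw [rel_iff, map_zero, map_zero, map_zero]
  | hadd a b ha hb => rw [rel_iff] at *; rw [map_add, map_add, map_add, ha, hb]
  | hsmul c a ha => rw [rel_iff] at *; rw [map_smul, map_smul, map_smul, ha]
  | hlie a b ha hb =>
    rw [fR_lie]
    exact rel_bracket hY ha hb (isIDer_DpD _) (isIDer_DpD _)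

theorem fR_inj2 {Y : Fin 5 → Module.End K2 KK} (hY : IsRep2 Y) {σ : ℕ → LK ℤ}
    (h : ∀ k, Rel Y (bc K2 (σ k)) (FreeLieAlgebra.of K2 k)) {n : ℕ} {a : FreeLieAlgebra K2 ℕ}
    (ha : a ∈ wtPart K2 w3 n) (h0 : fR K2 σ a = 0) : a = 0 := by
  have h1 := rel_fR hY h a
  rw [h0, rel_iff, map_zero] at h1
  exact lam_inj' ha h1.symm

/-! ### the equations as linear functionals -/

/-- The five term expression as a linear map. -/
def fiveL (R : Type) [CommRing R] : LK R →ₗ[R] GG R :=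
  ∑ i, (sb (K := R) (XX R i) (XX R (i + 1)) : LK R →ₗ[R] GG R)

theorem fiveL_apply (ψ : LK R) : fiveL R ψ = five R ψ := by
  rw [fiveL, five, LinearMap.sum_apply]
  rfl

/-- The first component. -/
def leftL (R : Type) [CommRing R] : GG R →ₗ[R] FL3 R where
  toFun u := u.left
  map_add' _ _ := rfl
  map_smul' _ _ := rfl

/-- The second component. -/
def rightL (R : Type) [CommRing R] : GG R →ₗ[R] LK R where
  toFun u := u.right
  map_add' _ _ := rfl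
  map_smul' _ _ := rfl

/-- `ψ + ψ(y, x)` as a linear map. -/
def antiL (R : Type) [CommRing R] : LK R →ₗ[R] LK R :=
  LinearMap.id + (sb (K := R) (ky R) (kx R) : LK R →ₗ[R] LK R)

theorem antiL_apply (ψ : LK R) : antiL R ψ = ψ + sb (ky R) (kx R) ψ := rfl

/-- The functionals. -/
def EE (R : Type) [CommRing R] : FreeMonoid (Fin 2) ⊕ (FreeMonoid (Fin 3) ⊕ FreeMonoid (Fin 2)) →
    (LK R →ₗ[R] R)
  | Sum.inl w => (cw R w).comp (antiL R)
  | Sum.inr (Sum.inl w) => (cw R w).comp ((leftL R).comp (fiveL R))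
  | Sum.inr (Sum.inr w) => (cw R w).comp ((rightL R).comp (fiveL R))

theorem EE_iff (ψ : LK R) : (∀ w, EE R w ψ = 0) ↔ H819.Anti R ψ ∧ five R ψ = 0 := by
  rw [anti_iff]
  constructor
  · intro h
    refine ⟨eq_zero_of_cw fun w => h (Sum.inl w), ?_⟩
    have h1 : (five R ψ).left = 0 := eq_zero_of_cw fun w => by
      have := h (Sum.inr (Sum.inl w))
      change cw R w (fiveL R ψ).left = 0 at this
      rwa [fiveL_apply] at this
    have h2 : (five R ψ).right = 0 := eq_zero_of_cw fun w => by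
      have := h (Sum.inr (Sum.inr w))
      change cw R w (fiveL R ψ).right = 0 at this
      rwa [fiveL_apply] at this
    generalize five R ψ = u at h1 h2
    cases u
    simp only at h1 h2
    subst h1 h2
    rfl
  · rintro ⟨h1, h2⟩ (w | w | w)
    · show cw R w (antiL R ψ) = 0
      rw [antiL_apply, h1, map_zero]
    · show cw R w (fiveL R ψ).left = 0
      rw [fiveL_apply, h2]
      exact map_zero _
    · show cw R w (fiveL R ψ).right = 0
      rw [fiveL_apply, h2]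
      exact map_zero _

theorem EE_bc (w : FreeMonoid (Fin 2) ⊕ (FreeMonoid (Fin 3) ⊕ FreeMonoid (Fin 2))) (z : LK ℤ) :
    EE R w (bc R z) = ((EE ℤ w z : ℤ) : R) := by
  have e5 : fiveL R (bc R z) = bG R (fiveL ℤ z) := by
    rw [fiveL_apply, fiveL_apply, bG_five]
  rcases w with w | w | w
  · show cw R w (antiL R (bc R z)) = ((cw ℤ w (antiL ℤ z) : ℤ) : R)
    rw [antiL_apply, antiL_apply, ← cw_base, ← bc_eq, map_add (bc R), bc_sb, bc_x, bc_y]
  · show cw R w (fiveL R (bc R z)).left = ((cw ℤ w (fiveL ℤ z).left : ℤ) : R)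
    rw [e5, ← cw_base]
    rfl
  · show cw R w (fiveL R (bc R z)).right = ((cw ℤ w (fiveL ℤ z).right : ℤ) : R)
    rw [e5, ← cw_base, ← bc_eq]
    rfl

theorem EE_crd {k : ℕ} (t : Fin k → Tr (Fin 2))
    (w : FreeMonoid (Fin 2) ⊕ (FreeMonoid (Fin 3) ⊕ FreeMonoid (Fin 2))) (c : Fin k → R) :
    EE R w (crd R t c) = ∑ j, ((EE ℤ w ((t j).eval (FreeLieAlgebra.of ℤ)) : ℤ) : R) * c j := by
  rw [crd_apply, map_sum]
  refine Finset.sum_congr rfl fun j _ => ?_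
  rw [map_smul, smul_eq_mul, ← EE_bc, bc_eval, mul_comm]

/-! ### characteristic two -/

theorem antiall {ψ : LK K2} (h : H819.Anti K2 ψ) : Vale.Agent.P029.Anti ψ := by
  show sb (FreeAlgebra.ι K2 (0 : Fin 2)) (FreeAlgebra.ι K2 (1 : Fin 2)) ψ +
    sb (FreeAlgebra.ι K2 (1 : Fin 2)) (FreeAlgebra.ι K2 (0 : Fin 2)) ψ = 0
  rw [anti_apply h (FreeAlgebra.ι K2 (0 : Fin 2)) (FreeAlgebra.ι K2 (1 : Fin 2))]
  exact neg_add_cancel _

theorem fiveall {ψ : LK K2} (h : five K2 ψ = 0) : FiveAll ψ := by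
  intro A _ _ x hx
  exact five_univ hx h

theorem pos3 : ∀ x : ℕ, 0 < w3 x := fun x => by show 0 < 2 * x + 3; omega

theorem fin3 : ∀ m : ℕ, {x : ℕ | w3 x = m}.Finite := fun m =>
  (Set.finite_Iic m).subset fun x hx => by
    simp only [Set.mem_ofPred_eq, w3] at hx
    simp only [Set.mem_Iic]
    omega

/-- surjectivity in characteristic two -/
theorem surj2 {Y : Fin 5 → Module.End K2 KK} (hY : IsRep2 Y) {σ : ℕ → LK ℤ}
    (h1 : ∀ k, σ k ∈ wt2 ℤ (2 * k + 3)) (h2 : ∀ k, bc ℚ (σ k) ∈ W (2 * k + 3))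
    (h3 : ∀ k, Rel Y (bc K2 (σ k)) (FreeLieAlgebra.of K2 k)) {n : ℕ} (hn : 3 ≤ n) {ψ : LK K2}
    (hw : ψ ∈ wt2 K2 n) (ha : H819.Anti K2 ψ) (h5 : five K2 ψ = 0) :
    ∃ a ∈ wtPart K2 w3 n, fR K2 σ a = ψ := by
  obtain ⟨hF1, hF2, hF3⟩ := finrank_F n
  let V : Submodule K2 (LK K2) := wt2 K2 n ⊓ (LinearMap.ker (antiL K2) ⊓ LinearMap.ker (fiveL K2))
  have hVm : ∀ φ, φ ∈ V ↔ φ ∈ wt2 K2 n ∧ H819.Anti K2 φ ∧ five K2 φ = 0 := by
    intro φ
    show φ ∈ wt2 K2 n ∧ antiL K2 φ = 0 ∧ fiveL K2 φ = 0 ↔ _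
    rw [anti_iff, fiveL_apply, antiL_apply]
  have hb : Module.finrank K2 V ≤ Module.finrank ℚ (Fpart n) :=
    char2_bound' hn V fun φ hφ => by
      obtain ⟨a1, a2, a3⟩ := (hVm φ).1 hφ
      exact ⟨a1, antiall a2, fiveall a3⟩
  have hfd : FiniteDimensional K2 (wt2 K2 n) :=
    wtPart_finite (fun _ : Fin 2 => 1) (fun _ => one_pos) (fun m => Set.toFinite _) n
  have hVfd : FiniteDimensional K2 V :=
    Submodule.finiteDimensional_of_le (inf_le_left : V ≤ wt2 K2 n)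
  have hle : (wtPart K2 w3 n).map (fR K2 σ) ≤ V := by
    rw [Submodule.map_le_iff_le_comap]
    unfold wtPart
    rw [Submodule.span_le]
    rintro _ ⟨t, rfl, rfl⟩
    show fR K2 σ _ ∈ V
    rw [← bc_fR, hVm]
    exact ⟨bc_wt (fR_tree_wt h1 t), isAnti_bc (fR_tree_W h2 t),
      five_bc (by omega) (fR_tree_W h2 t)⟩
  have hfr : Module.finrank K2 ((wtPart K2 w3 n).map (fR K2 σ)) =
      Module.finrank K2 (wtPart K2 w3 n) := by
    rw [← LinearMap.range_domRestrict]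
    apply LinearMap.finrank_range_of_inj
    rw [injective_iff_map_eq_zero]
    intro a ha
    exact Subtype.ext (fR_inj2 hY h3 a.2 ha)
  have heq : (wtPart K2 w3 n).map (fR K2 σ) = V := by
    apply Submodule.eq_of_le_of_finrank_le hle
    rw [hfr]
    exact hb.trans hF3.ge
  have : ψ ∈ (wtPart K2 w3 n).map (fR K2 σ) := by
    rw [heq, hVm]; exact ⟨hw, ha, h5⟩
  exact this

/-! ### all rings in which the odd integers are invertible -/

theorem exact_R {Y : Fin 5 → Module.End K2 KK} (hY : IsRep2 Y) {σ : ℕ → LK ℤ}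
    (h1 : ∀ k, σ k ∈ wt2 ℤ (2 * k + 3)) (h2 : ∀ k, bc ℚ (σ k) ∈ W (2 * k + 3))
    (h3 : ∀ k, Rel Y (bc K2 (σ k)) (FreeLieAlgebra.of K2 k))
    (hR : ∀ m : ℤ, Odd m → IsUnit (m : R)) {n : ℕ} (hn : 3 ≤ n) :
    (∀ a ∈ wtPart R w3 n, fR R σ a = 0 → a = 0) ∧
      ∀ ψ ∈ wt2 R n, H819.Anti R ψ → H819.Penta R ψ → ∃ a ∈ wtPart R w3 n, fR R σ a = ψ := by
  obtain ⟨k, t, ht, H⟩ := lie_basis (fun _ : Fin 2 => 1) (fun _ => one_pos)
    (fun m => Set.toFinite _) n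
  obtain ⟨d, s, hs, H'⟩ := lie_basis w3 pos3 fin3 n
  have hA0 : ∀ l : Fin d, ∃ c : Fin k → ℤ,
      crd ℤ t c = fR ℤ σ ((s l).eval (FreeLieAlgebra.of ℤ)) := by
    intro l
    have hm := fR_tree_wt h1 (s l)
    rw [hs l] at hm
    change _ ∈ wtPart ℤ (fun _ : Fin 2 => 1) n at hm
    rw [← range_crd ht (H ℤ).1] at hm
    exact hm
  choose A hA using hA0
  have hAR : ∀ (S : Type) [CommRing S] (a : Fin d → S), fR S σ (crd S s a) =
      crd S t (fun j => ∑ l, (A l j : S) * a l) := by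
    intro S _ a
    have e1 : ∀ l, fR S σ ((s l).eval (FreeLieAlgebra.of S)) = crd S t (fun j => (A l j : S)) := by
      intro l
      rw [← bc_fR, ← hA l, bc_eq, base_crd]
    rw [crd_apply, map_sum]
    simp only [map_smul, e1]
    simp only [← map_smul, ← map_sum]
    congr 1
    funext j
    simp only [Finset.sum_apply, Pi.smul_apply, smul_eq_mul, mul_comm]
  have hK2inj : ∀ c c' : Fin k → K2, crd K2 t c = crd K2 t c' → c = c' := fun c c' h =>
    crd_inj (H K2).2 h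
  have hws : ∀ (S : Type) [CommRing S] (a : Fin d → S), crd S s a ∈ wtPart S w3 n := by
    intro S _ a
    rw [← range_crd hs (H' S).1]
    exact ⟨a, rfl⟩
  have hwt : ∀ (S : Type) [CommRing S] (c : Fin k → S), crd S t c ∈ wt2 S n := by
    intro S _ c
    show _ ∈ wtPart S (fun _ : Fin 2 => 1) n
    rw [← range_crd ht (H S).1]
    exact ⟨c, rfl⟩
  have hPA : ∀ w l, ∑ j, EE ℤ w ((t j).eval (FreeLieAlgebra.of ℤ)) * A l j = 0 := by
    -- the integral solutions satisfy the equations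
    intro w l
    have h4 := EE_crd (R := ℤ) t w (A l)
    rw [hA l] at h4
    have h5 : EE ℤ w (fR ℤ σ ((s l).eval (FreeLieAlgebra.of ℤ))) = 0 := by
      have h6 := fR_tree_W h2 (s l)
      refine (EE_iff _).2 ⟨?_, five_int ?_ h6⟩ w
      · rw [anti_iff]; exact anti_int h6
      · exact ((by omega : (2 : ℕ) ≤ 3).trans (wt_ge (s l)))
    rw [h5] at h4
    rw [h4]
    exact Finset.sum_congr rfl fun j _ => by rw [Int.cast_id]
  have hA2 : ∀ a : Fin d → ZMod 2, (∀ j, ∑ l, (A l j : ZMod 2) * a l = 0) → a = 0 := by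
    intro a ha
    have h4 : fR K2 σ (crd K2 s a) = 0 := by
      rw [hAR, ← map_zero (crd K2 t)]
      congr 1
      funext j
      exact ha j
    have h5 := fR_inj2 hY h3 (hws K2 a) h4
    rw [← map_zero (crd K2 s)] at h5
    exact crd_inj (H' K2).2 h5
  have hE2 : ∀ c : Fin k → ZMod 2,
      (∀ w, ∑ j, (EE ℤ w ((t j).eval (FreeLieAlgebra.of ℤ)) : ZMod 2) * c j = 0) →
      ∃ a : Fin d → ZMod 2, ∀ j, c j = ∑ l, (A l j : ZMod 2) * a l := by
    intro c hc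
    have h4 : ∀ w, EE K2 w (crd K2 t c) = 0 := fun w => by rw [EE_crd]; exact hc w
    obtain ⟨h5, h6⟩ := (EE_iff _).1 h4
    obtain ⟨b, hb, hbe⟩ := surj2 hY h1 h2 h3 hn (hwt K2 c) h5 h6
    rw [← range_crd hs (H' K2).1] at hb
    obtain ⟨a, rfl⟩ := hb
    rw [hAR] at hbe
    exact ⟨a, fun j => (congrFun (hK2inj _ _ hbe) j).symm⟩
  obtain ⟨g1, g2⟩ := H819.Lin.exact_of_mod2
    (fun w j => EE ℤ w ((t j).eval (FreeLieAlgebra.of ℤ))) A hPA hA2 hE2 hR
  constructor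
  · intro a ha h0
    rw [← range_crd hs (H' R).1] at ha
    obtain ⟨a, rfl⟩ := ha
    rw [hAR, ← map_zero (crd R t)] at h0
    have h4 := crd_inj (H R).2 h0
    rw [g1 a fun j => congrFun h4 j, map_zero]
  · intro ψ hψ hanti hpenta
    have h5 := five_eq_zero (by omega : 2 ≤ n) hψ hanti hpenta
    have hE := (EE_iff ψ).2 ⟨hanti, h5⟩
    change ψ ∈ wtPart R (fun _ : Fin 2 => 1) n at hψ
    rw [← range_crd ht (H R).1] at hψ
    obtain ⟨c, rfl⟩ := hψ
    obtain ⟨a, ha⟩ := g2 c fun w => by rw [← EE_crd]; exact hE w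
    refine ⟨crd R s a, hws R a, ?_⟩
    rw [hAR]
    congr 1
    funext j
    exact (ha j).symm

end

end Vale.Agent.P029.Low.Z819
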