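import Vale.Agent.P029.H819.Cor
import Vale.Agent.P029.H140.Low

/-!
# P029: summary of the results over rings in which the odd integers are invertible
-/

noncomputable section

attribute [local instance 100] LieRing.ofAssociativeRing
attribute [-instance] LieRing.instLieAlgebra

namespace Vale.Agent.P029.Low.Z819

open Vale.Agent.P029 Low LieAlgebra IsoInd BarFin

/-- low weights -/
theorem lowZero (R : Type) [CommRing R] (h3 : IsUnit (3 : R)) (n : ℕ) (ψ : H819.L R) (hn : n ≤ 2)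
    (h : H819.IsWn R n ψ) : ψ = 0 := by
  interval_cases n
  · exact H140.wn_zero h
  · exact H140.wn_one h
  · exact H140.wn_two h3 h

theorem twoLocal : ∃ σ : ℕ → LK ℤ, (∀ k, H819.IsWn ℤ (2 * k + 3) (σ k)) ∧
    ∀ (R : Type) [CommRing R], (∀ m : ℤ, Odd m → IsUnit (m : R)) →
      (∃! f : H819.F R → H819.L R,
        (∀ k, f (FreeLieAlgebra.of R k) = H819.toR R (σ k)) ∧ H819.IsIso R f) ∧
      (∀ n, 3 ≤ n → ∀ ψ ∈ H819.wtPart R (fun _ => 1) n,
        H819.Anti R ψ → H819.Penta R ψ → H819.Hexa R ψ) ∧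
      (∀ n ψ, H819.IsWn R n ψ →
        ψ ∈ Submodule.span R (H819.toR R '' {z | H819.IsWn ℤ n z})) := by
  obtain ⟨Y, hY⟩ := exists_rep2
  obtain ⟨σ, hσ⟩ := exists_sigma hY
  have h1 : ∀ k, σ k ∈ wt2 ℤ (2 * k + 3) := fun k => (hσ k).1
  have h2 : ∀ k, bc ℚ (σ k) ∈ W (2 * k + 3) := fun k => (hσ k).2.1
  have h3 : ∀ k, Rel Y (bc K2 (σ k)) (FreeLieAlgebra.of K2 k) := fun k => (hσ k).2.2
  refine ⟨σ, fun k => ?_, fun R _ hR => ?_⟩
  · have := isWn_bc (R := ℤ) (by omega : 2 ≤ 2 * k + 3) (h1 k) (h2 k)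
    rwa [bc_self] at this
  · have h3u : IsUnit (3 : R) := by
      have := hR 3 (by decide)
      push_cast at this
      exact this
    have hiso := main hY h1 h2 h3 hR (fun n ψ hn h => lowZero R h3u n ψ hn h)
      (fun ψ h => H140.comps R h)
    refine ⟨⟨fR R σ, ⟨fun k => ?_, hiso⟩, fun g hg => iso_unique hg.2 hg.1⟩, ?_, ?_⟩
    · rw [fR_of]; rfl
    · intro n hn ψ hw hA hP
      exact hexa_of hY h1 h2 h3 hR hn hw hA hP
    · intro n ψ h
      obtain ⟨a, ha, rfl⟩ := (hiso.2.2.2.2.2 n ψ).1 h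
      rw [H819.Fpart, wtPart_eq] at ha
      exact mem_span h1 h2 ha

/-- the dimensions over a field of characteristic zero or two -/
theorem finrank_field (K : Type) [Field K] (h : CharP K 0 ∨ CharP K 2) (n : ℕ) :
    Module.finrank K (Submodule.span K {ψ | H819.IsWn K n ψ}) =
      Module.finrank ℚ (Stmt.Fpart n) := by
  have hR : ∀ m : ℤ, Odd m → IsUnit (m : K) := by
    intro m hm
    rw [isUnit_iff_ne_zero]
    intro h0
    rcases h with h | h
    · have h1 := (CharP.intCast_eq_zero_iff K 0 m).1 h0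
      simp only [Nat.cast_zero, zero_dvd_iff] at h1
      subst h1
      exact absurd hm (by decide)
    · have h1 := (CharP.intCast_eq_zero_iff K 2 m).1 h0
      rcases hm with ⟨k, rfl⟩
      omega
  obtain ⟨σ, -, hσ⟩ := twoLocal
  obtain ⟨⟨f, ⟨-, hf⟩, -⟩, -, -⟩ := hσ K hR
  rw [finrank_of_iso hf n]
  have e : (Stmt.Fpart n : Submodule ℚ Stmt.F) = Fpart n := Bridge.wtPart_eq _ _
  rw [e]

end Vale.Agent.P029.Low.Z819
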