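import Vale.Agent.P029.H819.Gen
import Vale.Agent.P029.H140.LA2
import Vale.Agent.P029.H140.LA3

/-!
# P029, odd characteristic: the final statements
-/

noncomputable section

attribute [local instance 100] LieRing.ofAssociativeRing
attribute [-instance] LieRing.instLieAlgebra

namespace Vale.Agent.P029.Odd

open Vale.Agent.P029 Low Low.Z819 Low.SolLin IsoInd

theorem iso_of_unit (R : Type) [CommRing R] (h : ∀ m : ℤ, Odd m → IsUnit (m : R)) :
    ∃ f : H819.F R → H819.L R, H819.IsIso R f := by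
  obtain ⟨σ, -, hσ⟩ := twoLocal
  obtain ⟨⟨f, ⟨-, hf⟩, -⟩, -, -⟩ := hσ R h
  exact ⟨f, hf⟩

theorem lie_basis2 (n : ℕ) : ∃ (k : ℕ) (t : Fin k → Tr (Fin 2)),
    (∀ i, (t i).wt (fun _ => 1) = n) ∧ ∀ (R : Type) [CommRing R],
      (∀ u : Tr (Fin 2), u.wt (fun _ => 1) = n → u.eval (FreeLieAlgebra.of R) ∈
        Submodule.span R (Set.range fun i => (t i).eval (FreeLieAlgebra.of R))) ∧
      LinearIndependent R (fun i => (t i).eval (FreeAlgebra.ι R)) :=
  lie_basis (fun _ => 1) (fun _ => Nat.one_pos) (fun _ => Set.toFinite _) n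

/-- The number of solutions over a field depends only on the characteristic. -/
theorem finrank_char {p : ℕ} [Fact p.Prime] (K : Type) [Field K] [CharP K p] {n : ℕ}
    (hn : 2 ≤ n) : Module.finrank K (Submodule.span K {ψ | H819.IsWn K n ψ}) =
      Module.finrank (ZMod p) (Submodule.span (ZMod p) {ψ | H819.IsWn (ZMod p) n ψ}) := by
  obtain ⟨k, t, ht, H⟩ := lie_basis2 n
  rw [← finrank_krB hn ht (H K).1 (H K).2, ← finrank_krB hn ht (H (ZMod p)).1 (H (ZMod p)).2,
    H140.kr_finrank (p := p) K]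

theorem finrank_C (n : ℕ) : Module.finrank ℂ (Submodule.span ℂ {ψ | H819.IsWn ℂ n ψ}) =
    Module.finrank ℚ (Stmt.Fpart n) :=
  finrank_field ℂ (Or.inl inferInstance) n

/-- For every odd prime there is a weight with too many solutions. -/
theorem exists_weight {p : ℕ} [Fact p.Prime] (hp2 : p ≠ 2) : ∃ n, 2 ≤ n ∧ n ≤ p - 1 ∧
    Module.finrank ℚ (Stmt.Fpart n) <
      Module.finrank (ZMod p) (Submodule.span (ZMod p) {ψ | H819.IsWn (ZMod p) n ψ}) := by
  obtain ⟨n, hn, hnp, h⟩ := exists_gt hp2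
  refine ⟨n, hn, hnp, ?_⟩
  have h1 : (n : ZMod p) ≠ 0 := by
    rw [Ne, ZMod.natCast_eq_zero_iff]
    intro hd
    have := Nat.le_of_dvd (by omega) hd
    have := (Fact.out : p.Prime).two_le
    omega
  rwa [finrank_kr hn (by exact_mod_cast (by omega : n ≠ 0)), finrank_kr hn h1, finrank_C] at h

/-- No isomorphism over a ring with odd torsion. -/
theorem no_iso {p : ℕ} [Fact p.Prime] (hp2 : p ≠ 2) (R : Type) [CommRing R] {r : R} (hr : r ≠ 0)
    (hpr : (p : R) * r = 0) : ¬ ∃ f : H819.F R → H819.L R, H819.IsIso R f := by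
  rintro ⟨f, hf⟩
  obtain ⟨n, hn, -, h⟩ := exists_weight hp2
  obtain ⟨k, t, ht, H⟩ := lie_basis2 n
  obtain ⟨d, s, hs, H3⟩ := lie_basis w3 pos3 fin3 n
  have e1 : Module.finrank ℂ (H140.kr ℂ (BL t)) = d := by
    rw [finrank_krB hn ht (H ℂ).1 (H ℂ).2, finrank_C]
    have e : (Stmt.Fpart n : Submodule ℚ Stmt.F) = wtPart ℚ w3 n := Bridge.wtPart_eq _ _
    rw [e]
    exact wtPart_finrank hs (H3 ℚ).1 (H3 ℚ).2
  have h' : Module.finrank ℂ (H140.kr ℂ (BL t)) <
      Module.finrank (ZMod p) (H140.kr (ZMod p) (BL t)) := by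
    rwa [finrank_krB hn ht (H ℂ).1 (H ℂ).2, finrank_C,
      finrank_krB hn ht (H (ZMod p)).1 (H (ZMod p)).2]
  subst e1
  obtain ⟨g, hg⟩ := gen_of_iso hn ht (H R).1 (H R).2 hf hs (H3 R).1
  exact H140.kr_not_gen (BL t) h' R r hr hpr g hg

/-- If there is an isomorphism, the odd integers are no zero divisors. -/
theorem odd_regular {R : Type} [CommRing R] (h : ∃ f : H819.F R → H819.L R, H819.IsIso R f)
    {m : ℤ} (hm : Odd m) {r : R} (hr : (m : R) * r = 0) : r = 0 := by
  by_contra hr0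
  have hm' : Odd m.natAbs := Int.natAbs_odd.2 hm
  have h1 : m.natAbs • r = 0 := by
    obtain ⟨c, hc⟩ : m ∣ (m.natAbs : ℤ) := Int.dvd_natAbs.2 dvd_rfl
    have h2 : ((m.natAbs : ℤ) : R) * r = 0 := by
      rw [hc, Int.cast_mul, mul_comm (m : R), mul_assoc, hr, mul_zero]
    rw [nsmul_eq_mul]
    rwa [Int.cast_natCast] at h2
  have hd : addOrderOf r ∣ m.natAbs := addOrderOf_dvd_of_nsmul_eq_zero h1
  have hodd : Odd (addOrderOf r) := hm'.of_dvd_nat hd
  have h1' : addOrderOf r ≠ 1 := by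
    rw [Ne, AddMonoid.addOrderOf_eq_one_iff]
    exact hr0
  have hq : (addOrderOf r).minFac.Prime := Nat.minFac_prime h1'
  have hqd := Nat.minFac_dvd (addOrderOf r)
  obtain ⟨c, hc⟩ := hqd
  have : Fact (addOrderOf r).minFac.Prime := ⟨hq⟩
  have hpos : 0 < addOrderOf r := hodd.pos
  have hc0 : 0 < c := by
    rcases Nat.eq_zero_or_pos c with h0 | h0
    · rw [h0, mul_zero] at hc; omega
    · exact h0
  refine no_iso (p := (addOrderOf r).minFac) ?_ R (r := c • r) ?_ ?_ h
  · intro h2
    rw [h2] at hc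
    rw [hc] at hodd
    exact absurd hodd (by simp)
  · intro h0
    have h2 := Nat.le_of_dvd hc0 (addOrderOf_dvd_of_nsmul_eq_zero h0)
    have h3 := hq.two_le
    nlinarith
  · rw [← nsmul_eq_mul, smul_smul, ← hc]
    exact addOrderOf_nsmul_eq_zero r

/-- Rings of positive characteristic. -/
theorem iso_iff_char (R : Type) [CommRing R] (m : ℕ) (hm : 0 < m) [CharP R m] :
    (∃ f : H819.F R → H819.L R, H819.IsIso R f) ↔ ∃ k, m = 2 ^ k := by
  constructor
  · intro h
    refine ⟨_, Nat.eq_prime_pow_of_unique_prime_dvd hm.ne' fun {q} hq hqm => ?_⟩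
    by_contra hq2
    obtain ⟨c, rfl⟩ := hqm
    have hc0 : 0 < c := Nat.pos_of_mul_pos_right hm |> fun h => by
      rcases Nat.eq_zero_or_pos c with h0 | h0
      · subst h0; simp at hm
      · exact h0
    have : Fact q.Prime := ⟨hq⟩
    refine no_iso (p := q) hq2 R (r := (c : R)) ?_ ?_ h
    · intro h0
      rw [CharP.cast_eq_zero_iff R (q * c)] at h0
      have := Nat.le_of_dvd hc0 h0
      have := hq.two_le
      nlinarith
    · rw [← Nat.cast_mul, CharP.cast_eq_zero]
  · rintro ⟨k, rfl⟩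
    apply iso_of_unit
    intro a ha
    have hco : IsCoprime a (2 ^ k : ℤ) := (Int.isCoprime_iff_gcd_eq_one.2 (by
      have : Int.gcd a 2 = 1 := by
        obtain ⟨b, rfl⟩ := ha
        simp
      exact this)).pow_right
    obtain ⟨u, v, huv⟩ := hco
    have h1 := congrArg (Int.cast : ℤ → R) huv
    push_cast at h1
    have h2 : ((2 : R) ^ k) = 0 := by
      have := CharP.cast_eq_zero R (2 ^ k)
      exact_mod_cast this
    rw [h2, mul_zero, add_zero] at h1
    exact IsUnit.of_mul_eq_one_right _ h1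

/-- Fields. -/
theorem iso_iff_field (K : Type) [Field K] :
    (∃ f : H819.F K → H819.L K, H819.IsIso K f) ↔ CharP K 0 ∨ CharP K 2 := by
  constructor
  · intro h
    obtain ⟨p, hp⟩ := CharP.exists K
    rcases CharP.char_is_prime_or_zero K p with h1 | h1
    · right
      have : Fact p.Prime := ⟨h1⟩
      by_cases h2 : p = 2
      · exact h2 ▸ hp
      · exact absurd h (no_iso (p := p) h2 K (r := 1) one_ne_zero (by
          rw [mul_one]; exact CharP.cast_eq_zero K p))
    · left
      exact h1 ▸ hp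
  · intro h
    apply iso_of_unit
    intro m hm
    rw [isUnit_iff_ne_zero]
    intro h0
    rcases h with h | h
    · have h1 := (CharP.intCast_eq_zero_iff K 0 m).1 h0
      simp only [Nat.cast_zero, zero_dvd_iff] at h1
      subst h1
      exact absurd hm (by decide)
    · have h1 := (CharP.intCast_eq_zero_iff K 2 m).1 h0
      rcases hm with ⟨k, rfl⟩
      omega

/-- Dimensions over fields. -/
theorem finrank_iff_field (K : Type) [Field K] :
    (∀ n, Module.finrank K (Submodule.span K {ψ | H819.IsWn K n ψ}) =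
      Module.finrank ℚ (Stmt.Fpart n)) ↔ CharP K 0 ∨ CharP K 2 := by
  constructor
  · intro h
    obtain ⟨p, hp⟩ := CharP.exists K
    rcases CharP.char_is_prime_or_zero K p with h1 | h1
    · right
      have : Fact p.Prime := ⟨h1⟩
      by_cases h2 : p = 2
      · exact h2 ▸ hp
      · obtain ⟨n, hn, -, h3⟩ := exists_weight (p := p) h2
        rw [← finrank_char (p := p) K hn, h n] at h3
        exact absurd h3 (lt_irrefl _)
    · left
      exact h1 ▸ hp
  · intro h n
    exact finrank_field K h n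

end Vale.Agent.P029.Odd
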