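import Vale.Agent.P029.H819.Ops
import Mathlib.GroupTheory.NoncommCoprod

/-!
# P029, odd characteristic: the linearised equations as integral functionals
-/

noncomputable section

attribute [local instance 100] LieRing.ofAssociativeRing
attribute [-instance] LieRing.instLieAlgebra

namespace Vale.Agent.P029.Odd

open Vale.Agent.P029 Low Low.Z819 Low.SolLin

/-! ### the algebra `R⟨x, y⟩ ⊗ R⟨x, y⟩` -/

/-- The monoid of pairs of words. -/
abbrev MM : Type := FreeMonoid (Fin 2) × FreeMonoid (Fin 2)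

section
variable (R : Type) [CommRing R]

/-- The algebra on pairs of words. -/
abbrev TT : Type := MonoidAlgebra R MM

/-- The first letters. -/
def ta (i : Fin 2) : TT R := MonoidAlgebra.single (FreeMonoid.of i, 1) 1
/-- The second letters. -/
def tb (i : Fin 2) : TT R := MonoidAlgebra.single (1, FreeMonoid.of i) 1

theorem ta_tb (i j : Fin 2) : ta R i * tb R j = tb R j * ta R i := by
  simp [ta, tb, MonoidAlgebra.single_mul_single]

/-- Primitivity. -/
def dl : FA R →ₗ[R] TT R :=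
  (ev (ta R 0 + tb R 0) (ta R 1 + tb R 1) : FA R →ₐ[R] TT R).toLinearMap -
    ((ev (ta R 0) (ta R 1) : FA R →ₐ[R] TT R).toLinearMap +
      (ev (tb R 0) (tb R 1) : FA R →ₐ[R] TT R).toLinearMap)

theorem dl_apply (χ : FA R) : dl R χ = ev (ta R 0 + tb R 0) (ta R 1 + tb R 1) χ -
    (ev (ta R 0) (ta R 1) χ + ev (tb R 0) (tb R 1) χ) := rfl

/-- The letters of `R⟨x, y⟩`. -/
def fx : FA R := FreeAlgebra.ι R 0
/-- The letters of `R⟨x, y⟩`. -/
def fy : FA R := FreeAlgebra.ι R 1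

/-- Antisymmetry. -/
def anL : FA R →ₗ[R] FA R :=
  (ev (fx R) (fy R) : FA R →ₐ[R] FA R).toLinearMap + (ev (fy R) (fx R) : FA R →ₐ[R] FA R).toLinearMap

/-- The hexagon. -/
def heL : FA R →ₗ[R] FA R :=
  (ev (fx R) (fy R) : FA R →ₐ[R] FA R).toLinearMap
    + (ev (fy R) (-fx R - fy R) : FA R →ₐ[R] FA R).toLinearMap
    + (ev (-fx R - fy R) (fx R) : FA R →ₐ[R] FA R).toLinearMap

/-- The five term relation. -/
def peL : FA R →ₗ[R] F3 R :=
  (LinearMap.applyₗ (R := R) (1 : F3 R)).comp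
    (∑ i, (ev (Op R i) (Op R (i + 1)) : FA R →ₐ[R] Module.End R (F3 R)).toLinearMap)

theorem peL_apply (χ : FA R) : peL R χ = (∑ i, ev (Op R i) (Op R (i + 1)) χ) 1 := by
  rw [peL, LinearMap.comp_apply, LinearMap.applyₗ_apply_apply, LinearMap.sum_apply]
  rfl

/-- The coefficient of a word. -/
def cf {X : Type} (w : FreeMonoid X) : FreeAlgebra R X →ₗ[R] R :=
  (FreeAlgebra.basisFreeMonoid R X).coord w

/-- The coefficient of a pair of words. -/
def cm (w : MM) : TT R →ₗ[R] R where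
  toFun f := f.coeff w
  map_add' f g := by simp
  map_smul' c f := by simp

/-- The indices of the functionals. -/
abbrev JJ : Type := (MM ⊕ FreeMonoid (Fin 2)) ⊕ (FreeMonoid (Fin 2) ⊕ FreeMonoid (Fin 3))

/-- The functionals. -/
def EF : JJ → (FA R →ₗ[R] R)
  | Sum.inl (Sum.inl w) => (cm R w).comp (dl R)
  | Sum.inl (Sum.inr w) => (cf R w).comp (anL R)
  | Sum.inr (Sum.inl w) => (cf R w).comp (heL R)
  | Sum.inr (Sum.inr w) => (cf R w).comp (peL R)

variable {R}

theorem eq_zero_of_cf {X : Type} {f : FreeAlgebra R X} (h : ∀ w, cf R w f = 0) : f = 0 := by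
  apply (FreeAlgebra.basisFreeMonoid R X).ext_elem
  intro w
  rw [map_zero, Finsupp.zero_apply]
  exact h w

theorem eq_zero_of_cm {f : TT R} (h : ∀ w, cm R w f = 0) : f = 0 := by
  apply MonoidAlgebra.ext
  refine Finsupp.ext fun w => ?_
  exact h w

theorem EF_iff (χ : FA R) : (∀ w, EF R w χ = 0) ↔
    dl R χ = 0 ∧ anL R χ = 0 ∧ heL R χ = 0 ∧ peL R χ = 0 := by
  constructor
  · intro h
    exact ⟨eq_zero_of_cm fun w => h (Sum.inl (Sum.inl w)),
      eq_zero_of_cf fun w => h (Sum.inl (Sum.inr w)),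
      eq_zero_of_cf fun w => h (Sum.inr (Sum.inl w)),
      eq_zero_of_cf fun w => h (Sum.inr (Sum.inr w))⟩
  · rintro ⟨h1, h2, h3, h4⟩ ((w | w) | (w | w))
    · show cm R w (dl R χ) = 0
      rw [h1, map_zero]
    · show cf R w (anL R χ) = 0
      rw [h2, map_zero]
    · show cf R w (heL R χ) = 0
      rw [h3, map_zero]
    · show cf R w (peL R χ) = 0
      rw [h4, map_zero]

/-! ### base change -/

/-- `ℤ⟨x, y⟩ → R⟨x, y⟩`. -/
abbrev jF (R : Type) [CommRing R] : FA ℤ →+* FA R := Transport.jj R (Fin 2)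

theorem ev_jF {A B : Type} [Ring A] [Ring B] [Algebra ℤ A] [Algebra R B] (φ : A →+* B) (a b : A)
    (χ : FA ℤ) : φ (ev a b χ) = ev (φ a) (φ b) (jF R χ) := by
  induction χ using FreeAlgebra.induction with
  | grade0 c =>
    rw [AlgHom.commutes]
    have e1 : algebraMap ℤ A c = ((c : ℤ) : A) := eq_intCast (algebraMap ℤ A) c
    have e2 : jF R (algebraMap ℤ (FA ℤ) c) = ((c : ℤ) : FA R) := by
      have : algebraMap ℤ (FA ℤ) c = ((c : ℤ) : FA ℤ) := by rw [eq_intCast]
      rw [this, map_intCast]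
    rw [e1, e2, map_intCast, map_intCast]
  | grade1 i =>
    rw [Transport.jj_ι]
    fin_cases i
    · simp [ev]
    · simp [ev]
  | mul a b ha hb => rw [map_mul, map_mul, map_mul, map_mul, ha, hb]
  | add a b ha hb => rw [map_add, map_add, map_add, map_add, ha, hb]

/-- the same for operators -/
theorem ev_op {A B : Type} [AddCommGroup A] [AddCommGroup B] [Module ℤ A] [Module R B]
    (φ : A →+ B) (a b : Module.End ℤ A) (a' b' : Module.End R B)
    (ha : ∀ f, φ (a f) = a' (φ f)) (hb : ∀ f, φ (b f) = b' (φ f)) (χ : FA ℤ) (f : A) :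
    φ (ev a b χ f) = ev a' b' (jF R χ) (φ f) := by
  induction χ using FreeAlgebra.induction generalizing f with
  | grade0 c =>
    have e2 : jF R (algebraMap ℤ (FA ℤ) c) = ((c : ℤ) : FA R) := by
      have : algebraMap ℤ (FA ℤ) c = ((c : ℤ) : FA ℤ) := by rw [eq_intCast]
      rw [this, map_intCast]
    have e1 : algebraMap ℤ (FA ℤ) c = ((c : ℤ) : FA ℤ) := by rw [eq_intCast]
    rw [e2, e1, map_intCast, map_intCast]
    rw [Module.End.intCast_apply, Module.End.intCast_apply, map_zsmul]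
  | grade1 i =>
    rw [Transport.jj_ι]
    fin_cases i
    · simpa [ev] using ha f
    · simpa [ev] using hb f
  | mul u v hu hv =>
    rw [map_mul, map_mul, map_mul, Module.End.mul_apply, Module.End.mul_apply, hu, hv]
  | add u v hu hv =>
    rw [map_add, map_add, map_add, LinearMap.add_apply, LinearMap.add_apply, map_add, hu, hv]

theorem cf_jj {X : Type} (w : FreeMonoid X) (f : FreeAlgebra ℤ X) :
    cf R w (Transport.jj R X f) = ((cf ℤ w f : ℤ) : R) := by
  classical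
  show (FreeAlgebra.basisFreeMonoid R X).coord w (Transport.jj R X f) =
    (((FreeAlgebra.basisFreeMonoid ℤ X).coord w f : ℤ) : R)
  have h1 : f = ∑ v ∈ ((FreeAlgebra.basisFreeMonoid ℤ X).repr f).support,
      ((FreeAlgebra.basisFreeMonoid ℤ X).repr f v) • FreeAlgebra.basisFreeMonoid ℤ X v :=
    ((FreeAlgebra.basisFreeMonoid ℤ X).linearCombination_repr f).symm
  conv_lhs => rw [h1]
  rw [map_sum, map_sum]
  simp only [map_zsmul, Transport.jj_basis]
  rw [Module.Basis.coord_apply]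
  have e : ∀ v, (FreeAlgebra.basisFreeMonoid R X).coord w (FreeAlgebra.basisFreeMonoid R X v) =
      if v = w then 1 else 0 := by
    intro v
    rw [Module.Basis.coord_apply, Module.Basis.repr_self, Finsupp.single_apply]
  simp only [e]
  simp only [smul_ite, smul_zero, Finset.sum_ite_eq']
  split_ifs with h
  · rw [zsmul_eq_mul, mul_one]
  · rw [Finsupp.notMem_support_iff.1 h, Int.cast_zero]

/-- base change of pairs -/
def jT (R : Type) [CommRing R] : TT ℤ →+* TT R := MonoidAlgebra.mapRingHom MM (Int.castRingHom R)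

theorem jT_ta (i : Fin 2) : jT R (ta ℤ i) = ta R i := by
  rw [jT, ta, ta, MonoidAlgebra.mapRingHom_single, map_one]

theorem jT_tb (i : Fin 2) : jT R (tb ℤ i) = tb R i := by
  rw [jT, tb, tb, MonoidAlgebra.mapRingHom_single, map_one]

theorem cm_jT (w : MM) (f : TT ℤ) : cm R w (jT R f) = ((cm ℤ w f : ℤ) : R) := by
  show (jT R f).coeff w = ((f.coeff w : ℤ) : R)
  rw [jT, MonoidAlgebra.coeff_mapRingHom]
  rfl

theorem dv_alg (v : Fin 3 → F3 R) (c : R) : dv v (algebraMap R (F3 R) c) = 0 := by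
  rw [Algebra.algebraMap_eq_smul_one, map_smul, dv_one, smul_zero]

/-- `ℤ⟨p, g, s⟩ → R⟨p, g, s⟩`. -/
abbrev j3 (R : Type) [CommRing R] : F3 ℤ →+* F3 R := Transport.jj R (Fin 3)

theorem jj_dv (v : Fin 3 → F3 ℤ) (f : F3 ℤ) : j3 R (dv v f) = dv (fun i => j3 R (v i)) (j3 R f) := by
  induction f using FreeAlgebra.induction with
  | grade0 c =>
    have e1 : algebraMap ℤ (F3 ℤ) c = ((c : ℤ) : F3 ℤ) := by rw [eq_intCast]
    have e2 : j3 R (algebraMap ℤ (F3 ℤ) c) = algebraMap R (F3 R) ((c : ℤ) : R) := by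
      rw [e1, map_intCast, map_intCast]
    rw [dv_alg, map_zero, e2, dv_alg]
  | grade1 i => rw [dv_ι, Transport.jj_ι, dv_ι]
  | mul a b ha hb => rw [dv_mul, map_add, map_mul, map_mul, map_mul, dv_mul, ha, hb]
  | add a b ha hb => rw [map_add, map_add, map_add, map_add, ha, hb]

theorem jj_Op (i : Fin 5) (f : F3 ℤ) : j3 R (Op ℤ i f) = Op R i (j3 R f) := by
  have jp : j3 R (fp ℤ) = fp R := Transport.jj_ι R 0
  have jg : j3 R (fg ℤ) = fg R := Transport.jj_ι R 1
  have js : j3 R (fs ℤ) = fs R := Transport.jj_ι R 2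
  have h1 : (fun i => j3 R (v1 ℤ i)) = v1 R := by
    funext i
    fin_cases i
    · show j3 R ⁅fg ℤ, fp ℤ⁆ = ⁅fg R, fp R⁆
      rw [Ring.lie_def, Ring.lie_def, map_sub, map_mul, map_mul, jp, jg]
    · exact map_zero _
    · exact map_zero _
  have h2 : (fun i => j3 R (v2 ℤ i)) = v2 R := by
    funext i
    fin_cases i
    · exact map_zero _
    · show j3 R (⁅fp ℤ + fs ℤ, fg ℤ⁆ - ⁅fp ℤ, fs ℤ⁆) = ⁅fp R + fs R, fg R⁆ - ⁅fp R, fs R⁆
      simp only [Ring.lie_def, map_sub, map_mul, map_add, jp, jg, js]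
    · exact map_zero _
  have e1 : ∀ f, j3 R (dv (v1 ℤ) f) = dv (v1 R) (j3 R f) := fun f => by rw [jj_dv, h1]
  have e2 : ∀ f, j3 R (dv (v2 ℤ) f) = dv (v2 R) (j3 R f) := fun f => by rw [jj_dv, h2]
  fin_cases i
  · exact e1 f
  · exact e2 f
  · show j3 R (dv (v1 ℤ) f - fg ℤ * f) = dv (v1 R) (j3 R f) - fg R * j3 R f
    rw [map_sub, map_mul, e1, jg]
  · show j3 R (fs ℤ * f) = fs R * j3 R f
    rw [map_mul, js]
  · show j3 R (fp ℤ * f) = fp R * j3 R f
    rw [map_mul, jp]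

theorem EF_jF (w : JJ) (χ : FA ℤ) : EF R w (jF R χ) = ((EF ℤ w χ : ℤ) : R) := by
  have jx : jF R (fx ℤ) = fx R := Transport.jj_ι R 0
  have jy : jF R (fy ℤ) = fy R := Transport.jj_ι R 1
  rcases w with (w | w) | (w | w)
  · show cm R w (dl R (jF R χ)) = ((cm ℤ w (dl ℤ χ) : ℤ) : R)
    rw [← cm_jT, dl_apply, dl_apply, map_sub (jT R), map_add (jT R), ev_jF (R := R) (jT R),
      ev_jF (R := R) (jT R), ev_jF (R := R) (jT R), map_add (jT R), map_add (jT R), jT_ta, jT_ta,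
      jT_tb, jT_tb]
  · show cf R w (anL R (jF R χ)) = ((cf ℤ w (anL ℤ χ) : ℤ) : R)
    rw [← cf_jj]
    show cf R w (ev (fx R) (fy R) (jF R χ) + ev (fy R) (fx R) (jF R χ)) =
      cf R w (jF R (ev (fx ℤ) (fy ℤ) χ + ev (fy ℤ) (fx ℤ) χ))
    rw [map_add (jF R), ev_jF (R := R) (jF R), ev_jF (R := R) (jF R), jx, jy]
  · show cf R w (heL R (jF R χ)) = ((cf ℤ w (heL ℤ χ) : ℤ) : R)
    rw [← cf_jj]
    show cf R w (ev (fx R) (fy R) (jF R χ) + ev (fy R) (-fx R - fy R) (jF R χ) +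
        ev (-fx R - fy R) (fx R) (jF R χ)) =
      cf R w (jF R (ev (fx ℤ) (fy ℤ) χ + ev (fy ℤ) (-fx ℤ - fy ℤ) χ
        + ev (-fx ℤ - fy ℤ) (fx ℤ) χ))
    rw [map_add (jF R), map_add (jF R), ev_jF (R := R) (jF R), ev_jF (R := R) (jF R), ev_jF (R := R) (jF R), map_sub (jF R),
      map_neg (jF R), jx, jy]
  · show cf R w (peL R (jF R χ)) = ((cf ℤ w (peL ℤ χ) : ℤ) : R)
    rw [← cf_jj, peL_apply, peL_apply, LinearMap.sum_apply, LinearMap.sum_apply,
      map_sum (j3 R)]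
    congr 1
    refine Finset.sum_congr rfl fun i _ => ?_
    have h := ev_op (R := R) (j3 R : F3 ℤ →+ F3 R) (Op ℤ i) (Op ℤ (i + 1)) (Op R i) (Op R (i + 1))
      (jj_Op i) (jj_Op (i + 1)) χ 1
    have h1 : (j3 R : F3 ℤ →+ F3 R) 1 = 1 := map_one (j3 R)
    rw [h1] at h
    exact h.symm

end

end Vale.Agent.P029.Odd
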