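import Vale.Agent.P029.H819.Step

/-!
# P029, odd characteristic: commutative rings with torsion
-/

noncomputable section

attribute [local instance 100] LieRing.ofAssociativeRing
attribute [-instance] LieRing.instLieAlgebra

namespace Vale.Agent.P029.Odd

open Vale.Agent.P029 Low Low.Z819 Low.SolLin IsoInd

section
variable {R : Type} [CommRing R] {X : Type} {k : ℕ}

/-- The Lie element with given coordinates. -/
def lw (R : Type) [CommRing R] {X : Type} {k : ℕ} (t : Fin k → Tr X) :
    (Fin k → R) →ₗ[R] FreeLieAlgebra R X :=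
  Fintype.linearCombination R (fun i => (t i).eval (FreeLieAlgebra.of R))

theorem lw_apply (t : Fin k → Tr X) (c : Fin k → R) :
    lw R t c = ∑ i, c i • (t i).eval (FreeLieAlgebra.of R) :=
  Fintype.linearCombination_apply _ _ _

theorem lw_inj {t : Fin k → Tr X}
    (h2 : LinearIndependent R (fun i => (t i).eval (FreeAlgebra.ι R))) :
    Function.Injective (lw R t) := by
  rw [injective_iff_map_eq_zero]
  intro c hc
  rw [lw_apply] at hc
  funext i
  exact Fintype.linearIndependent_iff.1 (lie_basis_indep h2) c hc i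

theorem range_lw {w : X → ℕ} {n : ℕ} {t : Fin k → Tr X} (ht : ∀ i, (t i).wt w = n)
    (h1 : ∀ u : Tr X, u.wt w = n → u.eval (FreeLieAlgebra.of R) ∈
      Submodule.span R (Set.range fun i => (t i).eval (FreeLieAlgebra.of R))) :
    LinearMap.range (lw R t) = wtPart R w n := by
  rw [lw, Fintype.range_linearCombination]
  exact lie_basis_span ht h1

theorem jj_eval (u : Tr X) :
    Transport.jj R X (u.eval (FreeAlgebra.ι ℤ)) = u.eval (FreeAlgebra.ι R) := by
  induction u with
  | leaf x => exact Transport.jj_ι R x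
  | node u v hu hv =>
    rw [Tr.eval_node, Tr.eval_node, Ring.lie_def, Ring.lie_def, map_sub, map_mul, map_mul, hu, hv]

end

section
variable {k : ℕ} (t : Fin k → Tr (Fin 2))

/-- The matrix of the equations in Lie coordinates. -/
def BL (w : JJ) (i : Fin k) : ℤ := EF ℤ w ((t i).eval (FreeAlgebra.ι ℤ))

variable {R : Type} [CommRing R]

theorem EF_lw (w : JJ) (c : Fin k → R) :
    EF R w (toFree R (Fin 2) (lw R t c)) = ∑ i, (BL t w i : R) * c i := by
  rw [lw_apply, map_sum, map_sum]
  refine Finset.sum_congr rfl fun i _ => ?_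
  rw [map_smul, map_smul, toFree_eval, ← jj_eval, EF_jF, smul_eq_mul, mul_comm]
  rfl

variable {t}

theorem mem_krB (c : Fin k → R) :
    c ∈ H140.kr R (BL t) ↔ ∀ w, EF R w (toFree R (Fin 2) (lw R t c)) = 0 := by
  rw [H140.mem_kr]
  exact forall_congr' fun w => by rw [EF_lw]

/-- The solutions of the equations, in a Lie algebra over any commutative ring. -/
theorem isWn_of_EF' {n : ℕ} (hn : 2 ≤ n) {ψ : LK R} (hψ : ψ ∈ wt2 R n)
    (h : ∀ w, EF R w (toFree R (Fin 2) ψ) = 0) : H819.IsWn R n ψ := by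
  obtain ⟨-, h2, h3, h4⟩ := (EF_iff _).1 h
  rw [anL_toFree] at h2
  rw [heL_toFree] at h3
  rw [peL_toFree] at h4
  have h2' := toFree_inj2 h2
  have h3' := toFree_inj2 h3
  have h4' : (five R ψ).left = 0 := toFree_inj_fin h4
  have hA : H819.Anti R ψ := (anti_iff ψ).2 h2'
  have h5 : five R ψ = 0 := by
    have h6 := five_right hn hψ
    rw [h2'] at h6
    generalize five R ψ = u at h4' h6
    cases u
    simp only at h4' h6
    subst h4' h6
    rfl
  refine ⟨⟨hA, (hexa_iff ψ).2 h3', penta_of_five hn hψ hA h5⟩, ?_⟩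
  rw [wtPart_eq]
  exact hψ

variable {n : ℕ} (hn : 2 ≤ n) (ht : ∀ i, (t i).wt (fun _ => 1) = n)
  (h1 : ∀ u : Tr (Fin 2), u.wt (fun _ => 1) = n → u.eval (FreeLieAlgebra.of R) ∈
    Submodule.span R (Set.range fun i => (t i).eval (FreeLieAlgebra.of R)))
include hn ht h1

/-- `W_n(R)` in Lie coordinates. -/
theorem isWn_lw (c : Fin k → R) : H819.IsWn R n (lw R t c) ↔ c ∈ H140.kr R (BL t) := by
  rw [mem_krB]
  constructor
  · exact EF_of_isWn hn
  · refine isWn_of_EF' hn ?_
    have : lw R t c ∈ LinearMap.range (lw R t) := ⟨c, rfl⟩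
    rwa [range_lw ht h1] at this

omit hn in
theorem exists_lw {ψ : LK R} (h : H819.IsWn R n ψ) : ∃ c, lw R t c = ψ := by
  have hw := h.2
  rw [wtPart_eq] at hw
  have e := range_lw ht h1
  have : ψ ∈ LinearMap.range (lw R t) := by rw [e]; exact hw
  exact this

theorem map_krB : (H140.kr R (BL t)).map (lw R t) = Submodule.span R {ψ | H819.IsWn R n ψ} := by
  apply le_antisymm
  · rintro _ ⟨c, hc, rfl⟩
    exact Submodule.subset_span ((isWn_lw hn ht h1 c).2 hc)
  · rw [Submodule.span_le]
    intro ψ hψ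
    obtain ⟨c, rfl⟩ := exists_lw ht h1 hψ
    exact ⟨c, (isWn_lw hn ht h1 c).1 hψ, rfl⟩

theorem finrank_krB (h2 : LinearIndependent R (fun i => (t i).eval (FreeAlgebra.ι R))) :
    Module.finrank R (H140.kr R (BL t)) =
      Module.finrank R (Submodule.span R {ψ | H819.IsWn R n ψ}) := by
  rw [← map_krB hn ht h1,
    (Submodule.equivMapOfInjective (lw R t) (lw_inj h2) (H140.kr R (BL t))).finrank_eq]

/-- An isomorphism gives generators of the solution module. -/
theorem gen_of_iso (h2 : LinearIndependent R (fun i => (t i).eval (FreeAlgebra.ι R)))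
    {f : H819.F R → H819.L R} (hf : H819.IsIso R f) {d : ℕ} {s : Fin d → Tr ℕ}
    (hs : ∀ i, (s i).wt w3 = n)
    (h3 : ∀ u : Tr ℕ, u.wt w3 = n → u.eval (FreeLieAlgebra.of R) ∈
      Submodule.span R (Set.range fun i => (s i).eval (FreeLieAlgebra.of R))) :
    ∃ g : (Fin d → R) →ₗ[R] (Fin k → R), LinearMap.range g = H140.kr R (BL t) := by
  obtain ⟨hadd, hsm, hlie, hinj, -, hW⟩ := hf
  let F : H819.F R →ₗ[R] H819.L R := { toFun := f, map_add' := hadd, map_smul' := hsm }
  have e3 := range_lw hs h3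
  have hF : ∀ u : Fin d → R, H819.IsWn R n (F (lw R s u)) := by
    intro u
    refine (hW n _).2 ⟨lw R s u, ?_, rfl⟩
    rw [H819.Fpart, wtPart_eq]
    have : lw R s u ∈ LinearMap.range (lw R s) := ⟨u, rfl⟩
    rwa [e3] at this
  have hc : ∀ j : Fin d, ∃ c, lw R t c = F (lw R s (Pi.single j 1)) := fun j =>
    exists_lw ht h1 (hF _)
  choose c hc using hc
  let g : (Fin d → R) →ₗ[R] (Fin k → R) := Fintype.linearCombination R c
  have hg : ∀ u, lw R t (g u) = F (lw R s u) := by
    have : (lw R t).comp g = F.comp (lw R s) := by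
      apply LinearMap.pi_ext'
      intro j
      apply LinearMap.ext_ring
      show lw R t (g (Pi.single j 1)) = F (lw R s (Pi.single j 1))
      rw [← hc j]
      congr 1
      show Fintype.linearCombination R c (Pi.single j 1) = c j
      rw [Fintype.linearCombination_apply_single, one_smul]
    intro u
    exact congrArg (fun G : (Fin d → R) →ₗ[R] LK R => G u) this
  refine ⟨g, le_antisymm ?_ ?_⟩
  · rintro _ ⟨u, rfl⟩
    rw [← isWn_lw hn ht h1, hg]
    exact hF u
  · intro v hv
    rw [← isWn_lw hn ht h1] at hv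
    obtain ⟨a, ha, e⟩ := (hW n _).1 hv
    rw [H819.Fpart, wtPart_eq] at ha
    have : a ∈ LinearMap.range (lw R s) := by rw [e3]; exact ha
    obtain ⟨u, rfl⟩ := this
    refine ⟨u, lw_inj h2 ?_⟩
    rw [hg]
    exact e

end

end Vale.Agent.P029.Odd
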