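import Vale.Agent.P029.Bdl.B1

/-!
# P029: the grading of the free Lie algebra over a commutative ring
-/

noncomputable section

attribute [local instance 100] LieRing.ofAssociativeRing

namespace Vale.Agent.P029.Low.Z819

open Vale.Agent.P029

section
variable {R : Type} [CommRing R] {X : Type}

theorem mem_all (w : X → ℕ) (a : FreeLieAlgebra R X) :
    a ∈ (⨆ n, wtPart R w n : Submodule R (FreeLieAlgebra R X)) := by
  induction a using Low.free_induction with
  | hof x =>
    exact Submodule.mem_iSup_of_mem (w x) (Submodule.subset_span ⟨Tr.leaf x, rfl, rfl⟩)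
  | h0 => exact zero_mem _
  | hadd a b ha hb => exact add_mem ha hb
  | hsmul c a ha => exact Submodule.smul_mem _ _ ha
  | hlie a b ha hb =>
    induction ha using Submodule.iSup_induction' with
    | mem m x hx =>
      induction hb using Submodule.iSup_induction' with
      | mem n y hy => exact Submodule.mem_iSup_of_mem (m + n) (Low.wt_lie hx hy)
      | zero => rw [lie_zero]; exact zero_mem _
      | add y z _ _ hy hz => rw [lie_add]; exact add_mem hy hz
    | zero => rw [zero_lie]; exact zero_mem _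
    | add x z _ _ hx hz => rw [add_lie]; exact add_mem hx hz

/-- Every element is a finite sum of homogeneous elements. -/
theorem exists_sum (w : X → ℕ) (a : FreeLieAlgebra R X) :
    ∃ s : ℕ →₀ FreeLieAlgebra R X, (∀ n, s n ∈ wtPart R w n) ∧ (s.sum fun _ x => x) = a := by
  obtain ⟨s, hs, h⟩ := (Submodule.mem_iSup_iff_exists_finsupp ..).mp (mem_all w a)
  exact ⟨s, hs, h⟩

/-- `x ↦ x T ^ (w x)`. -/
def gp (R : Type) [CommRing R] {X : Type} (w : X → ℕ) :
    FreeAlgebra R X →ₐ[R] Polynomial (FreeAlgebra R X) :=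
  FreeAlgebra.lift R (fun x => Polynomial.C (FreeAlgebra.ι R x) * Polynomial.X ^ (w x))

theorem C_lie {A : Type} [Ring A] (a b : A) (m n : ℕ) :
    (⁅Polynomial.C a * Polynomial.X ^ m, Polynomial.C b * Polynomial.X ^ n⁆ : Polynomial A) =
      Polynomial.C ⁅a, b⁆ * Polynomial.X ^ (m + n) := by
  rw [Ring.lie_def, Ring.lie_def]
  have h : ∀ (a b : A) (m n : ℕ), (Polynomial.C a * Polynomial.X ^ m) *
      (Polynomial.C b * Polynomial.X ^ n) = Polynomial.C (a * b) * Polynomial.X ^ (m + n) := by
    intro a b m n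
    rw [Polynomial.C_mul, pow_add, mul_assoc, mul_assoc, ← mul_assoc (Polynomial.X ^ m),
      (Polynomial.commute_X_pow (Polynomial.C b) m).eq, mul_assoc]
  rw [h, h, add_comm n m, ← sub_mul, ← Polynomial.C_sub]

theorem gp_eval (w : X → ℕ) (t : Tr X) :
    gp R w (t.eval (FreeAlgebra.ι R)) =
      Polynomial.C (t.eval (FreeAlgebra.ι R)) * Polynomial.X ^ (t.wt w) := by
  induction t with
  | leaf x =>
    show gp R w (FreeAlgebra.ι R x) = _
    rw [gp, FreeAlgebra.lift_ι_apply]
    rfl
  | node a b iha ihb =>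
    show gp R w ⁅a.eval _, b.eval _⁆ = Polynomial.C ⁅a.eval _, b.eval _⁆ * _
    rw [Tr.wt_node, ← C_lie, ← iha, ← ihb, Ring.lie_def, Ring.lie_def, map_sub, map_mul, map_mul]

theorem gp_toFree {w : X → ℕ} {n : ℕ} {a : FreeLieAlgebra R X} (ha : a ∈ wtPart R w n) :
    gp R w (toFree R X a) = Polynomial.C (toFree R X a) * Polynomial.X ^ n := by
  refine Low.wt_induction (P := fun a => gp R w (toFree R X a) =
    Polynomial.C (toFree R X a) * Polynomial.X ^ n) ?_ ?_ ?_ ?_ ha
  · rintro t rfl
    rw [toFree_eval]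
    exact gp_eval w t
  · simp
  · intro a b ha hb
    rw [map_add, map_add, map_add, ha, hb, add_mul]
  · intro c a ha
    rw [map_smul, map_smul, ha, ← smul_mul_assoc]
    congr 1
    ext k
    rw [Polynomial.coeff_smul, Polynomial.coeff_C, Polynomial.coeff_C]
    split_ifs
    · rfl
    · rw [smul_zero]

/-- The homogeneous components of an element which vanishes in the free algebra vanish. -/
theorem comp_eq_zero {w : X → ℕ} (hpos : ∀ x, 0 < w x) (hfin : ∀ n, {x | w x = n}.Finite)
    (s : Finset ℕ) (a : ℕ → FreeLieAlgebra R X) (ha : ∀ n ∈ s, a n ∈ wtPart R w n)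
    (h : toFree R X (∑ n ∈ s, a n) = 0) : ∀ n ∈ s, a n = 0 := by
  intro m hm
  apply toFree_injOn w hpos hfin (ha m hm)
  have h1 := congrArg (gp R w) h
  rw [map_sum, map_sum, map_zero] at h1
  have h2 := congrArg (fun p : Polynomial (FreeAlgebra R X) => p.coeff m) h1
  simp only [Polynomial.finsetSum_coeff, Polynomial.coeff_zero] at h2
  rw [← h2]
  symm
  rw [Finset.sum_eq_single_of_mem m hm]
  · rw [gp_toFree (ha m hm), Polynomial.coeff_C_mul, Polynomial.coeff_X_pow, if_pos rfl, mul_one]
  · intro n hn hnm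
    rw [gp_toFree (ha n hn), Polynomial.coeff_C_mul, Polynomial.coeff_X_pow, if_neg hnm.symm,
      mul_zero]

theorem toFree_inj {w : X → ℕ} (hpos : ∀ x, 0 < w x) (hfin : ∀ n, {x | w x = n}.Finite)
    {a : FreeLieAlgebra R X} (h : toFree R X a = 0) : a = 0 := by
  obtain ⟨s, hs, rfl⟩ := exists_sum w a
  rw [Finsupp.sum] at h ⊢
  exact Finset.sum_eq_zero fun n hn => comp_eq_zero hpos hfin _ _ (fun n _ => hs n) h n hn

theorem toFree_inj_fin {k : ℕ} {a : FreeLieAlgebra R (Fin k)} (h : toFree R (Fin k) a = 0) :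
    a = 0 :=
  toFree_inj (w := fun _ => 1) (fun _ => one_pos) (fun _ => Set.toFinite _) h

/-- Independence of the weight parts. -/
theorem sum_eq_zero {w : X → ℕ} (hpos : ∀ x, 0 < w x) (hfin : ∀ n, {x | w x = n}.Finite)
    (s : Finset ℕ) (a : ℕ → FreeLieAlgebra R X) (ha : ∀ n ∈ s, a n ∈ wtPart R w n)
    (h : ∑ n ∈ s, a n = 0) : ∀ n ∈ s, a n = 0 :=
  comp_eq_zero hpos hfin s a ha (by rw [h, map_zero])

end

/-! ### base change -/

section
variable {R : Type} [CommRing R] {X : Type}

theorem base_of (x : X) : base R X (FreeLieAlgebra.of ℤ x) = FreeLieAlgebra.of R x :=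
  FreeLieAlgebra.lift_of_apply (R := ℤ) (FreeLieAlgebra.of R) x

theorem base_lie (a b : FreeLieAlgebra ℤ X) : base R X ⁅a, b⁆ = ⁅base R X a, base R X b⁆ :=
  LieHom.map_lie _ _ _

theorem base_smul (c : ℤ) (a : FreeLieAlgebra ℤ X) :
    base R X (c • a) = (c : R) • base R X a := by
  rw [map_smul, Int.cast_smul_eq_zsmul]

theorem int_induction' {K : Type} [CommRing K] (hK : ∀ c : K, ∃ n : ℤ, (n : K) = c)
    {P : FreeLieAlgebra K X → Prop} (hof : ∀ x, P (FreeLieAlgebra.of K x))
    (h0 : P 0) (hadd : ∀ a b, P a → P b → P (a + b)) (hneg : ∀ a, P a → P (-a))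
    (hlie : ∀ a b, P a → P b → P ⁅a, b⁆) (a : FreeLieAlgebra K X) : P a := by
  refine Low.free_induction hof h0 hadd ?_ hlie a
  intro c a ha
  obtain ⟨n, rfl⟩ := hK c
  rw [Int.cast_smul_eq_zsmul]
  induction n using Int.induction_on with
  | zero => rw [zero_smul]; exact h0
  | succ n ih =>
    rw [add_smul, one_smul]
    exact hadd _ _ ih ha
  | pred n ih =>
    rw [sub_smul, one_smul, sub_eq_add_neg]
    exact hadd _ _ ih (hneg _ ha)

/-- Induction for the free Lie ring. -/
theorem int_induction {P : FreeLieAlgebra ℤ X → Prop} (hof : ∀ x, P (FreeLieAlgebra.of ℤ x))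
    (h0 : P 0) (hadd : ∀ a b, P a → P b → P (a + b)) (hneg : ∀ a, P a → P (-a))
    (hlie : ∀ a b, P a → P b → P ⁅a, b⁆) (a : FreeLieAlgebra ℤ X) : P a :=
  int_induction' (fun c => ⟨c, Int.cast_id⟩) hof h0 hadd hneg hlie a

/-- `toFree` commutes with base change. -/
theorem jj_toFree (a : FreeLieAlgebra ℤ X) :
    Transport.jj R X (toFree ℤ X a) = toFree R X (base R X a) := by
  induction a using int_induction with
  | hof x => rw [toFree_of, base_of, toFree_of, Transport.jj_ι]
  | h0 => simp only [map_zero]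
  | hadd a b ha hb => simp only [map_add, ha, hb]
  | hneg a ha => simp only [map_neg, ha]
  | hlie a b ha hb =>
    rw [base_lie, LieHom.map_lie, LieHom.map_lie, Ring.lie_def, Ring.lie_def, map_sub, map_mul,
      map_mul, ha, hb]

/-- Base change to `ℚ` is injective. -/
theorem base_inj {w : X → ℕ} (hpos : ∀ x, 0 < w x) (hfin : ∀ n, {x | w x = n}.Finite)
    {a : FreeLieAlgebra ℤ X} (h : base ℚ X a = 0) : a = 0 := by
  apply toFree_inj hpos hfin
  apply Transport.jj_inj
  rw [jj_toFree, h, map_zero, map_zero]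

theorem base_inj_fin {k : ℕ} {a : FreeLieAlgebra ℤ (Fin k)} (h : base ℚ (Fin k) a = 0) : a = 0 :=
  base_inj (w := fun _ => 1) (fun _ => one_pos) (fun _ => Set.toFinite _) h

/-- The coefficient of a word. -/
def cw (R : Type) [CommRing R] {X : Type} (w : FreeMonoid X) : FreeLieAlgebra R X →ₗ[R] R :=
  ((FreeAlgebra.basisFreeMonoid R X).coord w).comp
    (toFree R X : FreeLieAlgebra R X →ₗ[R] FreeAlgebra R X)

open Classical in
theorem cw_base (w : FreeMonoid X) (a : FreeLieAlgebra ℤ X) :
    cw R w (base R X a) = ((cw ℤ w a : ℤ) : R) := by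
  show (FreeAlgebra.basisFreeMonoid R X).coord w (toFree R X (base R X a)) =
    (((FreeAlgebra.basisFreeMonoid ℤ X).coord w (toFree ℤ X a) : ℤ) : R)
  rw [← jj_toFree]
  generalize toFree ℤ X a = f
  have h1 : f = ∑ v ∈ ((FreeAlgebra.basisFreeMonoid ℤ X).repr f).support,
      ((FreeAlgebra.basisFreeMonoid ℤ X).repr f v) • FreeAlgebra.basisFreeMonoid ℤ X v :=
    ((FreeAlgebra.basisFreeMonoid ℤ X).linearCombination_repr f).symm
  conv_lhs => rw [h1]
  rw [map_sum, map_sum]
  simp only [map_zsmul, Transport.jj_basis]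
  rw [Module.Basis.coord_apply]
  have e : ∀ v, (FreeAlgebra.basisFreeMonoid R X).coord w (FreeAlgebra.basisFreeMonoid R X v) =
      if v = w then 1 else 0 := by
    intro v
    rw [Module.Basis.coord_apply, Module.Basis.repr_self, Finsupp.single_apply]
  simp only [e]
  simp only [smul_ite, smul_zero, Finset.sum_ite_eq']
  split_ifs with h
  · rw [zsmul_eq_mul, mul_one]
  · rw [Finsupp.notMem_support_iff.1 h, Int.cast_zero]

/-- An element all of whose coefficients vanish is zero. -/
theorem eq_zero_of_cw {k : ℕ} {a : FreeLieAlgebra R (Fin k)} (h : ∀ w, cw R w a = 0) : a = 0 := by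
  apply toFree_inj_fin
  apply (FreeAlgebra.basisFreeMonoid R (Fin k)).ext_elem
  intro w
  rw [map_zero, Finsupp.zero_apply]
  exact h w

end

end Vale.Agent.P029.Low.Z819
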