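import Vale.Agent.P029.H819.Ker

/-!
# P029, odd characteristic: the functionals of an associator are integral
-/

noncomputable section

attribute [local instance 100] LieRing.ofAssociativeRing
attribute [-instance] LieRing.instLieAlgebra

namespace Vale.Agent.P029.Odd

open Vale.Agent.P029 Low Low.Z819 Low.SolLin

/-- `p`-integral polynomials. -/
def SX (p : ℕ) [Fact p.Prime] (X : Type) : Subring (FreeAlgebra ℂ X) :=
  Subring.closure (Set.range (FreeAlgebra.ι ℂ) ∪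
    (algebraMap ℂ (FreeAlgebra ℂ X)) '' (ZP p : Set ℂ))

section
variable {p : ℕ} [Fact p.Prime]

theorem FZ_eq : FZ p = SX p (Fin 2) := rfl

theorem SX_ι {X : Type} (i : X) : FreeAlgebra.ι ℂ i ∈ SX p X :=
  Subring.subset_closure (Or.inl ⟨i, rfl⟩)

theorem SX_alg {X : Type} {c : ℂ} (hc : c ∈ ZP p) : algebraMap ℂ (FreeAlgebra ℂ X) c ∈ SX p X :=
  Subring.subset_closure (Or.inr ⟨c, hc, rfl⟩)

theorem SX_stb (X : Type) : Stb p (SX p X) := by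
  intro c hc s hs
  rw [Algebra.smul_def]
  exact mul_mem (SX_alg hc) hs

theorem cf_mem {X : Type} {f : FreeAlgebra ℂ X} (hf : f ∈ SX p X) (w : FreeMonoid X) :
    cf ℂ w f ∈ ZP p := by
  let E : FreeAlgebra ℂ X ≃ₐ[ℂ] MonoidAlgebra ℂ (FreeMonoid X) :=
    FreeAlgebra.equivMonoidAlgebraFreeMonoid
  have h : SX p X ≤ (MonoidAlgebra.mapRingHom (FreeMonoid X) (ZP p).subtype).range.comap
      (E : FreeAlgebra ℂ X →+* MonoidAlgebra ℂ (FreeMonoid X)) := by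
    unfold SX
    rw [Subring.closure_le]
    rintro _ (⟨i, rfl⟩ | ⟨c, hc, rfl⟩)
    · refine ⟨MonoidAlgebra.single (FreeMonoid.of i) 1, ?_⟩
      rw [MonoidAlgebra.mapRingHom_single, map_one]
      show _ = FreeAlgebra.lift ℂ (fun x => MonoidAlgebra.of ℂ (FreeMonoid X) (FreeMonoid.of x))
        (FreeAlgebra.ι ℂ i)
      rw [FreeAlgebra.lift_ι_apply]
      rfl
    · refine ⟨MonoidAlgebra.single 1 ⟨c, hc⟩, ?_⟩
      rw [MonoidAlgebra.mapRingHom_single]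
      show _ = E (algebraMap ℂ _ c)
      rw [AlgEquiv.commutes]
      rfl
  obtain ⟨g, hg⟩ := h hf
  have e : cf ℂ w f = (E f).coeff w := rfl
  have hg' : MonoidAlgebra.mapRingHom (FreeMonoid X) (ZP p).subtype g = E f := hg
  rw [e, ← hg', MonoidAlgebra.coeff_mapRingHom]
  exact (g.coeff w).2

variable (p) in
/-- integral pairs -/
def ST : Subring (TT ℂ) := (MonoidAlgebra.mapRingHom MM (ZP p).subtype).range

theorem ST_stb : Stb p (ST p) := by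
  rintro c hc _ ⟨g, rfl⟩
  refine ⟨(⟨c, hc⟩ : ZP p) • g, ?_⟩
  apply MonoidAlgebra.ext
  refine Finsupp.ext fun w => ?_
  rw [MonoidAlgebra.coeff_mapRingHom]
  show ((c : ℂ) * ((g.coeff w : ZP p) : ℂ)) = c • ((MonoidAlgebra.mapRingHom MM (ZP p).subtype g).coeff w)
  rw [MonoidAlgebra.coeff_mapRingHom]
  rfl

theorem ta_mem (i : Fin 2) : ta ℂ i ∈ ST p :=
  ⟨MonoidAlgebra.single (FreeMonoid.of i, 1) 1, by
    rw [MonoidAlgebra.mapRingHom_single, map_one]; rfl⟩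

theorem tb_mem (i : Fin 2) : tb ℂ i ∈ ST p :=
  ⟨MonoidAlgebra.single (1, FreeMonoid.of i) 1, by
    rw [MonoidAlgebra.mapRingHom_single, map_one]; rfl⟩

theorem cm_mem {f : TT ℂ} (hf : f ∈ ST p) (w : MM) : cm ℂ w f ∈ ZP p := by
  obtain ⟨g, rfl⟩ := hf
  show (MonoidAlgebra.mapRingHom MM (ZP p).subtype g).coeff w ∈ ZP p
  rw [MonoidAlgebra.coeff_mapRingHom]
  exact (g.coeff w).2

theorem dv_mem {v : Fin 3 → F3 ℂ} (hv : ∀ i, v i ∈ SX p (Fin 3)) {f : F3 ℂ}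
    (hf : f ∈ SX p (Fin 3)) : dv v f ∈ SX p (Fin 3) := by
  have key : f ∈ SX p (Fin 3) ∧ dv v f ∈ SX p (Fin 3) := by
    refine Subring.closure_induction (p := fun f _ => f ∈ SX p (Fin 3) ∧ dv v f ∈ SX p (Fin 3))
      ?_ ?_ ?_ ?_ ?_ ?_ hf
    · rintro _ (⟨i, rfl⟩ | ⟨c, hc, rfl⟩)
      · exact ⟨SX_ι i, by rw [dv_ι]; exact hv i⟩
      · exact ⟨SX_alg hc, by rw [dv_alg]; exact zero_mem _⟩
    · exact ⟨zero_mem _, by rw [map_zero]; exact zero_mem _⟩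
    · exact ⟨one_mem _, by rw [dv_one]; exact zero_mem _⟩
    · rintro a b - - ⟨h1, h2⟩ ⟨h3, h4⟩
      exact ⟨add_mem h1 h3, by rw [map_add]; exact add_mem h2 h4⟩
    · rintro a - ⟨h1, h2⟩
      exact ⟨neg_mem h1, by rw [map_neg]; exact neg_mem h2⟩
    · rintro a b - - ⟨h1, h2⟩ ⟨h3, h4⟩
      exact ⟨mul_mem h1 h3, by rw [dv_mul]; exact add_mem (mul_mem h2 h3) (mul_mem h1 h4)⟩
  exact key.2

variable (p) in
/-- integral operators -/
def SE : Subring (Module.End ℂ (F3 ℂ)) where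
  carrier := {T | ∀ f ∈ SX p (Fin 3), T f ∈ SX p (Fin 3)}
  mul_mem' := fun hA hB f hf => hA _ (hB f hf)
  one_mem' := fun _ hf => hf
  add_mem' := fun hA hB f hf => add_mem (hA f hf) (hB f hf)
  zero_mem' := fun _ _ => zero_mem _
  neg_mem' := fun hA f hf => neg_mem (hA f hf)

theorem SE_stb : Stb p (SE p) := by
  intro c hc s hs f hf
  exact SX_stb (Fin 3) c hc _ (hs f hf)

theorem Op_mem (i : Fin 5) : Op ℂ i ∈ SE p := by
  have hp : fp ℂ ∈ SX p (Fin 3) := SX_ι 0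
  have hg : fg ℂ ∈ SX p (Fin 3) := SX_ι 1
  have hs : fs ℂ ∈ SX p (Fin 3) := SX_ι 2
  have hl : ∀ {a b : F3 ℂ}, a ∈ SX p (Fin 3) → b ∈ SX p (Fin 3) → ⁅a, b⁆ ∈ SX p (Fin 3) :=
    fun ha hb => by
      rw [Ring.lie_def]
      exact sub_mem (mul_mem ha hb) (mul_mem hb ha)
  have h1 : ∀ i, v1 ℂ i ∈ SX p (Fin 3) := by
    intro i
    fin_cases i
    exacts [hl hg hp, zero_mem _, zero_mem _]
  have h2 : ∀ i, v2 ℂ i ∈ SX p (Fin 3) := by
    intro i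
    fin_cases i
    exacts [zero_mem _, sub_mem (hl (add_mem hp hs) hg) (hl hp hs), zero_mem _]
  have e1 : dv (v1 ℂ) ∈ SE p := fun f hf => dv_mem h1 hf
  have e2 : dv (v2 ℂ) ∈ SE p := fun f hf => dv_mem h2 hf
  have e3 : ∀ {a : F3 ℂ}, a ∈ SX p (Fin 3) → lm a ∈ SE p := fun ha f hf => mul_mem ha hf
  fin_cases i
  exacts [e1, e2, sub_mem e1 (e3 hg), e3 hs, e3 hp]

theorem ofP5_mem {B : Type} [Ring B] {S : Subring B} {x : Fin 5 → B} (hx : ∀ i, x i ∈ S)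
    (i j : Fin 5) : ofP5 x i j ∈ S := by
  have s : ∀ i j k, x i - x j - x k ∈ S := fun i j k => sub_mem (sub_mem (hx i) (hx j)) (hx k)
  fin_cases i <;> fin_cases j <;>
    first | exact zero_mem _ | exact hx _ | exact s _ _ _

/-- The functionals of an associator are integral. -/
theorem EF_int (hp2 : p ≠ 2) {n : ℕ} (hn : 1 ≤ n) (hnp : n < p) {P : FA ℂ} (hP : Assoc n P)
    (hlow : Odd.Low p n P) (w : JJ) : ∃ a ∈ ZP p, EF ℂ w (hp n P) = tau ^ n * a := by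
  have hx : fx ℂ ∈ SX p (Fin 2) := SX_ι 0
  have hy : fy ℂ ∈ SX p (Fin 2) := SX_ι 1
  rcases w with (w | w) | (w | w)
  · obtain ⟨s, hs, e⟩ := near_gl hn hP hlow ST_stb (ta_mem (p := p) 0) (ta_mem 1) (tb_mem 0)
      (tb_mem 1) (ta_tb ℂ 0 0) (ta_tb ℂ 0 1) (ta_tb ℂ 1 0) (ta_tb ℂ 1 1)
    refine ⟨cm ℂ w s, cm_mem hs w, ?_⟩
    show cm ℂ w (dl ℂ (hp n P)) = _
    rw [dl_apply, e, map_smul]
    rfl
  · obtain ⟨s, hs, e⟩ := near_inv hn hP hlow (SX_stb (Fin 2)) hx hy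
    refine ⟨cf ℂ w s, cf_mem hs w, ?_⟩
    show cf ℂ w (ev (fx ℂ) (fy ℂ) (hp n P) + ev (fy ℂ) (fx ℂ) (hp n P)) = _
    rw [e, map_smul]
    rfl
  · obtain ⟨s, hs, e⟩ := near_hex hp2 hn hnp hP hlow (SX_stb (Fin 2)) hx hy
      (c := -fx ℂ - fy ℂ) (sub_mem (neg_mem hx) hy) (by abel)
    refine ⟨cf ℂ w s, cf_mem hs w, ?_⟩
    show cf ℂ w (ev (fx ℂ) (fy ℂ) (hp n P) + ev (fy ℂ) (-fx ℂ - fy ℂ) (hp n P) +
      ev (-fx ℂ - fy ℂ) (fx ℂ) (hp n P)) = _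
    rw [e, map_smul]
    rfl
  · obtain ⟨s, hs, e⟩ := near_pent hn hP hlow SE_stb (PS_ofP5 (Op_P5 ℂ))
      (ofP5_mem (S := SE p) Op_mem)
    refine ⟨cf ℂ w (s 1), cf_mem (hs 1 (one_mem _)) w, ?_⟩
    show cf ℂ w (peL ℂ (hp n P)) = _
    rw [peL_apply, Fin.sum_univ_five]
    have e' : (ev (Op ℂ 0) (Op ℂ (0 + 1)) (hp n P) + ev (Op ℂ 1) (Op ℂ (1 + 1)) (hp n P) +
      ev (Op ℂ 2) (Op ℂ (2 + 1)) (hp n P) + ev (Op ℂ 3) (Op ℂ (3 + 1)) (hp n P) +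
      ev (Op ℂ 4) (Op ℂ (4 + 1)) (hp n P) : Module.End ℂ (F3 ℂ)) = tau ^ n • s := e
    rw [e', LinearMap.smul_apply, map_smul]
    rfl

end

end Vale.Agent.P029.Odd
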