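import Vale.Agent.P029.H819.Exact

/-!
# P029: the graded isomorphism over a ring in which the odd integers are invertible
-/

noncomputable section

attribute [local instance 100] LieRing.ofAssociativeRing
attribute [-instance] LieRing.instLieAlgebra

namespace Vale.Agent.P029.Low.Z819

open Vale.Agent.P029 Low LieAlgebra IsoInd BarFin

section
variable {R : Type} [CommRing R]

/-- The hexagon as a linear map. -/
def hexaL (R : Type) [CommRing R] : LK R →ₗ[R] LK R :=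
  LinearMap.id + (sb (K := R) (ky R) (-kx R - ky R) : LK R →ₗ[R] LK R)
    + (sb (K := R) (-kx R - ky R) (kx R) : LK R →ₗ[R] LK R)

/-- The pentagon as a linear map. -/
def pentaL (R : Type) [CommRing R] : LK R →ₗ[R] H819.T4 R :=
  (sb (K := R) (H819.t R 0 1) (H819.t R 1 2 + H819.t R 1 3) : LK R →ₗ[R] H819.T4 R)
    + (sb (K := R) (H819.t R 0 2 + H819.t R 1 2) (H819.t R 2 3) : LK R →ₗ[R] H819.T4 R)
    - ((sb (K := R) (H819.t R 1 2) (H819.t R 2 3) : LK R →ₗ[R] H819.T4 R)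
      + (sb (K := R) (H819.t R 0 1 + H819.t R 0 2) (H819.t R 1 3 + H819.t R 2 3) :
        LK R →ₗ[R] H819.T4 R)
      + (sb (K := R) (H819.t R 0 1) (H819.t R 1 2) : LK R →ₗ[R] H819.T4 R))

theorem penta_iff (ψ : LK R) : H819.Penta R ψ ↔ pentaL R ψ = 0 := by
  show H819.Penta R ψ ↔ (sb (K := R) (H819.t R 0 1) (H819.t R 1 2 + H819.t R 1 3) ψ
    + sb (K := R) (H819.t R 0 2 + H819.t R 1 2) (H819.t R 2 3) ψ)
    - (sb (K := R) (H819.t R 1 2) (H819.t R 2 3) ψ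
      + sb (K := R) (H819.t R 0 1 + H819.t R 0 2) (H819.t R 1 3 + H819.t R 2 3) ψ
      + sb (K := R) (H819.t R 0 1) (H819.t R 1 2) ψ) = 0
  rw [sub_eq_zero]
  exact Iff.rfl

/-- The solutions form a submodule. -/
def WR (R : Type) [CommRing R] : Submodule R (LK R) :=
  LinearMap.ker (antiL R) ⊓ (LinearMap.ker (hexaL R) ⊓ LinearMap.ker (pentaL R))

theorem mem_WR (ψ : LK R) : ψ ∈ WR R ↔ H819.IsW R ψ := by
  show antiL R ψ = 0 ∧ hexaL R ψ = 0 ∧ pentaL R ψ = 0 ↔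
    H819.Anti R ψ ∧ H819.Hexa R ψ ∧ H819.Penta R ψ
  rw [anti_iff, hexa_iff, penta_iff]
  exact Iff.rfl

/-- The solutions of weight `n`. -/
theorem isWn_iff (n : ℕ) (ψ : LK R) : H819.IsWn R n ψ ↔ ψ ∈ WR R ⊓ wt2 R n := by
  rw [Submodule.mem_inf, mem_WR, H819.IsWn, wtPart_eq]

/-- The Ihara bracket. -/
theorem isD_Dp (ψ : LK R) : H819.IsD R ψ (Dp ψ) :=
  ⟨fun a b => map_add _ a b, fun c a => map_smul _ c a, fun a b => by rw [Dp_lie, add_comm],
    Dp_x ψ, Dp_y ψ⟩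

theorem isBr_ihara (ψ φ : LK R) : H819.IsBr R ψ φ (ihara ψ φ) :=
  ⟨Dp ψ, Dp φ, isD_Dp ψ, isD_Dp φ, rfl⟩

/-- a derivation is determined by its values on the letters -/
theorem isD_unique {ψ : LK R} {D : LK R → LK R} (h : H819.IsD R ψ D) (a : LK R) : D a = Dp ψ a := by
  obtain ⟨hadd, hsm, hlie, hx, hy⟩ := h
  have h0 : D 0 = 0 := by
    have := hsm 0 0
    rwa [zero_smul, zero_smul] at this
  induction a using Low.free_induction with
  | hof i =>
    fin_cases i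
    · exact hx.trans (Dp_x ψ).symm
    · exact hy.trans (Dp_y ψ).symm
  | h0 => rw [h0, map_zero]
  | hadd a b ha hb => rw [hadd, map_add, ha, hb]
  | hsmul c a ha => rw [hsm, map_smul, ha]
  | hlie a b ha hb => rw [hlie, Dp_lie, ha, hb, add_comm]

theorem isBr_iff (ψ φ χ : LK R) : H819.IsBr R ψ φ χ ↔ χ = ihara ψ φ := by
  constructor
  · rintro ⟨D, E, hD, hE, rfl⟩
    rw [isD_unique hD, isD_unique hE, ihara]
  · rintro rfl
    exact isBr_ihara ψ φ

theorem wtPart_small {n : ℕ} (hn : n ≤ 2) : wtPart R w3 n = ⊥ := by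
  unfold wtPart
  rw [Submodule.span_eq_bot]
  rintro _ ⟨t, ht, rfl⟩
  have := wt_ge t
  omega

section
variable {σ : ℕ → LK ℤ} (h1 : ∀ k, σ k ∈ wt2 ℤ (2 * k + 3))
    (h2 : ∀ k, bc ℚ (σ k) ∈ W (2 * k + 3))
include h1 h2

theorem fR_mem {n : ℕ} {a : FreeLieAlgebra R ℕ} (ha : a ∈ wtPart R w3 n) :
    fR R σ a ∈ WR R ⊓ wt2 R n := by
  have : wtPart R w3 n ≤ (WR R ⊓ wt2 R n).comap (fR R σ) := by
    unfold wtPart
    rw [Submodule.span_le]
    rintro _ ⟨t, rfl, rfl⟩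
    exact (isWn_iff _ _).1 (fR_tree_isWn h1 h2 t)
  exact this ha

theorem fR_mem_all (a : FreeLieAlgebra R ℕ) : fR R σ a ∈ WR R := by
  obtain ⟨s, hs, rfl⟩ := exists_sum w3 a
  rw [Finsupp.sum, map_sum]
  exact Submodule.sum_mem _ fun n _ => (fR_mem h1 h2 (hs n)).1

theorem fR_inj (hinj : ∀ n, 3 ≤ n → ∀ a ∈ wtPart R w3 n, fR R σ a = 0 → a = 0) :
    Function.Injective (fR R σ) := by
  rw [injective_iff_map_eq_zero]
  intro a ha
  obtain ⟨s, hs, rfl⟩ := exists_sum w3 a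
  rw [Finsupp.sum, map_sum] at ha
  have h0 := sum_eq_zero (w := fun _ : Fin 2 => 1) (fun _ => one_pos) (fun _ => Set.toFinite _)
    s.support (fun n => fR R σ (s n)) (fun n _ => (fR_mem h1 h2 (hs n)).2) ha
  rw [Finsupp.sum]
  refine Finset.sum_eq_zero fun n hn => ?_
  rcases Nat.lt_or_ge n 3 with h3 | h3
  · have := hs n
    rw [wtPart_small (by omega : n ≤ 2)] at this
    exact (Submodule.mem_bot R).1 this
  · exact hinj n h3 (s n) (hs n) (h0 n hn)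

end

/-- The main theorem. -/
theorem main {Y : Fin 5 → Module.End K2 KK} (hY : IsRep2 Y) {σ : ℕ → LK ℤ}
    (h1 : ∀ k, σ k ∈ wt2 ℤ (2 * k + 3)) (h2 : ∀ k, bc ℚ (σ k) ∈ W (2 * k + 3))
    (h3 : ∀ k, Rel Y (bc K2 (σ k)) (FreeLieAlgebra.of K2 k))
    (hR : ∀ m : ℤ, Odd m → IsUnit (m : R))
    (hlow : ∀ n ψ, n ≤ 2 → H819.IsWn R n ψ → ψ = 0)
    (hcomp : ∀ ψ, H819.IsW R ψ → ∃ (N : ℕ) (c : ℕ → H819.L R), (∀ n, H819.IsWn R n (c n)) ∧
      ψ = ∑ n ∈ Finset.range N, c n) :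
    H819.IsIso R (fR R σ) := by
  have hsurj : ∀ n ψ, H819.IsWn R n ψ → ∃ a ∈ wtPart R w3 n, fR R σ a = ψ := by
    intro n ψ h
    rcases Nat.lt_or_ge n 3 with hn | hn
    · exact ⟨0, zero_mem _, by rw [map_zero, hlow n ψ (by omega) h]⟩
    · obtain ⟨⟨hA, -, hP⟩, hw⟩ := h
      rw [wtPart_eq] at hw
      exact (exact_R hY h1 h2 h3 hR hn).2 ψ hw hA hP
  refine ⟨fun a b => map_add _ a b, fun c a => map_smul _ c a, fun a b => ?_, ?_, fun ψ => ?_,
    fun n ψ => ?_⟩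
  · rw [fR_lie]
    exact isBr_ihara _ _
  · exact fR_inj h1 h2 fun n hn => (exact_R hY h1 h2 h3 hR hn).1
  · constructor
    · intro h
      obtain ⟨N, c, hc, rfl⟩ := hcomp ψ h
      choose a ha hac using fun n => hsurj n (c n) (hc n)
      refine ⟨∑ n ∈ Finset.range N, a n, ?_⟩
      rw [map_sum]
      exact Finset.sum_congr rfl fun n _ => hac n
    · rintro ⟨a, rfl⟩
      exact (mem_WR _).1 (fR_mem_all h1 h2 a)
  · rw [H819.Fpart, wtPart_eq]
    constructor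
    · exact hsurj n ψ
    · rintro ⟨a, ha, rfl⟩
      exact (isWn_iff _ _).2 (fR_mem h1 h2 ha)

end

end Vale.Agent.P029.Low.Z819
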