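import Vale.Agent.P029.H819.Func
import Vale.Agent.P029.H819.Main

/-!
# P029, odd characteristic: the kernel of the functionals
-/

noncomputable section

attribute [local instance 100] LieRing.ofAssociativeRing
attribute [-instance] LieRing.instLieAlgebra

namespace Vale.Agent.P029.Odd

open Vale.Agent.P029 Low Low.Z819 Low.SolLin

/-- Homogeneous primitive elements are Lie elements, if the weight is invertible. -/
theorem lie_of_add' {K : Type} [Field K] {n : ℕ} (hn : 1 ≤ n) (hnK : (n : K) ≠ 0) {χ : FA K}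
    (hχ : χ ∈ Friedrichs.Wd K n)
    (hadd : ∀ (B : Type) [Ring B] [Algebra K B] (a b a' b' : B),
      a * a' = a' * a → a * b' = b' * a → b * a' = a' * b → b * b' = b' * b →
      ev (a + a') (b + b') χ = ev a b χ + ev a' b' χ) :
    ∃ ψ ∈ wt2 K n, toFree K (Fin 2) ψ = χ := by
  open Friedrichs in
  have hc : ∀ i j : Fin 2, la K i * ra K j = ra K j * la K i := by
    intro i j
    refine LinearMap.ext fun Z => ?_
    rw [Module.End.mul_apply, Module.End.mul_apply, LinearMap.neg_apply, LinearMap.neg_apply,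
      LinearMap.mulLeft_apply, LinearMap.mulLeft_apply, LinearMap.mulRight_apply,
      LinearMap.mulRight_apply, mul_neg, mul_assoc]
  have h := hadd (Module.End K (Module.End K (FA K))) (la K 0) (la K 1) (ra K 0) (ra K 1)
    (hc 0 0) (hc 0 1) (hc 1 0) (hc 1 1)
  obtain ⟨S, hS⟩ := ev_ra χ
  rw [ev_la, hS] at h
  have hZ : ∀ Z, Ph K χ Z = lam K χ * Z + Z * S := fun Z => by
    change ev (la K 0 + ra K 0) (la K 1 + ra K 1) χ Z = _
    rw [h, LinearMap.add_apply, LinearMap.mulLeft_apply, LinearMap.mulRight_apply]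
  have hS' : S = -lam K χ := by
    have h1 := hZ 1
    rw [Ph_one' hn hχ, mul_one, one_mul] at h1
    exact eq_neg_of_add_eq_zero_right h1.symm
  obtain ⟨ψ, hψ, h2⟩ := Ph_Eu' hn hχ
  rw [hZ, hS'] at h2
  have h3 := congrArg (fun f : Module.End K (FA K) => f 1) h2
  have h4 : χ * Eu K 1 - Eu K (χ * 1) = -(toFree K (Fin 2) ψ * 1) := by
    rw [sub_eq_add_neg]
    have : (lam K χ * Eu K + Eu K * -lam K χ) 1 = χ * Eu K 1 + -Eu K (χ * 1) := by
      rw [LinearMap.add_apply, Module.End.mul_apply, Module.End.mul_apply, LinearMap.neg_apply,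
        map_neg, lam_mul, lam_mul]
    rw [← this]
    exact h3
  rw [Eu_one, mul_zero, mul_one, mul_one, zero_sub, neg_inj, Eu_Wd hχ] at h4
  refine ⟨(n : K)⁻¹ • ψ, Submodule.smul_mem _ _ hψ, ?_⟩
  rw [map_smul, ← h4, smul_smul, inv_mul_cancel₀ hnK, one_smul]

section
variable {R : Type} [CommRing R]

/-- the universal commuting pairs -/
theorem add_of_dl {χ : FA R} (h : dl R χ = 0) (B : Type) [Ring B] [Algebra R B] (a b a' b' : B)
    (h1 : a * a' = a' * a) (h2 : a * b' = b' * a) (h3 : b * a' = a' * b) (h4 : b * b' = b' * b) :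
    ev (a + a') (b + b') χ = ev a b χ + ev a' b' χ := by
  let f : FreeMonoid (Fin 2) →* B := FreeMonoid.lift ![a, b]
  let g : FreeMonoid (Fin 2) →* B := FreeMonoid.lift ![a', b']
  have hfg : ∀ m n, Commute (f m) (g n) := by
    have h0 : ∀ i j : Fin 2, Commute ((![a, b] : Fin 2 → B) i) ((![a', b'] : Fin 2 → B) j) := by
      intro i j
      fin_cases i <;> fin_cases j
      exacts [h1, h2, h3, h4]
    have h5 : ∀ (i : Fin 2) n, Commute ((![a, b] : Fin 2 → B) i) (g n) := by
      intro i n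
      induction n using FreeMonoid.inductionOn' with
      | one => rw [map_one]; exact Commute.one_right _
      | of_mul j n ih2 =>
        rw [map_mul, FreeMonoid.lift_eval_of]
        exact Commute.mul_right (h0 i j) ih2
    intro m n
    induction m using FreeMonoid.inductionOn' with
    | one => rw [map_one]; exact Commute.one_left _
    | of_mul i m ih =>
      rw [map_mul, FreeMonoid.lift_eval_of]
      exact Commute.mul_left (h5 i n) ih
  let F : TT R →ₐ[R] B := MonoidAlgebra.lift R B MM (MonoidHom.noncommCoprod f g hfg)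
  have Fa : ∀ i, F (ta R i) = (![a, b] : Fin 2 → B) i := by
    intro i
    simp [F, ta, f]
  have Fb : ∀ i, F (tb R i) = (![a', b'] : Fin 2 → B) i := by
    intro i
    simp [F, tb, g]
  have key : ∀ (u v : TT R), F (ev u v χ) = ev (F u) (F v) χ := by
    intro u v
    have : F.comp (ev u v) = ev (F u) (F v) := by
      apply FreeAlgebra.hom_ext
      funext i
      fin_cases i <;> simp [ev]
    exact congrArg (fun G : FA R →ₐ[R] B => G χ) this
  have h5 := congrArg F h
  rw [dl_apply, map_sub, map_add, map_zero, key, key, key, map_add, map_add, Fa, Fa, Fb, Fb,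
    sub_eq_zero] at h5
  exact h5

theorem toFree_inj2 {ψ : LK R} (h : toFree R (Fin 2) ψ = 0) : ψ = 0 := toFree_inj_fin h

theorem tx : toFree R (Fin 2) (Low.kx R) = fx R := toFree_of R 0
theorem ty : toFree R (Fin 2) (Low.ky R) = fy R := toFree_of R 1

theorem anL_toFree (ψ : LK R) :
    anL R (toFree R (Fin 2) ψ) = toFree R (Fin 2) (ψ + sb (Low.ky R) (Low.kx R) ψ) := by
  show ev (fx R) (fy R) (toFree R (Fin 2) ψ) + ev (fy R) (fx R) (toFree R (Fin 2) ψ) = _
  rw [map_add, ev_toFree, ev_toFree, map_sb, tx, ty]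
  congr 1
  rw [← tx, ← ty, ← map_sb, sb_id]

theorem heL_toFree (ψ : LK R) : heL R (toFree R (Fin 2) ψ) = toFree R (Fin 2)
    (ψ + sb (Low.ky R) (-Low.kx R - Low.ky R) ψ + sb (-Low.kx R - Low.ky R) (Low.kx R) ψ) := by
  show ev (fx R) (fy R) (toFree R (Fin 2) ψ) + ev (fy R) (-fx R - fy R) (toFree R (Fin 2) ψ)
    + ev (-fx R - fy R) (fx R) (toFree R (Fin 2) ψ) = _
  rw [map_add, map_add, ev_toFree, ev_toFree, ev_toFree, map_sb, map_sb, map_sub, map_neg, tx, ty]
  congr 2
  rw [← tx, ← ty, ← map_sb, sb_id]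

theorem peL_toFree (ψ : LK R) : peL R (toFree R (Fin 2) ψ) = toFree R (Fin 3) (five R ψ).left := by
  rw [peL_apply, ← UU_one]
  congr 1
  rw [five, map_sum]
  refine Finset.sum_congr rfl fun i _ => ?_
  rw [map_sb, UU_XX, UU_XX, ev_toFree]

theorem dl_toFree (ψ : LK R) : dl R (toFree R (Fin 2) ψ) = 0 := by
  have hc := ta_tb R
  rw [dl_apply, ExpGl_add (hc 0 0) (hc 0 1) (hc 1 0) (hc 1 1), sub_self]

/-- The projection to the second component. -/
def rH (R : Type) [CommRing R] : GG R →ₗ⁅R⁆ LK R where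
  toFun u := u.right
  map_add' _ _ := rfl
  map_smul' _ _ := rfl
  map_lie' := rfl

/-- the right component of the five term expression -/
theorem five_right {n : ℕ} (hn : 2 ≤ n) {ψ : LK R} (h : ψ ∈ wt2 R n) :
    (five R ψ).right = ψ + sb (Low.ky R) (Low.kx R) ψ := by
  have e : (five R ψ).right = ∑ i, sb (K := R) (rH R (XX R i)) (rH R (XX R (i + 1))) ψ := by
    show rH R (five R ψ) = _
    rw [five, map_sum]
    exact Finset.sum_congr rfl fun i _ => map_sb (rH R) _ _ _
  rw [e, Fin.sum_univ_five]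
  have r2 : rH R (XX R 2) = Low.kx R := sub_zero _
  show sb (K := R) (Low.kx R) (Low.ky R) ψ + sb (K := R) (Low.ky R) (rH R (XX R 2)) ψ
    + sb (K := R) (rH R (XX R 2)) (0 : LK R) ψ + sb (K := R) (0 : LK R) (0 : LK R) ψ
    + sb (K := R) (0 : LK R) (Low.kx R) ψ = _
  rw [r2, sb_id, sb_comm hn h (lie_zero _), sb_comm hn h (lie_zero _), sb_comm hn h (zero_lie _)]
  abel

/-- Solutions satisfy the equations. -/
theorem EF_of_isWn {n : ℕ} (hn : 2 ≤ n) {ψ : LK R} (h : H819.IsWn R n ψ) :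
    ∀ w, EF R w (toFree R (Fin 2) ψ) = 0 := by
  obtain ⟨⟨hA, hH, hP⟩, hw⟩ := h
  rw [wtPart_eq] at hw
  have h5 := five_eq_zero hn hw hA hP
  rw [EF_iff]
  refine ⟨dl_toFree ψ, ?_, ?_, ?_⟩
  · rw [anL_toFree, (anti_iff ψ).1 hA, map_zero]
  · rw [heL_toFree, (hexa_iff ψ).1 hH, map_zero]
  · rw [peL_toFree, h5]
    exact map_zero _

end

/-- The equations imply solutions. -/
theorem isWn_of_EF {K : Type} [Field K] {n : ℕ} (hn : 2 ≤ n) (hnK : (n : K) ≠ 0) {χ : FA K}
    (hχ : χ ∈ Friedrichs.Wd K n) (h : ∀ w, EF K w χ = 0) :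
    ∃ ψ, H819.IsWn K n ψ ∧ toFree K (Fin 2) ψ = χ := by
  obtain ⟨h1, h2, h3, h4⟩ := (EF_iff χ).1 h
  obtain ⟨ψ, hψ, rfl⟩ := lie_of_add' (by omega) hnK hχ (add_of_dl h1)
  rw [anL_toFree] at h2
  rw [heL_toFree] at h3
  rw [peL_toFree] at h4
  have h2' := toFree_inj2 h2
  have h3' := toFree_inj2 h3
  have h4' : (five K ψ).left = 0 := toFree_inj_fin h4
  have hA : H819.Anti K ψ := (anti_iff ψ).2 h2'
  have h5 : five K ψ = 0 := by
    have h6 := five_right hn hψ
    rw [h2'] at h6
    generalize five K ψ = u at h4' h6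
    cases u
    simp only at h4' h6
    subst h4' h6
    rfl
  refine ⟨ψ, ⟨⟨hA, (hexa_iff ψ).2 h3', penta_of_five hn hψ hA h5⟩, ?_⟩, rfl⟩
  rw [wtPart_eq]
  exact hψ

end Vale.Agent.P029.Odd
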