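import Vale.Agent.P029.H819.Gr
import Mathlib.Algebra.Lie.SemiDirect

/-!
# P029: the Lie algebra `𝔭₅` over a commutative ring as a semidirect product of free Lie algebras
-/

noncomputable section

attribute [local instance 100] LieRing.ofAssociativeRing

namespace Vale.Agent.P029.Low.Z819

open Vale.Agent.P029 Low LieAlgebra

/-! ### derivations of free Lie algebras -/

section
variable {R : Type} [CommRing R] {X : Type}

/-- `a ↦ a + ε D a`. -/
def derHom (v : X → FreeLieAlgebra R X) : FreeLieAlgebra R X →ₗ⁅R⁆ Dbl (FreeLieAlgebra R X) :=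
  FreeLieAlgebra.lift R (fun i => Dbl.mk (FreeLieAlgebra.of R i) (v i))

theorem derHom_re (v : X → FreeLieAlgebra R X) (a : FreeLieAlgebra R X) :
    (derHom v a).re = a := by
  have : (Dbl.reHom R (FreeLieAlgebra R X)).comp (derHom v) = LieHom.id := by
    apply FreeLieAlgebra.hom_ext
    intro i
    simp [derHom]
  exact congrArg (fun F : FreeLieAlgebra R X →ₗ⁅R⁆ FreeLieAlgebra R X => F a) this

/-- The derivation with prescribed values on the letters. -/
def der (v : X → FreeLieAlgebra R X) :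
    LieDerivation R (FreeLieAlgebra R X) (FreeLieAlgebra R X) where
  toLinearMap := (Dbl.epHom R (FreeLieAlgebra R X)).comp
    (derHom v : FreeLieAlgebra R X →ₗ[R] Dbl (FreeLieAlgebra R X))
  leibniz' a b := by
    show (derHom v ⁅a, b⁆).ep = ⁅a, (derHom v b).ep⁆ - ⁅b, (derHom v a).ep⁆
    rw [LieHom.map_lie, Dbl.ep_lie, derHom_re, derHom_re, ← lie_skew b, sub_neg_eq_add]

theorem der_of (v : X → FreeLieAlgebra R X) (i : X) : der v (FreeLieAlgebra.of R i) = v i := by
  show (derHom v (FreeLieAlgebra.of R i)).ep = v i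
  rw [derHom, FreeLieAlgebra.lift_of_apply]
  rfl

theorem der_lie (D : LieDerivation R (FreeLieAlgebra R X) (FreeLieAlgebra R X))
    (a b : FreeLieAlgebra R X) : D ⁅a, b⁆ = ⁅a, D b⁆ + ⁅D a, b⁆ := by
  rw [LieDerivation.apply_lie_eq_sub, ← lie_skew (D a) b, sub_eq_add_neg]

end

/-! ### the semidirect product -/

section
variable (R : Type) [CommRing R]

/-- The free Lie algebra on the letters `p, g, s`. -/
abbrev FL3 : Type := FreeLieAlgebra R (Fin 3)

/-- The letter `p`. -/
def lp : FL3 R := FreeLieAlgebra.of R 0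
/-- The letter `g`. -/
def lg : FL3 R := FreeLieAlgebra.of R 1
/-- The letter `s`. -/
def ls : FL3 R := FreeLieAlgebra.of R 2

/-- The derivations. -/
abbrev LD : Type := LieDerivation R (FL3 R) (FL3 R)

theorem ld_lie {R : Type} [CommRing R] (D : LD R) (a b : FL3 R) :
    D ⁅a, b⁆ = ⁅a, D b⁆ + ⁅D a, b⁆ := der_lie D a b

/-- The action of the first letter. -/
def D1 : LieDerivation R (FL3 R) (FL3 R) := der ![⁅lg R, lp R⁆, 0, 0]

/-- The action of the second letter. -/
def D2 : LieDerivation R (FL3 R) (FL3 R) := der ![0, ⁅lp R + ls R, lg R⁆ - ⁅lp R, ls R⁆, 0]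

theorem D1_p : D1 R (lp R) = ⁅lg R, lp R⁆ := der_of _ _
theorem D1_g : D1 R (lg R) = 0 := der_of _ _
theorem D1_s : D1 R (ls R) = 0 := der_of _ _
theorem D2_p : D2 R (lp R) = 0 := der_of _ _
theorem D2_g : D2 R (lg R) = ⁅lp R + ls R, lg R⁆ - ⁅lp R, ls R⁆ := der_of _ _
theorem D2_s : D2 R (ls R) = 0 := der_of _ _

/-- The action. -/
def act : LK R →ₗ⁅R⁆ LieDerivation R (FL3 R) (FL3 R) := sb (D1 R) (D2 R)

theorem act_x : act R (kx R) = D1 R := sb_x _ _
theorem act_y : act R (ky R) = D2 R := sb_y _ _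

/-- The semidirect product. -/
abbrev GG : Type := SemiDirectSum (FL3 R) (LK R) (act R)

/-- The five elements. -/
def XX : Fin 5 → GG R :=
  ![SemiDirectSum.inr (act R) (kx R), SemiDirectSum.inr (act R) (ky R),
    SemiDirectSum.inr (act R) (kx R) - SemiDirectSum.inl (act R) (lg R),
    SemiDirectSum.inl (act R) (ls R), SemiDirectSum.inl (act R) (lp R)]

theorem lie_rl (b : LK R) (a : FL3 R) :
    (⁅SemiDirectSum.inr (act R) b, SemiDirectSum.inl (act R) a⁆ : GG R) =
      SemiDirectSum.inl (act R) (act R b a) := by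
  show (⟨⁅(0 : FL3 R), a⁆ + act R b a - act R (0 : LK R) (0 : FL3 R), ⁅b, (0 : LK R)⁆⟩ : GG R) =
    ⟨act R b a, 0⟩
  rw [zero_lie, zero_add, map_zero (act R (0 : LK R)), sub_zero, lie_zero]

theorem XX_P5 : P5 (XX R) := by
  have e1 := lie_rl R (kx R)
  have e2 := lie_rl R (ky R)
  rw [act_x] at e1
  rw [act_y] at e2
  have l := fun a b => (LieHom.map_lie (SemiDirectSum.inl (act R)) a b).symm
  have e1' : ∀ a, (⁅SemiDirectSum.inl (act R) a, SemiDirectSum.inr (act R) (kx R)⁆ : GG R) =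
      -SemiDirectSum.inl (act R) (D1 R a) := fun a => by rw [← e1, lie_skew]
  have e2' : ∀ a, (⁅SemiDirectSum.inl (act R) a, SemiDirectSum.inr (act R) (ky R)⁆ : GG R) =
      -SemiDirectSum.inl (act R) (D2 R a) := fun a => by rw [← e2, lie_skew]
  unfold XX
  generalize hX : SemiDirectSum.inr (act R) (kx R) = X at *
  generalize hY : SemiDirectSum.inr (act R) (ky R) = Y at *
  generalize hI : SemiDirectSum.inl (act R) = I at *
  constructor
  · intro i
    fin_cases i
    · show ⁅X, X - I (lg R)⁆ = 0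
      rw [lie_sub, lie_self, e1, D1_g, map_zero, sub_zero]
    · show ⁅Y, I (ls R)⁆ = 0
      rw [e2, D2_s, map_zero]
    · show ⁅X - I (lg R), I (lp R)⁆ = 0
      rw [sub_lie, e1, D1_p, l, sub_self]
    · show ⁅I (ls R), X⁆ = 0
      rw [e1', D1_s, map_zero, neg_zero]
    · show ⁅I (lp R), Y⁆ = 0
      rw [e2', D2_p, map_zero, neg_zero]
  · rw [Fin.sum_univ_five]
    show ⁅X, Y⁆ + ⁅Y, X - I (lg R)⁆ + ⁅X - I (lg R), I (ls R)⁆ + ⁅I (ls R), I (lp R)⁆ +
      ⁅I (lp R), X⁆ = 0
    rw [lie_sub, sub_lie, e2, e1, e1', D2_g, D1_s, D1_p, map_zero, ← lie_skew X Y, map_sub,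
      LieHom.map_lie, LieHom.map_lie, LieHom.map_lie, map_add, add_lie,
      ← lie_skew (I (lg R)) (I (lp R)), ← lie_skew (I (lg R)) (I (ls R)),
      ← lie_skew (I (ls R)) (I (lp R))]
    abel

/-! ### the universal property -/

variable {R}
variable {g : Type} [LieRing g] [LieAlgebra R g] {x : Fin 5 → g}

/-- The map on the first factor. -/
def piH (R : Type) [CommRing R] {g : Type} [LieRing g] [LieAlgebra R g] (x : Fin 5 → g) :
    FL3 R →ₗ⁅R⁆ g := FreeLieAlgebra.lift R ![x 4, x 0 - x 2, x 3]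

theorem piH_p : piH R x (lp R) = x 4 := FreeLieAlgebra.lift_of_apply _ _
theorem piH_g : piH R x (lg R) = x 0 - x 2 := FreeLieAlgebra.lift_of_apply _ _
theorem piH_s : piH R x (ls R) = x 3 := FreeLieAlgebra.lift_of_apply _ _

theorem skw {a b : g} (h : ⁅a, b⁆ = 0) : ⁅b, a⁆ = 0 := by rw [← lie_skew, h, neg_zero]

theorem piH_D (D : LieDerivation R (FL3 R) (FL3 R)) (u : g)
    (h : ∀ i, ⁅u, piH R x (FreeLieAlgebra.of R i)⁆ = piH R x (D (FreeLieAlgebra.of R i)))
    (a : FL3 R) : ⁅u, piH R x a⁆ = piH R x (D a) := by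
  induction a using free_induction with
  | hof i => exact h i
  | h0 => simp only [map_zero, lie_zero]
  | hadd a b ha hb => simp only [map_add, lie_add, ha, hb]
  | hsmul c a ha => rw [map_smul, map_smul, map_smul, lie_smul, ha]
  | hlie a b ha hb =>
    rw [der_lie, map_add, LieHom.map_lie, LieHom.map_lie, LieHom.map_lie, leibniz_lie, ha, hb,
      add_comm]

theorem piH_act (hx : P5 x) (b : LK R) (a : FL3 R) :
    ⁅sb (x 0) (x 1) b, piH R x a⁆ = piH R x (act R b a) := by
  have c02 : ⁅x 0, x 2⁆ = 0 := hx.comm 0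
  have c13 : ⁅x 1, x 3⁆ = 0 := hx.comm 1
  have c24 : ⁅x 2, x 4⁆ = 0 := hx.comm 2
  have c30 : ⁅x 3, x 0⁆ = 0 := hx.comm 3
  have c41 : ⁅x 4, x 1⁆ = 0 := hx.comm 4
  have hs : ⁅x 0, x 1⁆ + ⁅x 1, x 2⁆ + ⁅x 2, x 3⁆ + ⁅x 3, x 4⁆ + ⁅x 4, x 0⁆ = 0 := by
    have h := hx.sum
    rw [Fin.sum_univ_five] at h
    exact h
  induction b using lk_induction generalizing a with
  | hx =>
    rw [sb_x, act_x]
    apply piH_D
    intro i
    fin_cases i
    · show ⁅x 0, piH R x (lp R)⁆ = piH R x (D1 R (lp R))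
      rw [D1_p, LieHom.map_lie, piH_p, piH_g, sub_lie, c24, sub_zero]
    · show ⁅x 0, piH R x (lg R)⁆ = piH R x (D1 R (lg R))
      rw [D1_g, map_zero, piH_g, lie_sub, lie_self, c02, sub_zero]
    · show ⁅x 0, piH R x (ls R)⁆ = piH R x (D1 R (ls R))
      rw [D1_s, map_zero, piH_s, skw c30]
  | hy =>
    rw [sb_y, act_y]
    apply piH_D
    intro i
    fin_cases i
    · show ⁅x 1, piH R x (lp R)⁆ = piH R x (D2 R (lp R))
      rw [D2_p, map_zero, piH_p, skw c41]
    · show ⁅x 1, piH R x (lg R)⁆ = piH R x (D2 R (lg R))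
      rw [D2_g, map_sub, LieHom.map_lie, LieHom.map_lie, map_add, piH_p, piH_g, piH_s]
      have k3 := skw c30
      have k4 := skw c24
      rw [← sub_eq_zero, ← neg_eq_zero, ← hs]
      simp only [lie_sub, add_lie, c30, k4, ← lie_skew (x 0) (x 1), ← lie_skew (x 2) (x 3),
        ← lie_skew (x 3) (x 4)]
      abel
    · show ⁅x 1, piH R x (ls R)⁆ = piH R x (D2 R (ls R))
      rw [D2_s, map_zero, piH_s, c13]
  | h0 =>
    rw [map_zero, zero_lie, map_zero (act R)]
    exact (map_zero _).symm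
  | hadd a' b ha hb =>
    rw [map_add, add_lie, ha, hb, map_add (act R), LieDerivation.add_apply, map_add]
  | hsmul c a' ha =>
    rw [map_smul, smul_lie, ha, map_smul (act R), LieDerivation.smul_apply, map_smul]
  | hlie b c hb hc =>
    rw [LieHom.map_lie, lie_lie, hc, hb, hb, hc, LieHom.map_lie, LieDerivation.commutator_apply,
      map_sub]

/-- The homomorphism from the semidirect product. -/
def UU (hx : P5 x) : GG R →ₗ⁅R⁆ g where
  toFun u := piH R x u.left + sb (x 0) (x 1) u.right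
  map_add' u v := by
    show piH R x (u.left + v.left) + sb (x 0) (x 1) (u.right + v.right) = _
    rw [map_add, map_add]
    abel
  map_smul' c u := by
    show piH R x (c • u.left) + sb (x 0) (x 1) (c • u.right) = c • _
    rw [map_smul, map_smul, smul_add]
  map_lie' {u v} := by
    show piH R x (⁅u.left, v.left⁆ + act R u.right v.left - act R v.right u.left) +
      sb (x 0) (x 1) ⁅u.right, v.right⁆ = _
    rw [map_sub, map_add, LieHom.map_lie, LieHom.map_lie, ← piH_act hx, ← piH_act hx, lie_add,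
      add_lie, add_lie, ← lie_skew (piH R x u.left) (sb (x 0) (x 1) v.right)]
    abel

theorem UU_inl (hx : P5 x) (a : FL3 R) : UU hx (SemiDirectSum.inl (act R) a) = piH R x a := by
  show piH R x a + sb (x 0) (x 1) (0 : LK R) = _
  rw [map_zero, add_zero]

theorem UU_inr (hx : P5 x) (b : LK R) :
    UU hx (SemiDirectSum.inr (act R) b) = sb (x 0) (x 1) b := by
  show piH R x (0 : FL3 R) + sb (x 0) (x 1) b = _
  rw [map_zero, zero_add]

theorem UU_XX (hx : P5 x) (i : Fin 5) : UU hx (XX R i) = x i := by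
  fin_cases i
  · show UU hx (SemiDirectSum.inr (act R) (kx R)) = x 0
    rw [UU_inr, sb_x]
  · show UU hx (SemiDirectSum.inr (act R) (ky R)) = x 1
    rw [UU_inr, sb_y]
  · show UU hx (SemiDirectSum.inr (act R) (kx R) - SemiDirectSum.inl (act R) (lg R)) = x 2
    rw [map_sub, UU_inr, UU_inl, sb_x, piH_g]
    abel
  · show UU hx (SemiDirectSum.inl (act R) (ls R)) = x 3
    rw [UU_inl, piH_s]
  · show UU hx (SemiDirectSum.inl (act R) (lp R)) = x 4
    rw [UU_inl, piH_p]

/-- The five term sum. -/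
def five (R : Type) [CommRing R] (ψ : LK R) : GG R := ∑ i, sb (XX R i) (XX R (i + 1)) ψ

theorem five_univ (hx : P5 x) {ψ : LK R} (h : five R ψ = 0) :
    ∑ i, sb (x i) (x (i + 1)) ψ = 0 := by
  have h1 := congrArg (UU hx) h
  rw [map_zero, five, map_sum] at h1
  rw [← h1]
  refine Finset.sum_congr rfl fun i _ => ?_
  rw [map_sb, UU_XX, UU_XX]

end

/-! ### base change -/

section
variable {R : Type} [CommRing R]

theorem bc_eq (z : LK ℤ) : bc R z = base R (Fin 2) z := by
  induction z using int_induction with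
  | hof i =>
    rw [base_of]
    fin_cases i
    · exact bc_x
    · exact bc_y
  | h0 => rw [map_zero, map_zero]
  | hadd a b ha hb => rw [map_add, map_add, ha, hb]
  | hneg a ha => rw [map_neg, map_neg, ha]
  | hlie a b ha hb => rw [bc_lie, base_lie, ha, hb]

theorem base_D (Dz : LD ℤ) (Dr : LD R)
    (h : ∀ i, base R (Fin 3) (Dz (FreeLieAlgebra.of ℤ i)) = Dr (FreeLieAlgebra.of R i))
    (a : FL3 ℤ) : base R (Fin 3) (Dz a) = Dr (base R (Fin 3) a) := by
  induction a using int_induction with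
  | hof i => rw [h, base_of]
  | h0 => simp only [map_zero]
  | hadd a b ha hb => simp only [map_add, ha, hb]
  | hneg a ha => simp only [map_neg, ha]
  | hlie a b ha hb => rw [ld_lie, map_add, base_lie, base_lie, base_lie, ld_lie, ha, hb]

theorem base_act (b : LK ℤ) (a : FL3 ℤ) :
    base R (Fin 3) (act ℤ b a) = act R (bc R b) (base R (Fin 3) a) := by
  have p0 : base R (Fin 3) (lp ℤ) = lp R := base_of _
  have g0 : base R (Fin 3) (lg ℤ) = lg R := base_of _
  have s0 : base R (Fin 3) (ls ℤ) = ls R := base_of _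
  induction b using int_induction generalizing a with
  | hof i =>
    fin_cases i
    · show base R (Fin 3) (act ℤ (kx ℤ) a) = act R (bc R (kx ℤ)) _
      rw [bc_x, act_x, act_x]
      apply base_D
      intro i
      fin_cases i
      · show base R (Fin 3) (D1 ℤ (lp ℤ)) = D1 R (lp R)
        rw [D1_p, D1_p, base_lie, g0, p0]
      · show base R (Fin 3) (D1 ℤ (lg ℤ)) = D1 R (lg R)
        rw [D1_g, D1_g, map_zero]
      · show base R (Fin 3) (D1 ℤ (ls ℤ)) = D1 R (ls R)
        rw [D1_s, D1_s, map_zero]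
    · show base R (Fin 3) (act ℤ (ky ℤ) a) = act R (bc R (ky ℤ)) _
      rw [bc_y, act_y, act_y]
      apply base_D
      intro i
      fin_cases i
      · show base R (Fin 3) (D2 ℤ (lp ℤ)) = D2 R (lp R)
        rw [D2_p, D2_p, map_zero]
      · show base R (Fin 3) (D2 ℤ (lg ℤ)) = D2 R (lg R)
        rw [D2_g, D2_g, map_sub, base_lie, base_lie, map_add, g0, p0, s0]
      · show base R (Fin 3) (D2 ℤ (ls ℤ)) = D2 R (ls R)
        rw [D2_s, D2_s, map_zero]
  | h0 =>
    rw [map_zero (act ℤ), map_zero (bc R), map_zero (act R)]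
    exact map_zero _
  | hadd a' b ha hb =>
    rw [map_add (act ℤ), map_add (bc R), map_add (act R), LieDerivation.add_apply,
      LieDerivation.add_apply, map_add, ha, hb]
  | hneg a' ha =>
    rw [map_neg (act ℤ), map_neg (bc R), map_neg (act R), LieDerivation.neg_apply,
      LieDerivation.neg_apply, map_neg, ha]
  | hlie b c hb hc =>
    rw [LieHom.map_lie, bc_lie, LieHom.map_lie, LieDerivation.commutator_apply,
      LieDerivation.commutator_apply, map_sub, hb, hc, hc, hb]

/-- Base change of the semidirect product. -/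
def bG (R : Type) [CommRing R] : GG ℤ →+ GG R where
  toFun u := ⟨base R (Fin 3) u.left, bc R u.right⟩
  map_zero' := by
    show (⟨base R (Fin 3) (0 : FL3 ℤ), bc R (0 : LK ℤ)⟩ : GG R) = ⟨0, 0⟩
    rw [map_zero, map_zero]
  map_add' u v := by
    show (⟨base R (Fin 3) (u.left + v.left), bc R (u.right + v.right)⟩ : GG R) =
      ⟨base R (Fin 3) u.left + base R (Fin 3) v.left, bc R u.right + bc R v.right⟩
    rw [map_add, map_add]

theorem bG_lie (u v : GG ℤ) : bG R ⁅u, v⁆ = ⁅bG R u, bG R v⁆ := by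
  show (⟨base R (Fin 3) (⁅u.left, v.left⁆ + act ℤ u.right v.left - act ℤ v.right u.left),
    bc R ⁅u.right, v.right⁆⟩ : GG R) =
    ⟨⁅base R (Fin 3) u.left, base R (Fin 3) v.left⁆ + act R (bc R u.right) (base R (Fin 3) v.left)
      - act R (bc R v.right) (base R (Fin 3) u.left), ⁅bc R u.right, bc R v.right⁆⟩
  rw [map_sub, map_add, base_lie, base_act, base_act, bc_lie]

theorem bG_inl (a : FL3 ℤ) : bG R (SemiDirectSum.inl (act ℤ) a) =
    SemiDirectSum.inl (act R) (base R (Fin 3) a) := by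
  show (⟨base R (Fin 3) a, bc R (0 : LK ℤ)⟩ : GG R) = ⟨base R (Fin 3) a, 0⟩
  rw [map_zero]

theorem bG_inr (b : LK ℤ) : bG R (SemiDirectSum.inr (act ℤ) b) =
    SemiDirectSum.inr (act R) (bc R b) := by
  show (⟨base R (Fin 3) (0 : FL3 ℤ), bc R b⟩ : GG R) = ⟨0, bc R b⟩
  rw [map_zero]

theorem bG_XX (i : Fin 5) : bG R (XX ℤ i) = XX R i := by
  fin_cases i
  · show bG R (SemiDirectSum.inr (act ℤ) (kx ℤ)) = SemiDirectSum.inr (act R) (kx R)
    rw [bG_inr, bc_x]
  · show bG R (SemiDirectSum.inr (act ℤ) (ky ℤ)) = SemiDirectSum.inr (act R) (ky R)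
    rw [bG_inr, bc_y]
  · show bG R (SemiDirectSum.inr (act ℤ) (kx ℤ) - SemiDirectSum.inl (act ℤ) (lg ℤ)) =
      SemiDirectSum.inr (act R) (kx R) - SemiDirectSum.inl (act R) (lg R)
    rw [map_sub, bG_inr, bG_inl, bc_x]
    congr 2
    exact base_of _
  · show bG R (SemiDirectSum.inl (act ℤ) (ls ℤ)) = SemiDirectSum.inl (act R) (ls R)
    rw [bG_inl]
    congr 1
    exact base_of _
  · show bG R (SemiDirectSum.inl (act ℤ) (lp ℤ)) = SemiDirectSum.inl (act R) (lp R)
    rw [bG_inl]
    congr 1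
    exact base_of _

theorem bG_sb (u v : GG ℤ) (z : LK ℤ) :
    bG R (sb u v z) = sb (bG R u) (bG R v) (bc R z) := by
  induction z using int_induction with
  | hof i =>
    fin_cases i
    · show bG R (sb u v (kx ℤ)) = sb (bG R u) (bG R v) (bc R (kx ℤ))
      rw [sb_x, bc_x, sb_x]
    · show bG R (sb u v (ky ℤ)) = sb (bG R u) (bG R v) (bc R (ky ℤ))
      rw [sb_y, bc_y, sb_y]
  | h0 => rw [map_zero, map_zero, map_zero, map_zero]
  | hadd a b ha hb => rw [map_add, map_add, map_add, map_add, ha, hb]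
  | hneg a ha => rw [map_neg, map_neg, map_neg, map_neg, ha]
  | hlie a b ha hb => rw [LieHom.map_lie, bG_lie, bc_lie, LieHom.map_lie, ha, hb]

theorem bG_five (z : LK ℤ) : bG R (five ℤ z) = five R (bc R z) := by
  rw [five, five, map_sum]
  refine Finset.sum_congr rfl fun i _ => ?_
  rw [bG_sb, bG_XX, bG_XX]

theorem bG_inj {u : GG ℤ} (h : bG ℚ u = 0) : u = 0 := by
  have h1 : base ℚ (Fin 3) u.left = 0 := congrArg SemiDirectSum.left h
  have h2 : bc ℚ u.right = 0 := congrArg SemiDirectSum.right h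
  rw [bc_eq] at h2
  have e1 := base_inj_fin h1
  have e2 := base_inj_fin h2
  cases u
  simp only at e1 e2
  subst e1
  subst e2
  rfl

/-- The five term relation for an integral solution. -/
theorem five_int {n : ℕ} (hn : 2 ≤ n) {z : LK ℤ} (h : bc ℚ z ∈ W n) : five ℤ z = 0 := by
  apply bG_inj
  rw [bG_five, five, Fin.sum_univ_five]
  exact T4S.five_of_W (XX ℚ) (XX_P5 ℚ) hn h

end

end Vale.Agent.P029.Low.Z819
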