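import Vale.Agent.P029.Bdl.B1

/-!
# P029, odd characteristic: `p`-integral numbers and polynomials
-/

noncomputable section

attribute [local instance 100] LieRing.ofAssociativeRing

namespace Vale.Agent.P029.Odd

/-- The rational numbers with denominator prime to `p`, in `ℂ`. -/
def ZP (p : ℕ) [Fact p.Prime] : Subring ℂ where
  carrier := {a | ∃ m d : ℤ, ¬ (p : ℤ) ∣ d ∧ (d : ℂ) * a = m}
  mul_mem' := by
    rintro a b ⟨m, d, hd, h⟩ ⟨m', d', hd', h'⟩
    refine ⟨m * m', d * d', ?_, ?_⟩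
    · intro hdiv
      rcases (Nat.prime_iff_prime_int.1 (Fact.out : p.Prime)).dvd_or_dvd hdiv with h1 | h1
      exacts [hd h1, hd' h1]
    · push_cast
      rw [← h, ← h']
      ring
  one_mem' := ⟨1, 1, fun h => by
    have h1 := Int.natCast_dvd_natCast.1 (by simpa using h : (p : ℤ) ∣ ((1 : ℕ) : ℤ))
    exact (Fact.out : p.Prime).one_lt.ne' (Nat.dvd_one.1 h1), by simp⟩
  add_mem' := by
    rintro a b ⟨m, d, hd, h⟩ ⟨m', d', hd', h'⟩
    refine ⟨m * d' + m' * d, d * d', ?_, ?_⟩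
    · intro hdiv
      rcases (Nat.prime_iff_prime_int.1 (Fact.out : p.Prime)).dvd_or_dvd hdiv with h1 | h1
      exacts [hd h1, hd' h1]
    · push_cast
      rw [← h, ← h']
      ring
  zero_mem' := ⟨0, 1, fun h => by
    have h1 := Int.natCast_dvd_natCast.1 (by simpa using h : (p : ℤ) ∣ ((1 : ℕ) : ℤ))
    exact (Fact.out : p.Prime).one_lt.ne' (Nat.dvd_one.1 h1), by simp⟩
  neg_mem' := by
    rintro a ⟨m, d, hd, h⟩
    exact ⟨-m, d, hd, by push_cast; rw [← h]; ring⟩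

theorem int_mem {p : ℕ} [Fact p.Prime] (m : ℤ) : (m : ℂ) ∈ ZP p := intCast_mem _ m

theorem inv_mem {p : ℕ} [Fact p.Prime] {d : ℤ} (hd : ¬ (p : ℤ) ∣ d) : ((d : ℂ))⁻¹ ∈ ZP p := by
  refine ⟨1, d, hd, ?_⟩
  have h0 : (d : ℂ) ≠ 0 := by
    intro h
    apply hd
    rw [Int.cast_eq_zero.1 h]
    exact dvd_zero _
  rw [mul_inv_cancel₀ h0, Int.cast_one]

/-- `p`-integral polynomials: the subring generated by the letters and the `p`-integral numbers. -/
def FZ (p : ℕ) [Fact p.Prime] : Subring (Low.FA ℂ) :=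
  Subring.closure (Set.range (FreeAlgebra.ι ℂ) ∪ (algebraMap ℂ (Low.FA ℂ)) '' (ZP p : Set ℂ))

/-- `2 π i`. -/
def tau : ℂ := 2 * Real.pi * Complex.I

theorem tau_ne_zero : tau ≠ 0 := by
  unfold tau
  simp [Real.pi_ne_zero]

end Vale.Agent.P029.Odd
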