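import Vale.Agent.P029.Bdl.B2
import Vale.Agent.P029.H819.PDefs
import Mathlib.Data.Nat.Prime.Factorial

/-!
# P029, odd characteristic: integrality of the linearised equations of an associator
-/

noncomputable section

attribute [local instance 100] LieRing.ofAssociativeRing

namespace Vale.Agent.P029.Odd

open Vale.Agent.P029 Low Low.Linz

variable {p : ℕ} [Fact p.Prime] {B : Type} [Ring B] [Algebra ℂ B]

/-- The lattice `τ^n S`. -/
def InL (S : Subring B) (n : ℕ) (u : B) : Prop := ∃ s ∈ S, u = tau ^ n • s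

theorem InL.add {S : Subring B} {n : ℕ} {u v : B} (hu : InL S n u) (hv : InL S n v) :
    InL S n (u + v) := by
  obtain ⟨s, hs, rfl⟩ := hu
  obtain ⟨t, ht, rfl⟩ := hv
  exact ⟨s + t, add_mem hs ht, by rw [smul_add]⟩

theorem InL.neg {S : Subring B} {n : ℕ} {u : B} (hu : InL S n u) : InL S n (-u) := by
  obtain ⟨s, hs, rfl⟩ := hu
  exact ⟨-s, neg_mem hs, by rw [smul_neg]⟩

theorem InL.zero {S : Subring B} {n : ℕ} : InL S n (0 : B) := ⟨0, zero_mem _, by rw [smul_zero]⟩

theorem InL.mul {S : Subring B} {m n : ℕ} {u v : B} (hu : InL S m u) (hv : InL S n v) :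
    InL S (m + n) (u * v) := by
  obtain ⟨s, hs, rfl⟩ := hu
  obtain ⟨t, ht, rfl⟩ := hv
  exact ⟨s * t, mul_mem hs ht, by rw [smul_mul_smul_comm, pow_add]⟩

theorem InL.sum {S : Subring B} {n : ℕ} {ι : Type} (s : Finset ι) (f : ι → B)
    (h : ∀ i ∈ s, InL S n (f i)) : InL S n (∑ i ∈ s, f i) := by
  classical
  induction s using Finset.induction_on with
  | empty => rw [Finset.sum_empty]; exact InL.zero
  | insert a s ha ih =>
    rw [Finset.sum_insert ha]
    exact (h a (Finset.mem_insert_self a s)).add (ih fun i hi => h i (Finset.mem_insert_of_mem hi))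

/-- The coefficients of `q` below `n` are integral and the `n`-th one is `u` modulo the lattice. -/
structure Near (S : Subring B) (n : ℕ) (q : Polynomial B) (u : B) : Prop where
  one : q.coeff 0 = 1
  low : ∀ k < n, InL S k (q.coeff k)
  top : InL S n (q.coeff n - u)

theorem Near.mul {S : Subring B} {n : ℕ} (hn : 1 ≤ n) {q r : Polynomial B} {u v : B}
    (h : Near S n q u) (h' : Near S n r v) : Near S n (q * r) (u + v) where
  one := by rw [Polynomial.mul_coeff_zero, h.one, h'.one, one_mul]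
  low k hk := by
    rw [Polynomial.coeff_mul]
    refine InL.sum _ _ fun x hx => ?_
    rw [Finset.HasAntidiagonal.mem_antidiagonal] at hx
    rw [← hx]
    exact (h.low _ (by omega)).mul (h'.low _ (by omega))
  top := by
    rw [Polynomial.coeff_mul]
    have e1 : ∀ x ∈ Finset.HasAntidiagonal.antidiagonal n, InL S n (q.coeff x.1 * r.coeff x.2
        - ((if x = (0, n) then v else 0) + (if x = (n, 0) then u else 0))) := by
      rintro ⟨a, b⟩ hx
      rw [Finset.HasAntidiagonal.mem_antidiagonal] at hx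
      simp only at hx
      simp only [Prod.mk.injEq]
      by_cases ha : a = 0
      · have hb : b = n := by omega
        subst ha
        subst hb
        rw [if_pos ⟨rfl, rfl⟩, if_neg (by omega), h.one, one_mul, add_zero]
        exact h'.top
      · by_cases hb : b = 0
        · have ha' : a = n := by omega
          subst hb
          subst ha'
          rw [if_neg (by omega), if_pos ⟨rfl, rfl⟩, h'.one, mul_one, zero_add]
          exact h.top
        · rw [if_neg (by omega), if_neg (by omega), add_zero, sub_zero, ← hx]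
          exact (h.low a (by omega)).mul (h'.low b (by omega))
    have e2 := InL.sum _ _ e1
    rw [Finset.sum_sub_distrib, Finset.sum_add_distrib, Finset.sum_ite_eq', Finset.sum_ite_eq',
      if_pos (by simp), if_pos (by simp), add_comm v u] at e2
    exact e2

theorem Near.one_self {S : Subring B} {n : ℕ} (hn : 1 ≤ n) : Near S n (1 : Polynomial B) 0 where
  one := by simp
  low k _ := by
    rw [Polynomial.coeff_one]
    split_ifs with hk0
    · subst hk0; exact ⟨1, one_mem _, by rw [pow_zero, one_smul]⟩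
    · exact InL.zero
  top := by
    rw [Polynomial.coeff_one, if_neg (by omega), sub_zero]
    exact InL.zero

theorem Near.eq {S : Subring B} {n : ℕ} {q r : Polynomial B} {u v : B} (h : Near S n q u)
    (h' : Near S n r v) (h1 : q.coeff n = r.coeff n) : InL S n (u - v) := by
  have e := h'.top.add h.top.neg
  rw [h1] at e
  have e2 : r.coeff n - v + -(r.coeff n - u) = u - v := by abel
  rwa [e2] at e

/-- `S` is stable under the `p`-integral numbers. -/
def Stb (p : ℕ) [Fact p.Prime] (S : Subring B) : Prop := ∀ c ∈ ZP p, ∀ s ∈ S, c • s ∈ S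

theorem ev_mem {S : Subring B} (hS : Stb p S) {a b : B} (ha : a ∈ S) (hb : b ∈ S) {c : FA ℂ}
    (hc : c ∈ FZ p) : ev a b c ∈ S := by
  have h : FZ p ≤ S.comap (ev a b : FA ℂ →ₐ[ℂ] B).toRingHom := by
    unfold FZ
    rw [Subring.closure_le]
    rintro x (⟨i, rfl⟩ | ⟨c, hc, rfl⟩)
    · show ev a b (FreeAlgebra.ι ℂ i) ∈ S
      rw [ev, FreeAlgebra.lift_ι_apply]
      fin_cases i
      exacts [ha, hb]
    · show ev a b (algebraMap ℂ (FA ℂ) c) ∈ S
      rw [AlgHom.commutes, Algebra.algebraMap_eq_smul_one]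
      exact hS c hc 1 (one_mem _)
  exact h hc

/-- The integrality of the weight parts below `n`. -/
def Low (p : ℕ) [Fact p.Prime] (n : ℕ) (P : FA ℂ) : Prop := ∀ k < n, InL (FZ p) k (hp k P)

theorem near_pl {S : Subring B} (hS : Stb p S) {a b : B} (ha : a ∈ S) (hb : b ∈ S) {n : ℕ}
    {P : FA ℂ} (h1 : hp 0 P = 1) (h : Low p n P) : Near S n (pl a b P) (ev a b (hp n P)) where
  one := by rw [pl_coeff, h1, map_one]
  low k hk := by
    obtain ⟨c, hc, e⟩ := h k hk
    rw [pl_coeff, e]
    exact ⟨ev a b c, ev_mem hS ha hb hc, by rw [map_smul]⟩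
  top := by rw [pl_coeff, sub_self]; exact InL.zero

theorem fact_mem {k : ℕ} (hk : k < p) : ((k.factorial : ℂ))⁻¹ ∈ ZP p := by
  have h := inv_mem (p := p) (d := (k.factorial : ℤ)) (by
    rw [Int.natCast_dvd_natCast]
    intro hd
    exact absurd ((Nat.Prime.dvd_factorial (Fact.out : p.Prime)).1 hd) (by omega))
  simpa using h

theorem half_mem (hp2 : p ≠ 2) : (2 : ℂ)⁻¹ ∈ ZP p := by
  have h := inv_mem (p := p) (d := 2) (by
    intro hd
    have h2 : p ∣ 2 := by exact_mod_cast hd
    have := Nat.le_of_dvd (by norm_num) h2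
    have h3 := (Fact.out : p.Prime).two_le
    omega)
  simpa using h

theorem near_ex (hp2 : p ≠ 2) {S : Subring B} (hS : Stb p S) {a : B} (ha : a ∈ S) {n N : ℕ}
    (hn : n < p) {s : ℂ} (hs : s = 1 ∨ s = -1) :
    Near S n (ex N (s * Complex.I * Real.pi) a) 0 := by
  have key : ∀ k, k < p → InL S k ((ex N (s * Complex.I * Real.pi) a).coeff k) := by
    intro k hk
    have e : (ex N (s * Complex.I * Real.pi) a).coeff k = if k < N + 1 then
        ((s * Complex.I * Real.pi) ^ k / (k.factorial : ℂ)) • a ^ k else 0 := by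
      rw [ex, KZ.expT, Polynomial.finsetSum_coeff]
      have e1 : ∀ j, ((((s * Complex.I * Real.pi) ^ j / (j.factorial : ℂ)) •
          (Polynomial.C a * Polynomial.X) ^ j : Polynomial B)).coeff k =
            if j = k then ((s * Complex.I * Real.pi) ^ k / (k.factorial : ℂ)) • a ^ k else 0 := by
        intro j
        have e2 : (Polynomial.C a * Polynomial.X) ^ j =
            Polynomial.C (a ^ j) * (Polynomial.X : Polynomial B) ^ j := by
          rw [Polynomial.C_pow, (Polynomial.commute_X (Polynomial.C a)).symm.mul_pow]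
        rw [Polynomial.coeff_smul, e2, Polynomial.coeff_C_mul_X_pow]
        split_ifs with h1 h2 h2
        · subst h1; rfl
        · exact absurd h1.symm h2
        · exact absurd h2.symm h1
        · rw [smul_zero]
      simp only [e1]
      rw [Finset.sum_ite_eq']
      simp only [Finset.mem_range]
    rw [e]
    split_ifs with h1
    · refine ⟨((s / 2) ^ k * ((k.factorial : ℂ))⁻¹) • a ^ k, hS _ ?_ _ (pow_mem ha k), ?_⟩
      · refine mul_mem (pow_mem ?_ k) (fact_mem hk)
        rw [div_eq_mul_inv]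
        refine mul_mem ?_ (half_mem hp2)
        rcases hs with rfl | rfl
        exacts [one_mem _, neg_mem (one_mem _)]
      · rw [smul_smul]
        congr 1
        rw [tau, ← mul_assoc, ← mul_pow, div_eq_mul_inv]
        congr 2
        ring
    · exact InL.zero
  refine ⟨ex_zero N _ a, fun k hk => key k (by omega), ?_⟩
  rw [sub_zero]
  exact key n hn

/-! ### the linearised equations -/

section
variable {n N : ℕ} {P : FA ℂ}

theorem tp_key {q r : Polynomial B} (hqr : tp B n q = tp B n r) : q.coeff n = r.coeff n := by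
  rw [← tp_apply n q, hqr, tp_apply n r]

theorem near_gl (hn : 1 ≤ n) (hP : Assoc n P) (hlow : Low p n P) {S : Subring B} (hS : Stb p S)
    {a b a' b' : B} (ha : a ∈ S) (hb : b ∈ S) (ha' : a' ∈ S) (hb' : b' ∈ S)
    (h1 : a * a' = a' * a) (h2 : a * b' = b' * a) (h3 : b * a' = a' * b) (h4 : b * b' = b' * b) :
    InL S n (ev (a + a') (b + b') (hp n P) - (ev a b (hp n P) + ev a' b' (hp n P))) := by
  have hn' : KZ.NilS {mt n a, mt n b, mt n a', mt n b'} n := by
    apply nil_mt
    intro x hx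
    simp only [Set.mem_insert_iff, Set.mem_singleton_iff] at hx
    rcases hx with rfl | rfl | rfl | rfl
    exacts [⟨_, rfl⟩, ⟨_, rfl⟩, ⟨_, rfl⟩, ⟨_, rfl⟩]
  have e1 := hP.gl _ (mt n a) (mt n b) (mt n a') (mt n b') hn' (mt_comm n h1) (mt_comm n h2)
    (mt_comm n h3) (mt_comm n h4)
  rw [← mt_add, ← mt_add, ev_mt, ev_mt, ev_mt, ← map_mul] at e1
  exact (near_pl hS (add_mem ha ha') (add_mem hb hb') hP.one hlow).eq
    ((near_pl hS ha hb hP.one hlow).mul hn (near_pl hS ha' hb' hP.one hlow)) (tp_key e1)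

theorem near_inv (hn : 1 ≤ n) (hP : Assoc n P) (hlow : Low p n P) {S : Subring B} (hS : Stb p S)
    {a b : B} (ha : a ∈ S) (hb : b ∈ S) :
    InL S n (ev a b (hp n P) + ev b a (hp n P)) := by
  have hn' : KZ.NilS {mt n a, mt n b} n := by
    apply nil_mt
    intro x hx
    simp only [Set.mem_insert_iff, Set.mem_singleton_iff] at hx
    rcases hx with rfl | rfl
    exacts [⟨_, rfl⟩, ⟨_, rfl⟩]
  have e1 := hP.inv _ (mt n a) (mt n b) hn'
  rw [ev_mt, ev_mt, ← map_mul, ← map_one (tp B n)] at e1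
  have := ((near_pl hS hb ha hP.one hlow).mul hn (near_pl hS ha hb hP.one hlow)).eq
    (Near.one_self hn) (tp_key e1)
  rwa [sub_zero, add_comm] at this

theorem near_hex (hp2 : p ≠ 2) (hn : 1 ≤ n) (hnp : n < p) (hP : Assoc n P) (hlow : Low p n P)
    {S : Subring B} (hS : Stb p S) {a b c : B} (ha : a ∈ S) (hb : b ∈ S) (hc : c ∈ S)
    (h0 : a + b + c = 0) :
    InL S n (ev a b (hp n P) + ev b c (hp n P) + ev c a (hp n P)) := by
  have hn' : KZ.NilS {mt n a, mt n b} n := by
    apply nil_mt
    intro x hx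
    simp only [Set.mem_insert_iff, Set.mem_singleton_iff] at hx
    rcases hx with rfl | rfl
    exacts [⟨_, rfl⟩, ⟨_, rfl⟩]
  have h0' : mt n a + mt n b + mt n c = 0 := by
    rw [← mt_add, ← mt_add, h0, mt_zero]
  have e1 := hP.hex _ (mt n a) (mt n b) (mt n c) hn' h0' 1 (Or.inl rfl)
  rw [ev_mt, ev_mt, ev_mt, exp_mt, exp_mt, exp_mt, ← map_mul, ← map_mul, ← map_mul, ← map_mul,
    ← map_mul, ← map_one (tp B n)] at e1
  have r := fun {u v : B} (hu : u ∈ S) (hv : v ∈ S) => near_pl hS hu hv hP.one hlow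
  have s := fun {u : B} (hu : u ∈ S) => near_ex (N := n) hp2 hS hu hnp (s := 1) (Or.inl rfl)
  have := ((((((s ha).mul hn (r hc ha)).mul hn (s hc)).mul hn (r hb hc)).mul hn (s hb)).mul hn
    (r ha hb)).eq (Near.one_self hn) (tp_key e1)
  have e : (0 + ev c a (hp n P) + 0 + ev b c (hp n P) + 0 + ev a b (hp n P) - 0 : B) =
      ev a b (hp n P) + ev b c (hp n P) + ev c a (hp n P) := by abel
  rwa [e] at this

theorem near_pent (hn : 1 ≤ n) (hP : Assoc n P) (hlow : Low p n P) {S : Subring B} (hS : Stb p S)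
    {X : Fin 5 → Fin 5 → B} (hX : PS X) (hXS : ∀ i j, X i j ∈ S) :
    InL S n (ev (X 0 1) (X 1 2) (hp n P) + ev (X 1 2) (X 2 3) (hp n P) +
      ev (X 2 3) (X 3 4) (hp n P) + ev (X 3 4) (X 4 0) (hp n P) + ev (X 4 0) (X 0 1) (hp n P)) := by
  have hn' : KZ.NilS {z | ∃ i j, z = (fun i j => mt n (X i j)) i j} n := by
    apply nil_mt
    rintro x ⟨i, j, rfl⟩
    exact ⟨_, rfl⟩
  have hX' : PS (fun i j => mt n (X i j)) := by
    constructor
    · intro i; simp only [hX.diag, mt_zero]
    · intro i j; exact congrArg (mt n) (hX.symm i j)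
    · intro i
      have := hX.sum i
      have e : ∑ j, mt n (X i j) = mt n (∑ j, X i j) :=
        (map_sum (AddMonoidHom.mk' (mt n) (mt_add (B := B) n)) _ _).symm
      rw [e, this, mt_zero]
    · intro i j k l h1 h2 h3 h4 h5 h6
      have := hX.comm i j k l h1 h2 h3 h4 h5 h6
      rw [LieRing.of_associative_ring_bracket, sub_eq_zero] at this ⊢
      exact mt_comm n this
  have e1 := hP.pent _ _ hX' hn'
  rw [ev_mt, ev_mt, ev_mt, ev_mt, ev_mt, ← map_mul, ← map_mul, ← map_mul, ← map_mul,
    ← map_one (tp B n)] at e1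
  have r := fun i j k l => near_pl hS (hXS i j) (hXS k l) hP.one hlow
  have := (((((r 2 3 3 4).mul hn (r 4 0 0 1)).mul hn (r 1 2 2 3)).mul hn (r 3 4 4 0)).mul hn
    (r 0 1 1 2)).eq (Near.one_self hn) (tp_key e1)
  have e : (ev (X 2 3) (X 3 4) (hp n P) + ev (X 4 0) (X 0 1) (hp n P) +
      ev (X 1 2) (X 2 3) (hp n P) + ev (X 3 4) (X 4 0) (hp n P) + ev (X 0 1) (X 1 2) (hp n P) - 0 : B)
      = ev (X 0 1) (X 1 2) (hp n P) + ev (X 1 2) (X 2 3) (hp n P) + ev (X 2 3) (X 3 4) (hp n P) +
        ev (X 3 4) (X 4 0) (hp n P) + ev (X 4 0) (X 0 1) (hp n P) := by abel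
  rwa [e] at this

end

end Vale.Agent.P029.Odd
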