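import Vale.Agent.P029.H819.Near
import Vale.Agent.P029.H819.Exact

/-!
# P029, odd characteristic: a `𝔭₅`-system of operators on the free associative algebra
-/

noncomputable section

attribute [local instance 100] LieRing.ofAssociativeRing
attribute [-instance] LieRing.instLieAlgebra

namespace Vale.Agent.P029.Odd

open Vale.Agent.P029 Low Low.Z819 TrivSqZeroExt

section
variable (R : Type) [CommRing R]

/-- The free associative algebra on `p, g, s`. -/
abbrev F3 : Type := FreeAlgebra R (Fin 3)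

/-- The letter `p`. -/
def fp : F3 R := FreeAlgebra.ι R 0
/-- The letter `g`. -/
def fg : F3 R := FreeAlgebra.ι R 1
/-- The letter `s`. -/
def fs : F3 R := FreeAlgebra.ι R 2

variable {R}

/-- `f ↦ f + ε D(f)`. -/
def dH (v : Fin 3 → F3 R) : F3 R →ₐ[R] DualNumber (F3 R) :=
  FreeAlgebra.lift R fun i => inl (FreeAlgebra.ι R i) + inr (v i)

theorem fst_dH (v : Fin 3 → F3 R) (f : F3 R) : (dH v f).fst = f := by
  have h : (TrivSqZeroExt.fstHom R (F3 R) (F3 R)).comp (dH v) = AlgHom.id R (F3 R) := by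
    apply FreeAlgebra.hom_ext
    funext i
    simp [dH]
  exact congrArg (fun F : F3 R →ₐ[R] F3 R => F f) h

/-- The derivation with prescribed values on the letters. -/
def dv (v : Fin 3 → F3 R) : Module.End R (F3 R) where
  toFun f := (dH v f).snd
  map_add' f g := by simp
  map_smul' c f := by simp

theorem dv_ι (v : Fin 3 → F3 R) (i : Fin 3) : dv v (FreeAlgebra.ι R i) = v i := by
  change (dH v (FreeAlgebra.ι R i)).snd = v i
  simp [dH]

theorem dv_one (v : Fin 3 → F3 R) : dv v 1 = 0 := by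
  change (dH v 1).snd = 0
  rw [map_one, snd_one]

theorem dv_mul (v : Fin 3 → F3 R) (a b : F3 R) : dv v (a * b) = dv v a * b + a * dv v b := by
  change (dH v (a * b)).snd = (dH v a).snd * b + a * (dH v b).snd
  rw [map_mul, snd_mul, fst_dH, fst_dH, add_comm]
  rfl

theorem dv_lie (v : Fin 3 → F3 R) (a b : F3 R) : dv v ⁅a, b⁆ = ⁅dv v a, b⁆ + ⁅a, dv v b⁆ := by
  rw [Ring.lie_def, Ring.lie_def, Ring.lie_def, map_sub, dv_mul, dv_mul]
  abel

/-- Left multiplication. -/
abbrev lm (a : F3 R) : Module.End R (F3 R) := LinearMap.mulLeft R a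

theorem dv_lm (v : Fin 3 → F3 R) (a : F3 R) : ⁅dv v, lm a⁆ = lm (dv v a) := by
  refine LinearMap.ext fun f => ?_
  rw [Ring.lie_def, LinearMap.sub_apply, Module.End.mul_apply, Module.End.mul_apply,
    LinearMap.mulLeft_apply, LinearMap.mulLeft_apply, LinearMap.mulLeft_apply, dv_mul,
    add_sub_cancel_right]

theorem lm_lm (a b : F3 R) : ⁅lm a, lm b⁆ = lm ⁅a, b⁆ := by
  refine LinearMap.ext fun f => ?_
  rw [Ring.lie_def, LinearMap.sub_apply, Module.End.mul_apply, Module.End.mul_apply,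
    LinearMap.mulLeft_apply, LinearMap.mulLeft_apply, LinearMap.mulLeft_apply,
    LinearMap.mulLeft_apply, LinearMap.mulLeft_apply, Ring.lie_def, sub_mul, mul_assoc, mul_assoc]

theorem lm_add (a b : F3 R) : lm (a + b) = lm a + lm b := by
  refine LinearMap.ext fun f => ?_
  rw [LinearMap.add_apply, LinearMap.mulLeft_apply, LinearMap.mulLeft_apply,
    LinearMap.mulLeft_apply, add_mul]

theorem lm_sub (a b : F3 R) : lm (a - b) = lm a - lm b := by
  refine LinearMap.ext fun f => ?_
  rw [LinearMap.sub_apply, LinearMap.mulLeft_apply, LinearMap.mulLeft_apply,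
    LinearMap.mulLeft_apply, sub_mul]

theorem lm_zero : lm (0 : F3 R) = 0 := by
  refine LinearMap.ext fun f => ?_
  rw [LinearMap.mulLeft_apply, zero_mul, LinearMap.zero_apply]

variable (R)

/-- The values of the first derivation. -/
def v1 : Fin 3 → F3 R := ![⁅fg R, fp R⁆, 0, 0]
/-- The values of the second derivation. -/
def v2 : Fin 3 → F3 R := ![0, ⁅fp R + fs R, fg R⁆ - ⁅fp R, fs R⁆, 0]

theorem v1_p : dv (v1 R) (fp R) = ⁅fg R, fp R⁆ := dv_ι _ _
theorem v1_g : dv (v1 R) (fg R) = 0 := dv_ι _ _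
theorem v1_s : dv (v1 R) (fs R) = 0 := dv_ι _ _
theorem v2_p : dv (v2 R) (fp R) = 0 := dv_ι _ _
theorem v2_g : dv (v2 R) (fg R) = ⁅fp R + fs R, fg R⁆ - ⁅fp R, fs R⁆ := dv_ι _ _
theorem v2_s : dv (v2 R) (fs R) = 0 := dv_ι _ _

/-- The five operators. -/
def Op : Fin 5 → Module.End R (F3 R) :=
  ![dv (v1 R), dv (v2 R), dv (v1 R) - lm (fg R), lm (fs R), lm (fp R)]

theorem Op_P5 : P5 (Op R) := by
  have a1 := dv_lm (v1 R) (fp R)
  have a2 := dv_lm (v1 R) (fg R)
  have a3 := dv_lm (v1 R) (fs R)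
  have b1 := dv_lm (v2 R) (fp R)
  have b2 := dv_lm (v2 R) (fg R)
  have b3 := dv_lm (v2 R) (fs R)
  rw [v1_p] at a1
  rw [v1_g, lm_zero] at a2
  rw [v1_s, lm_zero] at a3
  rw [v2_p, lm_zero] at b1
  rw [v2_g] at b2
  rw [v2_s, lm_zero] at b3
  have sk : ∀ u v : Module.End R (F3 R), ⁅u, v⁆ = -⁅v, u⁆ := fun u v => (lie_skew u v).symm
  constructor
  · intro i
    fin_cases i
    · show ⁅dv (v1 R), dv (v1 R) - lm (fg R)⁆ = 0
      rw [lie_sub, lie_self, a2, sub_zero]
    · exact b3
    · show ⁅dv (v1 R) - lm (fg R), lm (fp R)⁆ = 0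
      rw [sub_lie, a1, lm_lm, sub_self]
    · show ⁅lm (fs R), dv (v1 R)⁆ = 0
      rw [sk, a3, neg_zero]
    · show ⁅lm (fp R), dv (v2 R)⁆ = 0
      rw [sk, b1, neg_zero]
  · rw [Fin.sum_univ_five]
    show ⁅dv (v1 R), dv (v2 R)⁆ + ⁅dv (v2 R), dv (v1 R) - lm (fg R)⁆
      + ⁅dv (v1 R) - lm (fg R), lm (fs R)⁆ + ⁅lm (fs R), lm (fp R)⁆ + ⁅lm (fp R), dv (v1 R)⁆ = 0
    rw [lie_sub, sub_lie, sk (lm (fp R)), a1, a3, b2, lm_lm, lm_lm, lm_sub, add_lie, lm_add,
      sk (dv (v2 R))]
    have e1 : (⁅fs R, fp R⁆ : F3 R) = -⁅fp R, fs R⁆ := (lie_skew _ _).symm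
    have e2 : (⁅fg R, fp R⁆ : F3 R) = -⁅fp R, fg R⁆ := (lie_skew _ _).symm
    have e3 : (⁅fs R, fg R⁆ : F3 R) = -⁅fg R, fs R⁆ := (lie_skew _ _).symm
    have n : ∀ a : F3 R, lm (-a) = -lm a := fun a => by
      rw [← zero_sub, lm_sub, lm_zero, zero_sub]
    rw [e1, e2, e3, n, n, n]
    abel

/-- `UU` for the operators: the first component is the value at `1`. -/
theorem UU_one (u : GG R) : UU (R := R) (Op_P5 R) u 1 = toFree R (Fin 3) u.left := by
  have h1 : ∀ a : FL3 R, piH R (Op R) a = lm (toFree R (Fin 3) a) := by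
    intro a
    induction a using Low.free_induction with
    | hof i =>
      rw [toFree_of]
      fin_cases i
      · exact piH_p
      · show piH R (Op R) (lg R) = lm (fg R)
        rw [piH_g]
        show dv (v1 R) - (dv (v1 R) - lm (fg R)) = _
        rw [sub_sub_cancel]
      · exact piH_s
    | h0 => rw [map_zero, map_zero, lm_zero]
    | hadd a b ha hb => rw [map_add, map_add, lm_add, ha, hb]
    | hsmul c a ha =>
      rw [map_smul, map_smul, ha]
      refine LinearMap.ext fun f => ?_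
      rw [LinearMap.smul_apply, LinearMap.mulLeft_apply, LinearMap.mulLeft_apply, smul_mul_assoc]
    | hlie a b ha hb => rw [LieHom.map_lie, LieHom.map_lie, ha, hb, lm_lm]
  have h2 : ∀ b : LK R, sb (K := R) (Op R 0) (Op R 1) b 1 = 0 := by
    have key : ∀ b : LK R, (∀ f g : F3 R, sb (K := R) (Op R 0) (Op R 1) b (f * g) =
        sb (K := R) (Op R 0) (Op R 1) b f * g + f * sb (K := R) (Op R 0) (Op R 1) b g) := by
      intro b
      induction b using Low.free_induction with
      | hof i =>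
        intro f g
        fin_cases i
        · show sb (K := R) (Op R 0) (Op R 1) (Low.kx R) (f * g) =
            sb (K := R) (Op R 0) (Op R 1) (Low.kx R) f * g + f * sb (K := R) (Op R 0) (Op R 1) (Low.kx R) g
          rw [sb_x]
          exact dv_mul _ f g
        · show sb (K := R) (Op R 0) (Op R 1) (Low.ky R) (f * g) =
            sb (K := R) (Op R 0) (Op R 1) (Low.ky R) f * g + f * sb (K := R) (Op R 0) (Op R 1) (Low.ky R) g
          rw [sb_y]
          exact dv_mul _ f g
      | h0 => intro f g; simp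
      | hadd a b ha hb =>
        intro f g
        rw [map_add, LinearMap.add_apply, LinearMap.add_apply, LinearMap.add_apply, ha, hb,
          add_mul, mul_add]
        abel
      | hsmul c a ha =>
        intro f g
        rw [map_smul, LinearMap.smul_apply, LinearMap.smul_apply, LinearMap.smul_apply, ha,
          smul_add, smul_mul_assoc, mul_smul_comm]
      | hlie a b ha hb =>
        intro f g
        rw [LieHom.map_lie, Ring.lie_def]
        simp only [LinearMap.sub_apply, Module.End.mul_apply, ha, hb, map_add, sub_mul, mul_sub]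
        abel
    intro b
    have := key b 1 1
    rw [mul_one, mul_one, one_mul] at this
    exact (left_eq_add.1 this)
  show (piH R (Op R) u.left + sb (K := R) (Op R 0) (Op R 1) u.right) 1 = _
  rw [LinearMap.add_apply, h1, h2, add_zero, LinearMap.mulLeft_apply, mul_one]

end

end Vale.Agent.P029.Odd
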