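import Vale.Agent.P029.H819.Int
import Vale.Agent.P029.H819.Fin
import Vale.Agent.P029.H140.Hex

/-!
# P029, odd characteristic: the dimensions and the induction step
-/

noncomputable section

attribute [local instance 100] LieRing.ofAssociativeRing
attribute [-instance] LieRing.instLieAlgebra

namespace Vale.Agent.P029.Odd

open Vale.Agent.P029 Low Low.Z819 Low.SolLin

/-- The words of length `n`. -/
abbrev WI (n : ℕ) : Type := Fin n → Fin 2

/-- The matrix of the linearised equations. -/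
def AA (n : ℕ) (w : JJ) (l : WI n) : ℤ := EF ℤ w (Friedrichs.wd ℤ (List.ofFn l))

section
variable (K : Type) [CommRing K] (n : ℕ)

/-- The polynomial with given coefficients. -/
def pol : (WI n → K) →ₗ[K] FA K where
  toFun c := ∑ l, c l • Friedrichs.wd K (List.ofFn l)
  map_add' c d := by simp only [Pi.add_apply, add_smul, Finset.sum_add_distrib]
  map_smul' r c := by
    simp only [Pi.smul_apply, smul_eq_mul, mul_smul, ← Finset.smul_sum, RingHom.id_apply]

variable {K n}

theorem pol_apply (c : WI n → K) : pol K n c = ∑ l, c l • Friedrichs.wd K (List.ofFn l) := rfl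

theorem wd_basis (l : List (Fin 2)) :
    Friedrichs.wd K l = FreeAlgebra.basisFreeMonoid K (Fin 2) (FreeMonoid.ofList l) := by
  rw [Transport.basis_eq, Friedrichs.wd, FreeMonoid.lift_ofList]

theorem pol_inj : Function.Injective (pol K n) := by
  have h1 : LinearIndependent K (fun l : WI n => Friedrichs.wd K (List.ofFn l)) := by
    have h2 := (FreeAlgebra.basisFreeMonoid K (Fin 2)).linearIndependent.comp
      (fun l : WI n => FreeMonoid.ofList (List.ofFn l)) (by
        intro a b hab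
        exact List.ofFn_injective (FreeMonoid.ofList.injective hab))
    have e : (fun l : WI n => Friedrichs.wd K (List.ofFn l)) =
        (FreeAlgebra.basisFreeMonoid K (Fin 2)) ∘ fun l : WI n => FreeMonoid.ofList (List.ofFn l) :=
      funext fun l => wd_basis _
    rw [e]
    exact h2
  rw [injective_iff_map_eq_zero]
  intro c hc
  funext l
  exact Fintype.linearIndependent_iff.1 h1 c hc l

theorem pol_mem (c : WI n → K) : pol K n c ∈ Friedrichs.Wd K n := by
  rw [pol_apply]
  exact Submodule.sum_mem _ fun l _ => Submodule.smul_mem _ _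
    (Submodule.subset_span ⟨_, List.length_ofFn, rfl⟩)

theorem pol_surj {χ : FA K} (h : χ ∈ Friedrichs.Wd K n) : ∃ c, pol K n c = χ := by
  classical
  have : Friedrichs.Wd K n ≤ LinearMap.range (pol K n) := by
    unfold Friedrichs.Wd
    rw [Submodule.span_le]
    rintro _ ⟨l, hl, rfl⟩
    subst hl
    refine ⟨Pi.single l.get 1, ?_⟩
    rw [pol_apply, Finset.sum_eq_single l.get]
    · rw [Pi.single_eq_same, one_smul, List.ofFn_get]
    · intro b _ hb
      rw [Pi.single_eq_of_ne hb, zero_smul]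
    · intro h
      exact absurd (Finset.mem_univ _) h
  exact this h

theorem jF_wd (l : List (Fin 2)) : jF K (Friedrichs.wd ℤ l) = Friedrichs.wd K l := by
  rw [wd_basis, wd_basis, Transport.jj_basis]

theorem EF_pol (w : JJ) (c : WI n → K) :
    EF K w (pol K n c) = ∑ l, (AA n w l : K) * c l := by
  rw [pol_apply, map_sum]
  refine Finset.sum_congr rfl fun l _ => ?_
  rw [map_smul, ← jF_wd, EF_jF, smul_eq_mul, mul_comm]
  rfl

theorem mem_kr' (c : WI n → K) : c ∈ H140.kr K (AA n) ↔ ∀ w, EF K w (pol K n c) = 0 := by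
  rw [H140.mem_kr]
  exact forall_congr' fun w => by rw [EF_pol]

end

section
variable {K : Type} [Field K] {n : ℕ}

/-- Lie elements of weight `n` are sums of words of length `n`. -/
theorem toFree_Wd {ψ : LK K} (h : ψ ∈ wt2 K n) : toFree K (Fin 2) ψ ∈ Friedrichs.Wd K n := by
  have h1 := Friedrichs.hp_mem (toFree K (Fin 2) ψ) n
  rwa [hp, DegE.hg_toFree h, Polynomial.coeff_C_mul, Polynomial.coeff_X_pow, if_pos rfl, mul_one] at h1

theorem map_eq (hn : 2 ≤ n) (hnK : (n : K) ≠ 0) :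
    (H140.kr K (AA n)).map (pol K n) = (Submodule.span K {ψ | H819.IsWn K n ψ}).map
      (toFree K (Fin 2) : LK K →ₗ[K] FA K) := by
  apply le_antisymm
  · rintro _ ⟨c, hc, rfl⟩
    obtain ⟨ψ, hψ, h⟩ := isWn_of_EF hn hnK (pol_mem c) ((mem_kr' c).1 hc)
    exact ⟨ψ, Submodule.subset_span hψ, h⟩
  · rw [Submodule.map_le_iff_le_comap, Submodule.span_le]
    intro ψ hψ
    have hw : ψ ∈ wt2 K n := by
      have := hψ.2
      rwa [wtPart_eq] at this
    obtain ⟨c, hc⟩ := pol_surj (toFree_Wd hw)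
    refine ⟨c, ?_, hc⟩
    rw [SetLike.mem_coe, mem_kr', hc]
    exact EF_of_isWn hn hψ

theorem finrank_kr (hn : 2 ≤ n) (hnK : (n : K) ≠ 0) :
    Module.finrank K (H140.kr K (AA n)) =
      Module.finrank K (Submodule.span K {ψ | H819.IsWn K n ψ}) := by
  have hinj : Function.Injective (toFree K (Fin 2) : LK K →ₗ[K] FA K) := by
    rw [injective_iff_map_eq_zero]
    intro ψ h
    exact toFree_inj2 h
  rw [(Submodule.equivMapOfInjective (pol K n) pol_inj (H140.kr K (AA n))).finrank_eq,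
    (Submodule.equivMapOfInjective _ hinj (Submodule.span K {ψ | H819.IsWn K n ψ})).finrank_eq,
    map_eq hn hnK]

end

/-- a solution in the sense of `Sol` -/
theorem sol_of_isWn {n : ℕ} (hn : 2 ≤ n) {ψ : LK ℂ} (h : H819.IsWn ℂ n ψ) : Sol ℂ n ψ := by
  obtain ⟨⟨hA, hH, hP⟩, hw⟩ := h
  rw [wtPart_eq] at hw
  have h5 := five_eq_zero hn hw hA hP
  refine ⟨hw, (anti_iff ψ).1 hA, (hexa_iff ψ).1 hH, ?_⟩
  intro g _ _ X hX
  have hp := five_univ (P5_ofPS hX) h5
  rw [Fin.sum_univ_five] at hp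
  exact hp

theorem sol_neg {n : ℕ} {ψ : LK ℂ} (h : Sol ℂ n ψ) : Sol ℂ n (-ψ) where
  wt := neg_mem h.wt
  anti := by
    have := h.anti
    rw [map_neg, ← neg_add, this, neg_zero]
  hexa := by
    have := h.hexa
    rw [map_neg, map_neg, ← neg_add, ← neg_add, this, neg_zero]
  penta g _ _ X hX := by
    have := h.penta g X hX
    unfold pent at this ⊢
    simp only [map_neg, ← neg_add]
    rw [this, neg_zero]

section
variable {p : ℕ} [Fact p.Prime]

theorem pol_int {n : ℕ} {c : WI n → ℂ} (hc : ∀ l, c l ∈ ZP p) : pol ℂ n c ∈ FZ p := by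
  rw [pol_apply]
  refine sum_mem fun l _ => ?_
  refine SX_stb (Fin 2) _ (hc l) _ ?_
  rw [Friedrichs.wd]
  refine list_prod_mem fun x hx => ?_
  obtain ⟨i, -, rfl⟩ := List.mem_map.1 hx
  exact SX_ι i

/-- The induction step. -/
theorem step (hp2 : p ≠ 2) {n : ℕ} (hn : 2 ≤ n) (hnp : n < p)
    (hdim : Module.finrank (ZMod p) (H140.kr (ZMod p) (AA n)) ≤
      Module.finrank ℂ (H140.kr ℂ (AA n)))
    {P : FA ℂ} (hP : Assoc p P) (hlow : Odd.Low p n P) :
    ∃ Q, Assoc p Q ∧ Odd.Low p (n + 1) Q := by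
  obtain ⟨c, hc⟩ := pol_surj (Friedrichs.hp_mem P n)
  have h1 : ∀ w, ∃ a ∈ ZP p, ∑ l, (AA n w l : ℂ) * c l = tau ^ n * a := by
    intro w
    obtain ⟨a, ha, e⟩ := EF_int hp2 (by omega : 1 ≤ n) hnp (assoc_mono hnp.le hP) hlow w
    refine ⟨a, ha, ?_⟩
    rw [← e, ← hc, EF_pol]
  obtain ⟨c', hc', h2⟩ := H140.la (AA n) hdim (tau ^ n) c h1
  have h3 : ∀ w, EF ℂ w (pol ℂ n (c - tau ^ n • c')) = 0 := by
    intro w
    rw [EF_pol]
    exact h2 w
  obtain ⟨ψ, hψ, e⟩ := isWn_of_EF hn (by exact_mod_cast (by omega : n ≠ 0)) (pol_mem _) h3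
  have hS := sol_neg (sol_of_isWn hn hψ)
  refine ⟨eTF p (-ψ) P, assoc_exp hn hS hP, ?_⟩
  intro k hk
  rcases Nat.lt_succ_iff_lt_or_eq.1 hk with h | rfl
  · rw [hp_eTF_low hn hS.wt h]
    exact hlow k h
  · rw [hp_eTF_eq hn hnp.le hS.wt hP.one hP.lin, map_neg, e, map_sub, map_smul, hc]
    refine ⟨pol ℂ k c', pol_int hc', ?_⟩
    abel

/-- For every odd prime some weight at most `p - 1` has too many solutions modulo `p`. -/
theorem exists_gt (hp2 : p ≠ 2) : ∃ n, 2 ≤ n ∧ n ≤ p - 1 ∧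
    Module.finrank ℂ (H140.kr ℂ (AA n)) < Module.finrank (ZMod p) (H140.kr (ZMod p) (AA n)) := by
  by_contra hcon
  push Not at hcon
  have hpp : 2 ≤ p := (Fact.out : p.Prime).two_le
  have key : ∀ n, 2 ≤ n → n ≤ p → ∃ Q, Assoc p Q ∧ Odd.Low p n Q := by
    intro n hn
    induction n, hn using Nat.le_induction with
    | base =>
      intro _
      obtain ⟨P, hP, -⟩ := Low.assoc_of_target KZ.target p hpp
      refine ⟨P, hP, ?_⟩
      intro k hk
      interval_cases k
      · exact ⟨1, one_mem _, by rw [hP.one, pow_zero, one_smul]⟩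
      · rw [hP.lin]; exact InL.zero
    | succ n hn ih =>
      intro hnp
      obtain ⟨Q, hQ, hlow⟩ := ih (by omega)
      exact step hp2 hn (by omega) (hcon n hn (by omega)) hQ hlow
  obtain ⟨Q, hQ, hlow⟩ := key p hpp le_rfl
  refine H140.hex_contra hp2 hQ fun k hk => ?_
  obtain ⟨s, hs, e⟩ := hlow k (by omega)
  exact ⟨s, hs, e⟩

end

end Vale.Agent.P029.Odd
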