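import Vale.Agent.P029.H819.Chk
import Vale.Agent.P029.H819.Div

/-!
# P029 over the integers: the prime 691
-/

noncomputable section

attribute [local instance 100] LieRing.ofAssociativeRing
attribute [-instance] LieRing.instLieAlgebra

namespace Vale.Agent.P029.Odd

open Vale.Agent.P029 Low Low.Z819 Low.SolLin IsoInd

theorem sol_of_isWnR {R : Type} [CommRing R] {n : ℕ} (hn : 2 ≤ n) {ψ : LK R}
    (h : H819.IsWn R n ψ) : Sol R n ψ := by
  obtain ⟨⟨hA, hH, hP⟩, hw⟩ := h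
  rw [wtPart_eq] at hw
  have h5 := five_eq_zero hn hw hA hP
  refine ⟨hw, (anti_iff ψ).1 hA, (hexa_iff ψ).1 hH, ?_⟩
  intro g _ _ X hX
  have hp := five_univ (P5_ofPS hX) h5
  rw [Fin.sum_univ_five] at hp
  exact hp

/-- Integral solutions are closed under the Ihara bracket. -/
theorem isWn_iharaZ {m n : ℕ} (hm : 2 ≤ m) (hn : 2 ≤ n) {ψ φ : LK ℤ} (h : H819.IsWn ℤ m ψ)
    (h' : H819.IsWn ℤ n φ) : H819.IsWn ℤ (m + n) (ihara ψ φ) := by
  have h1 := sol_of_isWnR hm (isWn_bcR ℚ hm h)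
  have h2 := sol_of_isWnR hn (isWn_bcR ℚ hn h')
  have h3 := sol_ihara hm hn h1 h2
  have hw := h.2
  have hw' := h'.2
  rw [wtPart_eq] at hw hw'
  have h4 : bc ℚ (ihara ψ φ) ∈ W (m + n) := by
    rw [bc_ihara]
    exact W_of_sol (by omega) h3
  have := isWn_bc (R := ℤ) (by omega : 2 ≤ m + n) (ihara_wt hw hw') h4
  rwa [bc_self] at this

theorem isWn_add {R : Type} [CommRing R] {n : ℕ} {ψ φ : LK R} (h : H819.IsWn R n ψ)
    (h' : H819.IsWn R n φ) : H819.IsWn R n (ψ + φ) := by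
  rw [isWn_iff] at h h' ⊢
  exact add_mem h h'

theorem isWn_smul {R : Type} [CommRing R] {n : ℕ} (c : R) {ψ : LK R} (h : H819.IsWn R n ψ) :
    H819.IsWn R n (c • ψ) := by
  rw [isWn_iff] at h ⊢
  exact Submodule.smul_mem _ _ h

theorem gen_one' {R : Type} [CommRing R] {n k : ℕ}
    (h : ∀ t : Tr ℕ, t.wt w3 = n → t = .leaf k ∨ t.eval (FreeLieAlgebra.of R) = 0)
    {a : H819.F R} (ha : a ∈ H819.Fpart R n) : ∃ r : R, a = r • FreeLieAlgebra.of R k := by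
  rw [H819.Fpart, wtPart_eq] at ha
  have : wtPart R (fun k => 2 * k + 3) n ≤ Submodule.span R {FreeLieAlgebra.of R k} := by
    rw [wtPart, Submodule.span_le]
    rintro _ ⟨t, ht, rfl⟩
    rcases h t ht with h | h
    · rw [h]
      exact Submodule.subset_span rfl
    · rw [h]
      exact zero_mem _
  obtain ⟨r, hr⟩ := Submodule.mem_span_singleton.1 (this ha)
  exact ⟨r, hr.symm⟩

theorem tree_six {R : Type} [CommRing R] (t : Tr ℕ) (ht : t.wt w3 = 6) :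
    t.eval (FreeLieAlgebra.of R) = 0 := by
  cases t with
  | leaf j =>
    rw [Tr.wt_leaf] at ht
    have : 2 * j + 3 = 6 := ht
    omega
  | node a b =>
    rw [Tr.wt_node] at ht
    have := wt_ge a; have := wt_ge b
    rw [tree_one (k := 0) rfl (by norm_num) a (by omega),
      tree_one (k := 0) rfl (by norm_num) b (by omega), Tr.eval_node, lie_self]

theorem tree_nine {R : Type} [CommRing R] (t : Tr ℕ) (ht : t.wt w3 = 9) :
    t = .leaf 3 ∨ t.eval (FreeLieAlgebra.of R) = 0 := by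
  cases t with
  | leaf j =>
    rw [Tr.wt_leaf] at ht
    have : 2 * j + 3 = 9 := ht
    left
    rw [show j = 3 by omega]
  | node a b =>
    right
    rw [Tr.wt_node] at ht
    have := wt_ge a; have := wt_ge b; have := wt_ne4 a; have := wt_ne4 b
    rw [Tr.eval_node]
    by_cases ha : a.wt w3 = 6
    · rw [tree_six a ha, zero_lie]
    · rw [tree_six b (by omega), lie_zero]

/-- A primitive integral solution generates the integral solutions. -/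
theorem gen_int {n k : ℕ} (hn : 2 ≤ n)
    (hF : ∀ a ∈ H819.Fpart ℚ n, ∃ r : ℚ, a = r • FreeLieAlgebra.of ℚ k) {s : LK ℤ}
    (hs : H819.IsWn ℤ n s)
    (g : ∃ (v₁ v₂ : FreeMonoid (Fin 2)) (c₁ c₂ : ℤ), c₁ * cf ℤ v₁ (toFree ℤ (Fin 2) s) +
      c₂ * cf ℤ v₂ (toFree ℤ (Fin 2) s) = 1) (ψ : LK ℤ) :
    H819.IsWn ℤ n ψ ↔ ∃ c : ℤ, ψ = c • s := by
  constructor
  · intro hψ
    obtain ⟨f, -, hsm, -, -, -, hW⟩ := iso_of_unit ℚ (fun m hm => by
      rw [isUnit_iff_ne_zero]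
      intro h0
      have h1 : m = 0 := by exact_mod_cast h0
      subst h1
      exact absurd hm (by decide))
    obtain ⟨x, mx, ex⟩ := (hW n _).1 (isWn_bcR ℚ hn hs)
    obtain ⟨y, my, ey⟩ := (hW n _).1 (isWn_bcR ℚ hn hψ)
    obtain ⟨a, rfl⟩ := hF x mx
    obtain ⟨b, rfl⟩ := hF y my
    obtain ⟨u, hu⟩ := unit_of_cf hsm ex.symm g
    have h1 : bc ℚ ψ = (b * u) • bc ℚ s := by
      rw [← ex, ← ey, hsm, hsm, smul_smul]
      congr 1
      linear_combination -b * hu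
    obtain ⟨v₁, v₂, c₁, c₂, h2⟩ := g
    have h3 : ((c₁ * cf ℤ v₁ (toFree ℤ (Fin 2) ψ) + c₂ * cf ℤ v₂ (toFree ℤ (Fin 2) ψ) : ℤ) : ℚ) =
        b * u := by
      have h4 := congrArg (Int.cast : ℤ → ℚ) h2
      push_cast at h4 ⊢
      rw [← cf_jj, ← cf_jj, jj_toFree, ← bc_eq] at h4 ⊢
      rw [h1, map_smul, map_smul, map_smul, smul_eq_mul, smul_eq_mul]
      linear_combination (b * u) * h4
    refine ⟨c₁ * cf ℤ v₁ (toFree ℤ (Fin 2) ψ) + c₂ * cf ℤ v₂ (toFree ℤ (Fin 2) ψ), ?_⟩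
    rw [← sub_eq_zero]
    apply bc_inj
    rw [map_sub, map_zsmul, h1, ← h3, Int.cast_smul_eq_zsmul, sub_self]
  · rintro ⟨c, rfl⟩
    exact isWn_smul c hs

theorem fact691 : Fact (Nat.Prime 691) := ⟨by norm_num⟩

/-- `s` is a primitive integral solution of weight `n` with the coefficients of the tree `f`. -/
structure Gen (n : ℕ) (f : Cmp.P2) (s : LK ℤ) : Prop where
  isWn : H819.IsWn ℤ n s
  vl : f.to = toFree ℤ (Fin 2) s
  prim : ∃ (v₁ v₂ : FreeMonoid (Fin 2)) (c₁ c₂ : ℤ), c₁ * cf ℤ v₁ (toFree ℤ (Fin 2) s) +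
      c₂ * cf ℤ v₂ (toFree ℤ (Fin 2) s) = 1

theorem Gen.ne {n : ℕ} {f : Cmp.P2} {s : LK ℤ} (h : Gen n f s) : s ≠ 0 := by
  rintro rfl
  obtain ⟨v₁, v₂, c₁, c₂, e⟩ := h.prim
  rw [map_zero, map_zero, map_zero, mul_zero, mul_zero, add_zero] at e
  exact zero_ne_one e

theorem gen3 : ∃ s, Gen 3 Cmp.s3 s := ⟨_, Cmp.chk3.1, Cmp.chk3.2,
  Cmp.wd [false, false, true], 1, -1, 0, by
    rw [← Cmp.chk3.2, Cmp.to_cof, Cmp.cof3]; norm_num⟩

theorem gen5 : ∃ s, Gen 5 Cmp.s5 s := ⟨_, Cmp.chk5.1, Cmp.chk5.2,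
  Cmp.wd [false, true, true, false, false], 1, -1, 0, by
    rw [← Cmp.chk5.2, Cmp.to_cof, Cmp.cof5]; norm_num⟩

theorem gen7 : ∃ s, Gen 7 Cmp.s7 s := ⟨_, Cmp.chk7.1, Cmp.chk7.2,
  Cmp.wd [false, false, false, true, false, false, true],
  Cmp.wd [false, false, false, true, true, true, false], -2, 5, by
    rw [← Cmp.chk7.2, Cmp.to_cof, Cmp.to_cof, Cmp.cof7a, Cmp.cof7b]; norm_num⟩

theorem gen9 : ∃ s, Gen 9 Cmp.s9 s := ⟨_, Cmp.chk9.1, Cmp.chk9.2,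
  Cmp.wd [false, false, false, false, true, true, false, true, true],
  Cmp.wd [false, false, false, true, true, false, false, true, false], 1, -5, by
    rw [← Cmp.chk9.2, Cmp.to_cof, Cmp.to_cof, Cmp.cof9a, Cmp.cof9b]; norm_num⟩

/-- The relation in weight 12. -/
theorem exists_w {a b c d : LK ℤ} (ha : Gen 3 Cmp.s3 a) (hb : Gen 5 Cmp.s5 b)
    (hc : Gen 7 Cmp.s7 c) (hd : Gen 9 Cmp.s9 d) : ∃ w : LK ℤ, H819.IsWn ℤ 12 w ∧
      ((691 : ℕ) : ℤ) • w = (2 : ℤ) • ihara a d + (-27 : ℤ) • ihara b c := by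
  have h1 : H819.IsWn ℤ 12 (ihara a d) :=
    isWn_iharaZ (m := 3) (n := 9) (by norm_num) (by norm_num) ha.isWn hd.isWn
  have h2 : H819.IsWn ℤ 12 (ihara b c) :=
    isWn_iharaZ (m := 5) (n := 7) (by norm_num) (by norm_num) hb.isWn hc.isWn
  have := fact691
  refine exists_div (by norm_num) (isWn_add (isWn_smul 2 h1) (isWn_smul (-27) h2)) ?_
  obtain ⟨q, hq⟩ := Cmp.P2.to_isM Cmp.rel_isM
  refine ⟨q, ?_⟩
  rw [Cmp.rel, Cmp.P2.to_add, Cmp.P2.to_sc, Cmp.P2.to_sc, Cmp.to_iha ha.vl hd.vl,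
    Cmp.to_iha hb.vl hc.vl] at hq
  rw [map_add, map_smul, map_smul]
  exact hq

/-- A graded isomorphism exists only if `691` is invertible. -/
theorem isUnit_691 {R : Type} [CommRing R] (h : ∃ f : H819.F R → H819.L R, H819.IsIso R f) :
    IsUnit (691 : R) := by
  obtain ⟨a, ha⟩ := gen3
  obtain ⟨b, hb⟩ := gen5
  obtain ⟨c, hc⟩ := gen7
  obtain ⟨d, hd⟩ := gen9
  obtain ⟨w, hw, hrel⟩ := exists_w ha hb hc hd
  have := fact691
  have := unit_of_iso (p := 691) h ha.isWn hb.isWn hc.isWn hd.isWn hw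
    (by rw [Int.isCoprime_iff_gcd_eq_one]; decide) hrel hb.prim hc.prim
  exact_mod_cast this

theorem not_iso_int : ¬ ∃ f : H819.F ℤ → H819.L ℤ, H819.IsIso ℤ f := by
  intro h
  have := isUnit_691 h
  rw [Int.isUnit_iff] at this
  omega

/-- The Ihara-Takao relation, in all depths. -/
theorem relation : ∃ a b c d : H819.L ℤ, a ≠ 0 ∧ b ≠ 0 ∧ c ≠ 0 ∧ d ≠ 0 ∧
    (∀ ψ, H819.IsWn ℤ 3 ψ ↔ ∃ m : ℤ, ψ = m • a) ∧ (∀ ψ, H819.IsWn ℤ 5 ψ ↔ ∃ m : ℤ, ψ = m • b) ∧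
    (∀ ψ, H819.IsWn ℤ 7 ψ ↔ ∃ m : ℤ, ψ = m • c) ∧ (∀ ψ, H819.IsWn ℤ 9 ψ ↔ ∃ m : ℤ, ψ = m • d) ∧
    ∃ u v w : H819.L ℤ, H819.IsBr ℤ a d u ∧ H819.IsBr ℤ b c v ∧ H819.IsWn ℤ 12 w ∧
      (2 : ℤ) • u - (27 : ℤ) • v = (691 : ℤ) • w := by
  obtain ⟨a, ha⟩ := gen3
  obtain ⟨b, hb⟩ := gen5
  obtain ⟨c, hc⟩ := gen7
  obtain ⟨d, hd⟩ := gen9
  obtain ⟨w, hw, hrel⟩ := exists_w ha hb hc hd
  refine ⟨a, b, c, d, ha.ne, hb.ne, hc.ne, hd.ne,
    gen_int (k := 0) (by norm_num) (fun x hx => gen_one (tree_one rfl (by norm_num)) hx) ha.isWn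
      ha.prim,
    gen_int (k := 1) (by norm_num) (fun x hx => gen_one (tree_one rfl (by norm_num)) hx) hb.isWn
      hb.prim,
    gen_int (k := 2) (by norm_num) (fun x hx => gen_one (tree_one rfl (by norm_num)) hx) hc.isWn
      hc.prim,
    gen_int (k := 3) (by norm_num) (fun x hx => gen_one' tree_nine hx) hd.isWn hd.prim,
    ihara a d, ihara b c, w, isBr_ihara a d, isBr_ihara b c, hw, ?_⟩
  have e : ((691 : ℕ) : ℤ) = (691 : ℤ) := rfl
  rw [← e, hrel, neg_smul, sub_eq_add_neg]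

end Vale.Agent.P029.Odd
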